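/-
Row 258, block [S4b] (architect helper99).  FILE ChartI: chart sums indexed by an arbitrary finite type, and the lattice-sum toolbox.

* `s4b_evalI th C lam bet chi y`: formula (1) of Definition 4.1 with index type `ι` (no unimodular constant).
* `s4b_chart_of_index`: transport along `Fintype.equivFin ι` to a genuine `Chart` (`a.d = card ι`, `a.th = th ∘ e.symm`, `a.C = C.submatrix e.symm e.symm`,
  `a.chi = chi ∘ (fun x i => x (e i))`, `a.unit = 1`).  `Equiv.tsum_eq` (with `Equiv.arrowCongr e (Equiv.refl ℤ)`), `Equiv.sum_comp`; the precomposition is a continuous linear map of norm `≤ 1`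
  (in fact an isometry): `ContinuousLinearMap.iteratedFDeriv_comp_right` + `ContinuousMultilinearMap.norm_compContinuousLinearMap_le`, or `LinearIsometryEquiv.norm_iteratedFDeriv_comp_right`.
* `s4b_tsum_pi_prod`: `∑_{n ∈ ℤ^ι} ∏_i f_i(n_i) = ∏_i ∑_k f_i(k)` for finitely supported `f_i` (`tsum_eq_sum` on `Fintype.piFinset`, `Finset.prod_univ_sum`).
* three one-dimensional lattice sums.
-/
import Claimed.Agent.R258.Pack012

set_option autoImplicit false
open MeasureTheory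
open scoped ENNReal ContDiff ComplexConjugate Nat

namespace Claimed.Agent.R258

/-- the chart sum with an arbitrary finite index type -/
noncomputable def s4b_evalI {ι : Type} [Fintype ι] (th : ι → ℝ) (C : Matrix ι ι ℚ) (lam bet : ℝ) (chi : (ι → ℝ) → ℂ)
    (y : ℝ) : ℂ :=
  ee (lam * y ^ 2 + bet * y) *
    ∑' n : ι → ℤ, chi (fun i => th i * y - (n i : ℝ)) *
      ee (∑ i, ∑ j, (th i * y) * ((C i j : ℚ) : ℝ) * (th j * y - (n j : ℝ)))

/-- reindexing map `x ↦ x ∘ e` as a continuous linear map -/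
noncomputable def s4b_reidx {ι κ : Type} [Fintype ι] [Fintype κ] (e : ι → κ) : (κ → ℝ) →L[ℝ] (ι → ℝ) :=
  ContinuousLinearMap.pi fun i => ContinuousLinearMap.proj (e i)

theorem s4b_reidx_norm_le {ι κ : Type} [Fintype ι] [Fintype κ] (e : ι → κ) : ‖s4b_reidx e‖ ≤ 1 := by
  refine ContinuousLinearMap.opNorm_le_bound _ zero_le_one fun x => ?_
  rw [one_mul, pi_norm_le_iff_of_nonneg (norm_nonneg _)]
  intro i
  exact norm_le_pi_norm x (e i)

theorem s4b_chart_of_index {ι : Type} [Fintype ι] [DecidableEq ι] (th : ι → ℝ) (C : Matrix ι ι ℚ) (lam bet : ℝ)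
    (chi : (ι → ℝ) → ℂ) (H : ℝ) (hH : Real.exp 2 ≤ H) (hd : (Fintype.card ι : ℝ) ≤ Real.log H)
    (hh : ∀ i j, (qHeight (C i j) : ℝ) ≤ H) (hs : ContDiff ℝ ∞ chi) (hsupp : ∀ x, chi x ≠ 0 → ∀ i, |x i| ≤ H)
    (hder : ∀ (n : ℕ) (x : ι → ℝ),
      ‖iteratedFDeriv ℝ n chi x‖ ≤ H ^ (cGev * ((n : ℝ) + 1)) * ((n : ℝ) + 1) ^ (cGev * ((n : ℝ) + 1))) :
    ∃ a : Chart, a.Cplx H ∧ (∀ i j, ∃ i' j', a.C i j = C i' j') ∧ ∀ y, a.eval y = s4b_evalI th C lam bet chi y := by
  obtain ⟨d, e⟩ : ∃ d : ℕ, Nonempty (ι ≃ Fin d) ∧ d = Fintype.card ι := ⟨_, ⟨Fintype.equivFin ι⟩, rfl⟩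
  obtain ⟨⟨e⟩, hdc⟩ := e
  refine ⟨⟨d, fun i => th (e.symm i), fun i j => C (e.symm i) (e.symm j), lam, bet, fun x => chi (fun i => x (e i)), 1⟩,
    ⟨hH, ?_, fun i j => hh _ _, ?_, ?_, ?_, norm_one⟩, fun i j => ⟨_, _, rfl⟩, ?_⟩
  · dsimp only
    rw [hdc]; exact hd
  · exact hs.comp (s4b_reidx e).contDiff
  · intro x hx i
    have := hsupp _ hx (e.symm i)
    simpa using this
  · intro n x
    dsimp only at x ⊢
    have h1 : (fun x : Fin d → ℝ => chi (fun i => x (e i))) = chi ∘ (s4b_reidx e) := rfl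
    rw [h1, ContinuousLinearMap.iteratedFDeriv_comp_right (s4b_reidx e) hs x (by exact_mod_cast le_top)]
    refine le_trans (ContinuousMultilinearMap.norm_compContinuousLinearMap_le _ _) ?_
    refine le_trans ?_ (hder n (s4b_reidx e x))
    have h2 : ∏ _i : Fin n, ‖s4b_reidx e‖ ≤ 1 := Finset.prod_le_one (fun _ _ => norm_nonneg _) (fun _ _ => s4b_reidx_norm_le e)
    calc _ ≤ ‖iteratedFDeriv ℝ n chi (s4b_reidx e x)‖ * 1 := by gcongr
      _ = _ := mul_one _
  · intro y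
    unfold s4b_evalI Chart.eval Chart.phase
    dsimp only
    rw [one_mul]
    congr 1
    rw [← Equiv.tsum_eq (Equiv.arrowCongr e (Equiv.refl ℤ))]
    refine tsum_congr fun m => ?_
    congr 1
    · simp [Equiv.arrowCongr]
    · congr 1
      rw [← Equiv.sum_comp e]
      refine Finset.sum_congr rfl fun i _ => ?_
      rw [← Equiv.sum_comp e]
      simp [Equiv.arrowCongr]

theorem s4b_tsum_pi_prod {ι : Type} [Fintype ι] [DecidableEq ι] (f : ι → ℤ → ℂ)
    (hf : ∀ i, (Function.support (f i)).Finite) : ∑' n : ι → ℤ, ∏ i, f i (n i) = ∏ i, ∑' k : ℤ, f i k := by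
  set t : ι → Finset ℤ := fun i => (hf i).toFinset with ht
  have h1 : ∀ i, ∑' k, f i k = ∑ k ∈ t i, f i k := fun i => tsum_eq_sum (fun k hk => by simpa [ht] using hk)
  have h2 : ∑' n : ι → ℤ, ∏ i, f i (n i) = ∑ n ∈ Fintype.piFinset t, ∏ i, f i (n i) := tsum_eq_sum (fun n hn => by
    rw [Fintype.mem_piFinset] at hn
    push Not at hn
    obtain ⟨i, hi⟩ := hn
    exact Finset.prod_eq_zero (Finset.mem_univ i) (by simpa [ht] using hi))
  rw [h2]
  simp only [h1]
  rw [Finset.prod_univ_sum]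

theorem s4b_tsum_eta (η : ℝ → ℝ) (h0 : ∀ h, h ≤ 0 → η h = 0) (h1 : ∀ h, 1 ≤ h → η h = 0) (v : ℝ) (G : ℤ → ℂ) :
    (Function.support fun m : ℤ => (η (v - m) : ℂ) * G m).Finite ∧
    ∑' m : ℤ, (η (v - m) : ℂ) * G m = (η (Int.fract v) : ℂ) * G ⌊v⌋ := by
  have hz : ∀ m : ℤ, m ≠ ⌊v⌋ → (η (v - m) : ℂ) * G m = 0 := by
    intro m hm
    have : η (v - m) = 0 := by
      rcases lt_or_gt_of_ne hm with h | h
      · apply h1
        have h2 : m + 1 ≤ ⌊v⌋ := h
        have h3 : ((m + 1 : ℤ) : ℝ) ≤ v := le_trans (by exact_mod_cast h2) (Int.floor_le v)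
        push_cast at h3
        linarith
      · apply h0
        have h2 : ⌊v⌋ + 1 ≤ m := h
        have h3 : v < ((⌊v⌋ + 1 : ℤ) : ℝ) := by push_cast; exact Int.lt_floor_add_one v
        have h4 : ((⌊v⌋ + 1 : ℤ) : ℝ) ≤ (m : ℝ) := by exact_mod_cast h2
        linarith
    rw [this]; simp
  refine ⟨(Set.finite_singleton ⌊v⌋).subset (fun m hm => ?_), ?_⟩
  · by_contra hne
    exact hm (hz m hne)
  · rw [tsum_eq_single ⌊v⌋ (fun m hm => hz m hm), Int.self_sub_floor]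

theorem s4b_tsum_rho (S : ℝ → ℝ) (h0 : ∀ t, t ≤ 0 → S t = 0) (h1 : ∀ t, 1 ≤ t → S t = 1) (r : ℝ) :
    (Function.support fun l : ℤ => ((S (r - l + 1) - S (r - l) : ℝ) : ℂ)).Finite ∧
    ∑' l : ℤ, ((S (r - l + 1) - S (r - l) : ℝ) : ℂ) = 1 := by
  set m : ℤ := ⌊r⌋ with hm
  have hm1 : (m : ℝ) ≤ r := Int.floor_le r
  have hm2 : r < (m : ℝ) + 1 := Int.lt_floor_add_one r
  have hz : ∀ l : ℤ, l ∉ ({m, m + 1} : Finset ℤ) → ((S (r - l + 1) - S (r - l) : ℝ) : ℂ) = 0 := by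
    intro l hl
    simp only [Finset.mem_insert, Finset.mem_singleton, not_or] at hl
    have : S (r - l + 1) - S (r - l) = 0 := by
      rcases lt_or_gt_of_ne hl.1 with h | h
      · have h2 : l + 1 ≤ m := h
        have h3 : ((l + 1 : ℤ) : ℝ) ≤ (m : ℝ) := by exact_mod_cast h2
        push_cast at h3
        rw [h1 _ (by linarith), h1 _ (by linarith), sub_self]
      · have h2 : m + 2 ≤ l := by
          have : m + 1 ≤ l := h
          rcases this.lt_or_eq with h' | h'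
          · omega
          · exact absurd h'.symm hl.2
        have h3 : ((m + 2 : ℤ) : ℝ) ≤ (l : ℝ) := by exact_mod_cast h2
        push_cast at h3
        rw [h0 _ (by linarith), h0 _ (by linarith), sub_self]
    rw [this]; simp
  refine ⟨(Finset.finite_toSet ({m, m + 1} : Finset ℤ)).subset (fun l hl => ?_), ?_⟩
  · by_contra hne
    exact hl (hz l hne)
  · rw [tsum_eq_sum hz, Finset.sum_pair (by omega)]
    push_cast
    rw [h1 (r - m + 1) (by linarith), h0 (r - (m + 1)) (by linarith)]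
    have : r - ((m : ℝ) + 1) + 1 = r - m := by ring
    rw [this]
    push_cast
    ring

theorem s4b_tsum_cut (χ : ℝ → ℝ) (ρ : ℝ) (hρ : ρ ≤ 1 / 4) (hχ : ∀ t, ρ ≤ |t| → χ t = 0) (t : ℝ) (G : ℤ → ℂ) :
    (Function.support fun k : ℤ => (χ (t - k) : ℂ) * G k).Finite ∧
    ∑' k : ℤ, (χ (t - k) : ℂ) * G k = (χ (s4b_fr t) : ℂ) * G (round t) := by
  have hz : ∀ k : ℤ, k ≠ round t → (χ (t - k) : ℂ) * G k = 0 := by
    intro k hk
    have : χ (t - k) = 0 := by
      apply hχ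
      by_contra hcon
      push Not at hcon
      apply hk
      have h1 : |t - round t| ≤ 1 / 2 := abs_sub_round t
      have h2 : |((k - round t : ℤ) : ℝ)| < 1 := by
        push_cast
        have e : (k : ℝ) - (round t : ℝ) = (t - round t) - (t - k) := by ring
        rw [e]
        calc |(t - round t) - (t - k)| ≤ |t - round t| + |t - k| := abs_sub _ _
          _ < 1 := by linarith
      have h3 : |k - round t| < 1 := by exact_mod_cast h2
      have h4 : k - round t = 0 := Int.abs_lt_one_iff.mp h3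
      omega
    rw [this]; simp
  refine ⟨(Set.finite_singleton (round t)).subset (fun k hk => ?_), ?_⟩
  · by_contra hne
    exact hk (hz k hne)
  · rw [tsum_eq_single (round t) (fun k hk => hz k hk)]
    rfl

/-- the cutoff conditions of `s4b_U3Target` -/
def s4b_IsCut {d : ℕ} (ρ κ : ℝ) (χ : (Fin d → ℝ) → ℝ) : Prop :=
  (∀ t, 0 ≤ χ t ∧ χ t ≤ 1) ∧ (∀ t, (∀ j, |t j| ≤ ρ * (1 - κ)) → χ t = 1) ∧ (∀ t, (∃ j, ρ ≤ |t j|) → χ t = 0)

/-- the conditions on the cell cutoff `η` -/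
def s4b_IsEta (ε : ℝ) (η : ℝ → ℝ) : Prop :=
  Continuous η ∧ (∀ h, 0 ≤ η h ∧ η h ≤ 1) ∧ (∀ h, ε ≤ h → h ≤ 1 - ε → η h = 1)

end Claimed.Agent.R258
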