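/-
Row 258, block [S4b] (architect helper99).  FILE Brk: the EXACT FLOOR INTERPOLATION of a sampled bracket phase is a chart atom (charts.tex l.955-1030, specialised: matrix entries 0, 1, -1).

DATA.  Index type `s4b_Ix d = (Fin d ⊕ Fin d) ⊕ Bool`; a lift vector `x` has the coordinates
     `w_j = x (inl (inl j))`,  `r_j = x (inl (inr j))`,  `h = x (inr false)`,  `s = x (inr true)`;
  `th = (θ, α, 1, γ)`, `γ = 2 lam + ∑ α_j θ_j`;  `C[α_j, θ_j] = 1`, `C[γ, 1] = -1`, all other entries `0`;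
  `chi(x) = ∏_j cut1(w_j - θ_j h) · eta1(h) · ∏_j rho1(r_j) · rho1(s) · e(Q(x))`,  `Q = -∑ α_j h w_j + (∑ α_j θ_j) h² + lam h² - β h`.

`s4b_brk_eval` (ALL real parameters).  Fix `v`, `m₀ = ⌊v⌋`, `h₀ = v - m₀`.  The chart phase is `∑_j α_j v w_j - γ v h` (`w_j = θ_j v - k_j`, `h = v - m`).
  Since `eta1(v - m) = 0` unless `m = m₀`, the summand equals for EVERY index `n = (k,l,m,p)` the pure tensor
     `e(c₀) · eta1(v - m) · ∏_j [cut1(θ_j m₀ - k_j) e(α_j m₀ (θ_j v - k_j))] · ∏_j rho1(α_j v - l_j) · rho1(γ v - p)`,   `c₀ = -γ v h₀ + (∑ α_j θ_j + lam) h₀² - β h₀`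
  (`w_j - θ_j h₀ = θ_j m₀ - k_j`, `α_j v w_j - α_j h₀ w_j = α_j m₀ w_j`).  `s4b_tsum_pi_prod` + `Fintype.prod_sum_type` + `s4b_tsum_eta`, `s4b_tsum_cut`, `s4b_tsum_rho`:
  the sum is `e(c₀) eta1(h₀) ∏_j cut1(f_j) e(α_j m₀ (f_j + θ_j h₀))`, `f_j = fr(θ_j m₀)` (`θ_j v - round(θ_j m₀) = f_j + θ_j h₀`).  Total phase:
     `lam v² + β v + c₀ + ∑ α_j m₀ f_j + ∑ α_j θ_j m₀ h₀ = lam m₀² + β m₀ + ∑ α_j m₀ f_j`      (`v = m₀ + h₀`, `ring`).
`s4b_brk_reduce`: `fr` is 1-periodic, `ee` is 1-periodic; `⌊α_j⌋ m fr(θ'_j m) = ⌊α_j⌋ θ'_j m² - (integer)`.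
`s4b_brk_cplx` (parameters in `[0,1)`): calculus of block [GEV] (`R258/Gev/Calc*.lean`, all PROVED) on the closed cube `K = {x | ∀ i, |x i| ≤ 2}`:
  `hS.gev : Gev 2 1 A S`;  `cut1(w_j - θ_j h)` = two factors `S ∘ (affine map, linear part of norm ≤ 2/(ρκ) ≤ 2H²)` (`gev_comp_affine`, `gev_mul`);  `eta1`: two factors (norm `≤ 1/ε ≤ H`);
  `rho1`: `gev_sub` (constant `B = 2`) + `gev_comp_proj`;  `gev_prod`, `gev_ofReal`;  `e(Q)`: `gev_ee_comp` (order 1, then `gev_mono` to order 2), `Q` of order `0` on `K` by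
  `gev_quadform`/`gev_linform` (or `gev_coord`, `gev_mul`, `gev_sum`, `gev_const_smul`) with `B ≤ 20 (d+1)`, `A ≤ 2`.
  Result `GevOn 2 B' A' chi K` with `A' ≤ c A (d+1) H²`, `B' ≤ 2^(d+1)`; `d ≤ log H`; then `s4b_cplx_deriv_of_gev` (`S4b/Gev.lean`).
-/
import Claimed.Agent.R258.S4b.ChartI
import Claimed.Agent.R258.Pack012
import Claimed.Agent.R258.Gev.Quad

set_option autoImplicit false
open MeasureTheory
open scoped ENNReal ContDiff ComplexConjugate Nat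

namespace Claimed.Agent.R258

abbrev s4b_Ix (d : ℕ) : Type := (Fin d ⊕ Fin d) ⊕ Bool

noncomputable def s4b_cut1 (S : ℝ → ℝ) (ρ κ t : ℝ) : ℝ := S ((ρ + t) / (ρ * κ)) * S ((ρ - t) / (ρ * κ))
noncomputable def s4b_eta1 (S : ℝ → ℝ) (ε h : ℝ) : ℝ := S (h / ε) * S ((1 - h) / ε)
noncomputable def s4b_rho1 (S : ℝ → ℝ) (r : ℝ) : ℝ := S (r + 1) - S r

/-- horizontal frequencies `(θ, α, 1, γ)` -/
def s4b_bth {d : ℕ} (θ α : Fin d → ℝ) (γ : ℝ) : s4b_Ix d → ℝ :=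
  Sum.elim (Sum.elim θ α) (fun b => if b then γ else 1)

/-- the chart matrix -/
def s4b_bC (d : ℕ) : Matrix (s4b_Ix d) (s4b_Ix d) ℚ := fun i j =>
  match i, j with
  | Sum.inl (Sum.inr a), Sum.inl (Sum.inl b) => if a = b then 1 else 0
  | Sum.inr true, Sum.inr false => -1
  | _, _ => 0

/-- the quadratic phase of the amplitude -/
noncomputable def s4b_bQ {d : ℕ} (θ α : Fin d → ℝ) (lam β : ℝ) (x : s4b_Ix d → ℝ) : ℝ :=
  -(∑ j, α j * x (Sum.inr false) * x (Sum.inl (Sum.inl j))) + (∑ j, α j * θ j) * x (Sum.inr false) ^ 2 +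
    lam * x (Sum.inr false) ^ 2 - β * x (Sum.inr false)

/-- the amplitude -/
noncomputable def s4b_bchi {d : ℕ} (S : ℝ → ℝ) (θ α : Fin d → ℝ) (lam β ρ κ ε : ℝ) (x : s4b_Ix d → ℝ) : ℂ :=
  (((∏ j, s4b_cut1 S ρ κ (x (Sum.inl (Sum.inl j)) - θ j * x (Sum.inr false))) * s4b_eta1 S ε (x (Sum.inr false)) *
    (∏ j, s4b_rho1 S (x (Sum.inl (Sum.inr j)))) * s4b_rho1 S (x (Sum.inr true)) : ℝ) : ℂ) * ee (s4b_bQ θ α lam β x)

theorem s4b_cut1_mem {S : ℝ → ℝ} {A : ℝ} (hS : s4b_IsStep S A) (ρ κ t : ℝ) : 0 ≤ s4b_cut1 S ρ κ t ∧ s4b_cut1 S ρ κ t ≤ 1 := by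
  unfold s4b_cut1
  exact ⟨mul_nonneg (hS.nonneg _) (hS.nonneg _), mul_le_one₀ (hS.le_one _) (hS.nonneg _) (hS.le_one _)⟩

theorem s4b_cut1_zero {S : ℝ → ℝ} {A : ℝ} (hS : s4b_IsStep S A) {ρ κ t : ℝ} (hρ : 0 < ρ) (hκ : 0 < κ) (ht : ρ ≤ |t|) :
    s4b_cut1 S ρ κ t = 0 := by
  unfold s4b_cut1
  have hd : 0 < ρ * κ := mul_pos hρ hκ
  rcases le_abs.mp ht with h | h
  · rw [hS.zero ((ρ - t) / (ρ * κ)) (div_nonpos_of_nonpos_of_nonneg (by linarith) hd.le), mul_zero]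
  · rw [hS.zero ((ρ + t) / (ρ * κ)) (div_nonpos_of_nonpos_of_nonneg (by linarith) hd.le), zero_mul]

theorem s4b_cut1_one {S : ℝ → ℝ} {A : ℝ} (hS : s4b_IsStep S A) {ρ κ t : ℝ} (hρ : 0 < ρ) (hκ : 0 < κ)
    (ht : |t| ≤ ρ * (1 - κ)) : s4b_cut1 S ρ κ t = 1 := by
  unfold s4b_cut1
  have hd : 0 < ρ * κ := mul_pos hρ hκ
  obtain ⟨h1, h2⟩ := abs_le.mp ht
  rw [hS.one ((ρ + t) / (ρ * κ)) (by rw [le_div_iff₀ hd]; nlinarith),
    hS.one ((ρ - t) / (ρ * κ)) (by rw [le_div_iff₀ hd]; nlinarith), one_mul]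

theorem s4b_isCut_prod {S : ℝ → ℝ} {A : ℝ} (hS : s4b_IsStep S A) (d : ℕ) (ρ κ : ℝ) (hρ : 0 < ρ) (hκ : 0 < κ) :
    s4b_IsCut ρ κ (fun t : Fin d → ℝ => ∏ j, s4b_cut1 S ρ κ (t j)) := by
  refine ⟨fun t => ⟨Finset.prod_nonneg fun j _ => (s4b_cut1_mem hS ρ κ _).1,
    Finset.prod_le_one (fun j _ => (s4b_cut1_mem hS ρ κ _).1) (fun j _ => (s4b_cut1_mem hS ρ κ _).2)⟩, ?_, ?_⟩
  · intro t ht
    exact Finset.prod_eq_one fun j _ => s4b_cut1_one hS hρ hκ (ht j)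
  · rintro t ⟨j, hj⟩
    exact Finset.prod_eq_zero (Finset.mem_univ j) (s4b_cut1_zero hS hρ hκ hj)

theorem s4b_isEta_eta1 {S : ℝ → ℝ} {A : ℝ} (hS : s4b_IsStep S A) (ε : ℝ) (hε : 0 < ε) : s4b_IsEta ε (s4b_eta1 S ε) := by
  have hc : Continuous S := hS.gev.smooth.continuous
  refine ⟨?_, fun h => ⟨mul_nonneg (hS.nonneg _) (hS.nonneg _), mul_le_one₀ (hS.le_one _) (hS.nonneg _) (hS.le_one _)⟩, ?_⟩
  · unfold s4b_eta1
    exact (hc.comp (continuous_id.div_const ε)).mul (hc.comp ((continuous_const.sub continuous_id).div_const ε))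
  · intro h h1 h2
    unfold s4b_eta1
    rw [hS.one (h / ε) (by rw [le_div_iff₀ hε]; linarith), hS.one ((1 - h) / ε) (by rw [le_div_iff₀ hε]; linarith), one_mul]

theorem s4b_fr_add_int (x : ℝ) (n : ℤ) : s4b_fr (x + n) = s4b_fr x := by
  unfold s4b_fr
  rw [round_add_intCast]
  push_cast
  ring

theorem s4b_ee_add_int (x : ℝ) (n : ℤ) : ee (x + n) = ee x := by
  rw [gev_ee_add, gev_ee_int, mul_one]

theorem s4b_brk_reduce (d : ℕ) (θ α : Fin d → ℝ) (lam β : ℝ) (m : ℤ) :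
    (∀ j, s4b_fr (θ j * (m : ℝ)) = s4b_fr (Int.fract (θ j) * (m : ℝ))) ∧
    ee (lam * (m : ℝ) ^ 2 + β * (m : ℝ) + ∑ j, α j * (m : ℝ) * s4b_fr (θ j * (m : ℝ))) =
      ee (Int.fract (lam + ∑ j, ((⌊α j⌋ : ℤ) : ℝ) * Int.fract (θ j)) * (m : ℝ) ^ 2 + Int.fract β * (m : ℝ) +
        ∑ j, Int.fract (α j) * (m : ℝ) * s4b_fr (Int.fract (θ j) * (m : ℝ))) := by
  have h1 : ∀ j, s4b_fr (θ j * (m : ℝ)) = s4b_fr (Int.fract (θ j) * (m : ℝ)) := by
    intro j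
    have e : θ j * (m : ℝ) = Int.fract (θ j) * (m : ℝ) + ((⌊θ j⌋ * m : ℤ) : ℝ) := by
      push_cast
      rw [← Int.self_sub_floor]
      ring
    rw [e, s4b_fr_add_int]
  refine ⟨h1, ?_⟩
  simp only [h1]
  set N : ℤ := ⌊lam + ∑ j, ((⌊α j⌋ : ℤ) : ℝ) * Int.fract (θ j)⌋ with hN
  have e : lam * (m : ℝ) ^ 2 + β * (m : ℝ) + ∑ j, α j * (m : ℝ) * s4b_fr (Int.fract (θ j) * (m : ℝ)) =
      (Int.fract (lam + ∑ j, ((⌊α j⌋ : ℤ) : ℝ) * Int.fract (θ j)) * (m : ℝ) ^ 2 + Int.fract β * (m : ℝ) +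
        ∑ j, Int.fract (α j) * (m : ℝ) * s4b_fr (Int.fract (θ j) * (m : ℝ))) +
      ((N * m ^ 2 + ⌊β⌋ * m - ∑ j, ⌊α j⌋ * m * round (Int.fract (θ j) * (m : ℝ)) : ℤ) : ℝ) := by
    push_cast
    rw [← Int.self_sub_floor (lam + ∑ j, ((⌊α j⌋ : ℤ) : ℝ) * Int.fract (θ j)), ← hN, ← Int.self_sub_floor β]
    have e2 : ∀ j, α j * (m : ℝ) * s4b_fr (Int.fract (θ j) * (m : ℝ)) =
        Int.fract (α j) * (m : ℝ) * s4b_fr (Int.fract (θ j) * (m : ℝ)) +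
          (((⌊α j⌋ : ℤ) : ℝ) * Int.fract (θ j)) * (m : ℝ) ^ 2 -
          ((⌊α j⌋ : ℤ) : ℝ) * (m : ℝ) * ((round (Int.fract (θ j) * (m : ℝ)) : ℤ) : ℝ) := by
      intro j
      unfold s4b_fr
      rw [← Int.self_sub_floor (α j)]
      ring
    simp only [e2, Finset.sum_add_distrib, Finset.sum_sub_distrib, ← Finset.sum_mul]
    ring
  rw [e, s4b_ee_add_int]

/-- the chart phase of the matrix `s4b_bC` -/
theorem s4b_bC_phase (d : ℕ) (u x : s4b_Ix d → ℝ) :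
    ∑ i, ∑ j, u i * ((s4b_bC d i j : ℚ) : ℝ) * x j =
      (∑ a, u (Sum.inl (Sum.inr a)) * x (Sum.inl (Sum.inl a))) - u (Sum.inr true) * x (Sum.inr false) := by
  simp only [Fintype.sum_sum_type, Fintype.sum_bool, s4b_bC]
  simp only [Rat.cast_zero, mul_zero, zero_mul, Finset.sum_const_zero, add_zero, zero_add, Rat.cast_neg, Rat.cast_one,
    mul_neg, mul_one, neg_mul]
  rw [sub_eq_add_neg]
  congr 1
  refine Finset.sum_congr rfl fun a _ => ?_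
  rw [Finset.sum_eq_single a (fun b _ hb => by simp [Ne.symm hb]) (fun h => absurd (Finset.mem_univ a) h)]
  simp

theorem s4b_ee_sum {ι : Type*} (s : Finset ι) (a : ι → ℝ) : ee (∑ i ∈ s, a i) = ∏ i ∈ s, ee (a i) := by
  classical
  induction s using Finset.induction_on with
  | empty => simp [gev_ee_zero]
  | insert i s hi ih => rw [Finset.sum_insert hi, Finset.prod_insert hi, gev_ee_add, ih]

theorem s4b_eta1_zero {S : ℝ → ℝ} {A : ℝ} (hS : s4b_IsStep S A) {ε h : ℝ} (hε : 0 < ε) (hh : h ≤ 0 ∨ 1 ≤ h) :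
    s4b_eta1 S ε h = 0 := by
  unfold s4b_eta1
  rcases hh with h1 | h1
  · rw [hS.zero (h / ε) (div_nonpos_of_nonpos_of_nonneg h1 hε.le), zero_mul]
  · rw [hS.zero ((1 - h) / ε) (div_nonpos_of_nonpos_of_nonneg (by linarith) hε.le), mul_zero]

theorem s4b_brk_eval {S : ℝ → ℝ} {A : ℝ} (hS : s4b_IsStep S A) (d : ℕ) (θ α : Fin d → ℝ) (lam β ρ κ ε : ℝ)
    (hρ : 0 < ρ) (hρ' : ρ ≤ 1 / 4) (hκ : 0 < κ) (hε : 0 < ε) (v : ℝ) :
    s4b_evalI (s4b_bth θ α (2 * lam + ∑ j, α j * θ j)) (s4b_bC d) lam β (s4b_bchi S θ α lam β ρ κ ε) v =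
      (s4b_eta1 S ε (Int.fract v) : ℂ) * ((∏ j, s4b_cut1 S ρ κ (s4b_fr (θ j * ((⌊v⌋ : ℤ) : ℝ))) : ℝ) : ℂ) *
        ee (lam * ((⌊v⌋ : ℤ) : ℝ) ^ 2 + β * ((⌊v⌋ : ℤ) : ℝ) + ∑ j, α j * ((⌊v⌋ : ℤ) : ℝ) * s4b_fr (θ j * ((⌊v⌋ : ℤ) : ℝ))) := by
  set γ : ℝ := 2 * lam + ∑ j, α j * θ j with hγ
  set m₀ : ℤ := ⌊v⌋ with hm₀
  set h₀ : ℝ := Int.fract v with hh₀
  have hv : v = (m₀ : ℝ) + h₀ := (Int.floor_add_fract v).symm
  set c₀ : ℝ := -(γ * v * h₀) + ((∑ j, α j * θ j) + lam) * h₀ ^ 2 - β * h₀ with hc₀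
  set F1 : Fin d → ℤ → ℂ := fun j k => (s4b_cut1 S ρ κ (θ j * (m₀ : ℝ) - k) : ℂ) * ee (α j * (m₀ : ℝ) * (θ j * v - k)) with hF1
  set F2 : Fin d → ℤ → ℂ := fun j k => ((S (α j * v - k + 1) - S (α j * v - k) : ℝ) : ℂ) with hF2
  set F3 : ℤ → ℂ := fun k => (s4b_eta1 S ε (v - k) : ℂ) * 1 with hF3
  set F4 : ℤ → ℂ := fun k => ((S (γ * v - k + 1) - S (γ * v - k) : ℝ) : ℂ) with hF4
  set F : s4b_Ix d → ℤ → ℂ := Sum.elim (Sum.elim F1 F2) (fun b => if b then F4 else F3) with hF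
  have t1 := fun j => s4b_tsum_cut (s4b_cut1 S ρ κ) ρ hρ' (fun t ht => s4b_cut1_zero hS hρ hκ ht) (θ j * (m₀ : ℝ))
    (fun k => ee (α j * (m₀ : ℝ) * (θ j * v - k)))
  have t2 := fun j => s4b_tsum_rho S hS.zero hS.one (α j * v)
  have t3 := s4b_tsum_eta (s4b_eta1 S ε) (fun h hh => s4b_eta1_zero hS hε (Or.inl hh))
    (fun h hh => s4b_eta1_zero hS hε (Or.inr hh)) v (fun _ => 1)
  have t4 := s4b_tsum_rho S hS.zero hS.one (γ * v)
  have hfin : ∀ i, (Function.support (F i)).Finite := by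
    rintro ((j | j) | b)
    · exact (t1 j).1
    · exact (t2 j).1
    · cases b
      · exact t3.1
      · exact t4.1
  have hprod : ∀ G : s4b_Ix d → ℂ, ∏ i, G i = (∏ j, G (Sum.inl (Sum.inl j))) * (∏ j, G (Sum.inl (Sum.inr j))) *
      (G (Sum.inr true) * G (Sum.inr false)) := by
    intro G
    rw [Fintype.prod_sum_type, Fintype.prod_sum_type, Fintype.prod_bool]
  have key : ∀ n : s4b_Ix d → ℤ,
      s4b_bchi S θ α lam β ρ κ ε (fun i => s4b_bth θ α γ i * v - (n i : ℝ)) *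
        ee (∑ i, ∑ j, (s4b_bth θ α γ i * v) * ((s4b_bC d i j : ℚ) : ℝ) * (s4b_bth θ α γ j * v - (n j : ℝ))) =
      ee c₀ * ∏ i, F i (n i) := by
    intro n
    rw [s4b_bC_phase, hprod]
    simp only [hF, Sum.elim_inl, Sum.elim_inr, s4b_bth, if_true, Bool.false_eq_true, if_false, s4b_bchi, s4b_bQ, one_mul]
    by_cases hm : n (Sum.inr false) = m₀
    · have hh : v - (n (Sum.inr false) : ℝ) = h₀ := by rw [hm, hv]; ring
      simp only [hF1, hF2, hF3, hF4, Finset.prod_mul_distrib, ← s4b_ee_sum, s4b_rho1]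
      simp only [hh]
      have e1 : ∀ j, θ j * v - (n (Sum.inl (Sum.inl j)) : ℝ) - θ j * h₀ = θ j * (m₀ : ℝ) - (n (Sum.inl (Sum.inl j)) : ℝ) := by
        intro j
        rw [hv]; ring
      simp only [e1]
      have e2 : ee (-∑ j, α j * h₀ * (θ j * v - (n (Sum.inl (Sum.inl j)) : ℝ)) + (∑ j, α j * θ j) * h₀ ^ 2 + lam * h₀ ^ 2 - β * h₀) *
          ee (∑ a, α a * v * (θ a * v - (n (Sum.inl (Sum.inl a)) : ℝ)) - γ * v * h₀) =
          ee c₀ * ee (∑ j, α j * (m₀ : ℝ) * (θ j * v - (n (Sum.inl (Sum.inl j)) : ℝ))) := by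
        rw [← gev_ee_add, ← gev_ee_add]
        congr 1
        have e3 : ∑ a, α a * v * (θ a * v - (n (Sum.inl (Sum.inl a)) : ℝ)) =
            ∑ j, α j * (m₀ : ℝ) * (θ j * v - (n (Sum.inl (Sum.inl j)) : ℝ)) +
              ∑ j, α j * h₀ * (θ j * v - (n (Sum.inl (Sum.inl j)) : ℝ)) := by
          rw [← Finset.sum_add_distrib]
          refine Finset.sum_congr rfl fun j _ => ?_
          have : α j * v = α j * (m₀ : ℝ) + α j * h₀ := by rw [hv]; ring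
          rw [this]; ring
        rw [e3, hc₀]
        ring
      push_cast
      calc _ = (∏ j, (s4b_cut1 S ρ κ (θ j * (m₀ : ℝ) - (n (Sum.inl (Sum.inl j)) : ℝ)) : ℂ)) * (s4b_eta1 S ε h₀ : ℂ) *
            (∏ j, ((S (α j * v - (n (Sum.inl (Sum.inr j)) : ℝ) + 1) : ℂ) - (S (α j * v - (n (Sum.inl (Sum.inr j)) : ℝ)) : ℂ))) *
            ((S (γ * v - (n (Sum.inr true) : ℝ) + 1) : ℂ) - (S (γ * v - (n (Sum.inr true) : ℝ)) : ℂ)) *
            (ee (-∑ j, α j * h₀ * (θ j * v - (n (Sum.inl (Sum.inl j)) : ℝ)) + (∑ j, α j * θ j) * h₀ ^ 2 + lam * h₀ ^ 2 - β * h₀) *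
              ee (∑ a, α a * v * (θ a * v - (n (Sum.inl (Sum.inl a)) : ℝ)) - γ * v * h₀)) := by ring
        _ = _ := by rw [e2]; ring
    · have hz : s4b_eta1 S ε (v - (n (Sum.inr false) : ℝ)) = 0 := by
        apply s4b_eta1_zero hS hε
        rcases lt_or_gt_of_ne hm with h | h
        · right
          have h2 : n (Sum.inr false) + 1 ≤ m₀ := h
          have h3 : ((n (Sum.inr false) + 1 : ℤ) : ℝ) ≤ v := le_trans (by exact_mod_cast h2) (Int.floor_le v)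
          push_cast at h3
          linarith
        · left
          have h2 : m₀ + 1 ≤ n (Sum.inr false) := h
          have h3 : v < ((m₀ + 1 : ℤ) : ℝ) := by push_cast; exact Int.lt_floor_add_one v
          have h4 : ((m₀ + 1 : ℤ) : ℝ) ≤ (n (Sum.inr false) : ℝ) := by exact_mod_cast h2
          linarith
      simp only [hF3, hz]
      simp
  unfold s4b_evalI
  simp only [key]
  rw [tsum_mul_left, s4b_tsum_pi_prod F hfin, hprod]
  simp only [hF, Sum.elim_inl, Sum.elim_inr, if_true, Bool.false_eq_true, if_false]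
  have T1 : ∀ j, ∑' k, F1 j k = (s4b_cut1 S ρ κ (s4b_fr (θ j * (m₀ : ℝ))) : ℂ) *
      ee (α j * (m₀ : ℝ) * (θ j * v - (round (θ j * (m₀ : ℝ)) : ℤ))) := fun j => (t1 j).2
  have T2 : ∀ j, ∑' k, F2 j k = 1 := fun j => (t2 j).2
  have T3 : ∑' k, F3 k = (s4b_eta1 S ε h₀ : ℂ) * 1 := t3.2
  have T4 : ∑' k, F4 k = 1 := t4.2
  simp only [T1, T2, T3, T4, Finset.prod_mul_distrib, ← s4b_ee_sum, Finset.prod_const_one, mul_one, one_mul]
  have e5 : ee (lam * v ^ 2 + β * v) * (ee c₀ * ee (∑ j, α j * (m₀ : ℝ) * (θ j * v - (round (θ j * (m₀ : ℝ)) : ℤ)))) =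
      ee (lam * (m₀ : ℝ) ^ 2 + β * (m₀ : ℝ) + ∑ j, α j * (m₀ : ℝ) * s4b_fr (θ j * (m₀ : ℝ))) := by
    rw [← gev_ee_add, ← gev_ee_add]
    congr 1
    have e6 : ∑ j, α j * (m₀ : ℝ) * (θ j * v - (round (θ j * (m₀ : ℝ)) : ℤ)) =
        ∑ j, α j * (m₀ : ℝ) * s4b_fr (θ j * (m₀ : ℝ)) + (∑ j, α j * θ j) * ((m₀ : ℝ) * h₀) := by
      rw [Finset.sum_mul, ← Finset.sum_add_distrib]
      refine Finset.sum_congr rfl fun j _ => ?_
      unfold s4b_fr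
      have : θ j * v = θ j * (m₀ : ℝ) + θ j * h₀ := by rw [hv]; ring
      rw [this]; ring
    rw [e6, hc₀, hγ]
    have hv2 : v = (m₀ : ℝ) + h₀ := hv
    generalize (∑ j, α j * θ j) = σ
    generalize (∑ j, α j * (m₀ : ℝ) * s4b_fr (θ j * (m₀ : ℝ))) = τ
    rw [hv2]
    ring
  push_cast
  calc _ = (∏ j, (s4b_cut1 S ρ κ (s4b_fr (θ j * (m₀ : ℝ))) : ℂ)) * (s4b_eta1 S ε h₀ : ℂ) *
        (ee (lam * v ^ 2 + β * v) * (ee c₀ * ee (∑ j, α j * (m₀ : ℝ) * (θ j * v - (round (θ j * (m₀ : ℝ)) : ℤ))))) := by ring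
    _ = _ := by rw [e5]; ring

/-- the coordinate projection as a continuous linear form -/
noncomputable def s4b_pr {ι : Type*} [Fintype ι] (i : ι) : (ι → ℝ) →L[ℝ] ℝ :=
  ContinuousLinearMap.proj i

theorem s4b_pr_apply {ι : Type*} [Fintype ι] (i : ι) (x : ι → ℝ) : s4b_pr i x = x i := rfl

theorem s4b_norm_pr_le {ι : Type*} [Fintype ι] (i : ι) : ‖s4b_pr (ι := ι) i‖ ≤ 1 :=
  ContinuousLinearMap.opNorm_le_bound _ zero_le_one (fun x => by
    simpa [s4b_pr] using norm_le_pi_norm x i)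

/-- `S` composed with an affine form `(c₀ + a x_i + b x_k) / δ` -/
theorem s4b_gev_step_aff {ι : Type*} [Fintype ι] {S : ℝ → ℝ} {A : ℝ} (hS : s4b_IsStep S A) (i k : ι) (a b c₀ δ K : ℝ)
    (hK : (|a| + |b|) * |δ|⁻¹ ≤ K) :
    Gev 2 1 (A * K) (fun x : ι → ℝ => S ((c₀ + (a * x i + b * x k)) / δ)) := by
  have hA : 0 ≤ A := by linarith [hS.A_ge]
  have h := gev_comp_affine hA hS.gev (δ⁻¹ • (a • s4b_pr i + b • s4b_pr k)) (c₀ / δ) (K := K) (by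
    refine le_trans ?_ hK
    rw [norm_smul, mul_comm, norm_inv, Real.norm_eq_abs]
    refine mul_le_mul_of_nonneg_right ?_ (by positivity)
    refine (norm_add_le _ _).trans ?_
    rw [norm_smul, norm_smul, Real.norm_eq_abs, Real.norm_eq_abs]
    have h1 := s4b_norm_pr_le i
    have h2 := s4b_norm_pr_le k
    nlinarith [abs_nonneg a, abs_nonneg b])
  refine gev_congr (gev_mono_set h (fun x _ => Set.mem_univ _)) fun x => ?_
  congr 1
  simp only [_root_.smul_apply, _root_.add_apply, s4b_pr_apply, smul_eq_mul]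
  ring

theorem s4b_gev_cut1 {ι : Type*} [Fintype ι] {S : ℝ → ℝ} {A : ℝ} (hS : s4b_IsStep S A) (i k : ι) (θ ρ κ K : ℝ)
    (hK0 : 0 ≤ K) (hK : (1 + |θ|) * |ρ * κ|⁻¹ ≤ K) :
    Gev 2 1 (A * K + A * K) (fun x : ι → ℝ => s4b_cut1 S ρ κ (x i - θ * x k)) := by
  have hA : 0 ≤ A := by linarith [hS.A_ge]
  have h1 := s4b_gev_step_aff hS i k 1 (-θ) ρ (ρ * κ) K (by simpa using hK)
  have h2 := s4b_gev_step_aff hS i k (-1) θ ρ (ρ * κ) K (by simpa using hK)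
  have h3 := gev_mul (mul_nonneg hA hK0) (mul_nonneg hA hK0) h1 h2
  rw [one_mul] at h3
  refine gev_congr h3 fun x => ?_
  unfold s4b_cut1
  congr 2 <;> ring

theorem s4b_gev_eta1 {ι : Type*} [Fintype ι] {S : ℝ → ℝ} {A : ℝ} (hS : s4b_IsStep S A) (i : ι) (ε K : ℝ)
    (hK0 : 0 ≤ K) (hK : |ε|⁻¹ ≤ K) :
    Gev 2 1 (A * K + A * K) (fun x : ι → ℝ => s4b_eta1 S ε (x i)) := by
  have hA : 0 ≤ A := by linarith [hS.A_ge]
  have h1 := s4b_gev_step_aff hS i i 1 0 0 ε K (by simpa using hK)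
  have h2 := s4b_gev_step_aff hS i i (-1) 0 1 ε K (by simpa using hK)
  have h3 := gev_mul (mul_nonneg hA hK0) (mul_nonneg hA hK0) h1 h2
  rw [one_mul] at h3
  refine gev_congr h3 fun x => ?_
  unfold s4b_eta1
  congr 2 <;> ring

theorem s4b_gev_rho1 {ι : Type*} [Fintype ι] {S : ℝ → ℝ} {A : ℝ} (hS : s4b_IsStep S A) (i : ι) :
    Gev 2 1 (2 * (A * 1)) (fun x : ι → ℝ => s4b_rho1 S (x i)) := by
  have hA : 0 ≤ A := by linarith [hS.A_ge]
  have h1 := s4b_gev_step_aff hS i i 1 0 1 1 1 (by simp)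
  have h2 := s4b_gev_step_aff hS i i 1 0 0 1 1 (by simp)
  have h3 := gev_sub h1 h2
  have h4 : Gev 2 (1 + 1) (A * 1) (fun x : ι → ℝ => s4b_rho1 S (x i)) := by
    refine gev_congr h3 fun x => ?_
    unfold s4b_rho1
    congr 2 <;> ring
  refine gev_improve h4 (by linarith) (by norm_num) (by norm_num) fun x _ => ?_
  unfold s4b_rho1
  rw [Real.norm_eq_abs, abs_le]
  have a1 := hS.nonneg (x i + 1)
  have a2 := hS.le_one (x i + 1)
  have a3 := hS.nonneg (x i)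
  have a4 := hS.le_one (x i)
  constructor <;> linarith

theorem s4b_rho1_zero {S : ℝ → ℝ} {A : ℝ} (hS : s4b_IsStep S A) {r : ℝ} (hr : 1 ≤ |r|) : s4b_rho1 S r = 0 := by
  unfold s4b_rho1
  rcases le_abs.1 hr with h | h
  · rw [hS.one _ h, hS.one _ (by linarith), sub_self]
  · rw [hS.zero _ (by linarith), hS.zero _ (by linarith), sub_self]

/-- the quadratic phase on the cube -/
theorem s4b_quad_bQ {d : ℕ} (θ α : Fin d → ℝ) (lam β : ℝ) (hθ : ∀ j, 0 ≤ θ j ∧ θ j < 1) (hα : ∀ j, 0 ≤ α j ∧ α j < 1)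
    (hl0 : 0 ≤ lam) (hl1 : lam < 1) (hb0 : 0 ≤ β) (hb1 : β < 1) :
    GevQuad (8 * (d : ℝ) + 5) (4 * (d : ℝ) + 2) (s4b_bQ θ α lam β) {x | ∀ i, |x i| ≤ 2} := by
  set K : Set (s4b_Ix d → ℝ) := {x | ∀ i, |x i| ≤ 2} with hK
  have hKn : ∀ x ∈ K, ‖x‖ ≤ 2 := fun x hx => (pi_norm_le_iff_of_nonneg (by norm_num)).2 fun i => by
    simpa using hx i
  have hm : ∀ i k : s4b_Ix d, GevQuad (2 * 1 * 1 * 2) (2 * 1 * 1) (fun x => s4b_pr i x * s4b_pr k x) K := fun i k =>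
    gev_quad_mul_clm (s4b_pr i) (s4b_pr k) (s4b_norm_pr_le i) (s4b_norm_pr_le k) hKn
  have q1 := gev_quad_const_mul (-1) (gev_quad_sum Finset.univ (fun j _ =>
    gev_quad_const_mul (α j) (hm (Sum.inr false) (Sum.inl (Sum.inl j)))))
  have q2 := gev_quad_const_mul (∑ j, α j * θ j) (hm (Sum.inr false) (Sum.inr false))
  have q3 := gev_quad_const_mul lam (hm (Sum.inr false) (Sum.inr false))
  have q4 := gev_quad_const_mul (-β) (gev_quad_clm (s4b_pr (ι := s4b_Ix d) (Sum.inr false)) (s4b_norm_pr_le _) K)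
  have q := gev_quad_add (gev_quad_add (gev_quad_add q1 q2) q3) q4
  have hsα : ∑ j : Fin d, |α j| ≤ d := by
    calc ∑ j : Fin d, |α j| ≤ ∑ _j : Fin d, (1 : ℝ) := Finset.sum_le_sum fun j _ => by
          rw [abs_of_nonneg (hα j).1]; exact (hα j).2.le
      _ = d := by simp
  have hσ : |∑ j, α j * θ j| ≤ d := by
    calc |∑ j, α j * θ j| ≤ ∑ j, |α j * θ j| := Finset.abs_sum_le_sum_abs _ _
      _ ≤ ∑ _j : Fin d, (1 : ℝ) := Finset.sum_le_sum fun j _ => by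
          rw [abs_of_nonneg (mul_nonneg (hα j).1 (hθ j).1)]
          nlinarith [(hα j).1, (hα j).2, (hθ j).1, (hθ j).2]
      _ = d := by simp
  have hl : |lam| ≤ 1 := by rw [abs_of_nonneg hl0]; exact hl1.le
  have hb : |-β| ≤ 1 := by rw [abs_neg, abs_of_nonneg hb0]; exact hb1.le
  refine gev_quad_congr (gev_quad_mono q ?_ ?_ subset_rfl) fun x => ?_
  · rw [← Finset.sum_mul]
    simp only [abs_neg, abs_one]
    rw [abs_neg] at hb
    nlinarith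
  · rw [← Finset.sum_mul]
    simp only [abs_neg, abs_one]
    nlinarith
  · unfold s4b_bQ
    simp only [s4b_pr_apply]
    have : ∑ j, α j * x (Sum.inr false) * x (Sum.inl (Sum.inl j)) = ∑ j, α j * (x (Sum.inr false) * x (Sum.inl (Sum.inl j))) :=
      Finset.sum_congr rfl fun j _ => by ring
    rw [this]
    ring

theorem s4b_brk_num (A : ℝ) (hA : 1 ≤ A) : ∃ C : ℕ, ∀ (d : ℕ) (H : ℝ), Real.exp 2 ≤ H → (d : ℝ) ≤ Real.log H →
    1 ≤ s4b_qp C (Real.log H) ∧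
    (d : ℝ) * (A * (2 * H ^ 2) + A * (2 * H ^ 2)) + (A * H + A * H) + (d : ℝ) * (2 * (A * 1)) + 2 * (A * 1) +
      2 * Real.pi * (8 * (d : ℝ) + 5) ≤ s4b_qp C (Real.log H) := by
  refine ⟨⌈10 * A + 104⌉₊, fun d H hH hd => ?_⟩
  set C := ⌈10 * A + 104⌉₊ with hC
  have hCA : 10 * A + 104 ≤ (C : ℝ) := Nat.le_ceil _
  have hH1 : 1 ≤ H := le_trans (Real.one_le_exp (by norm_num)) hH
  have hH0 : 0 < H := by linarith
  have hL0 : 0 ≤ Real.log H := Real.log_nonneg hH1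
  have hLH : Real.log H ≤ H := (Real.log_le_sub_one_of_pos hH0).trans (by linarith)
  have hdH : (d : ℝ) ≤ H := hd.trans hLH
  have hd0 : (0 : ℝ) ≤ d := Nat.cast_nonneg _
  refine ⟨s4b_one_le_qp C hL0, ?_⟩
  have hpi : Real.pi ≤ 4 := Real.pi_le_four
  have hpi0 : 0 ≤ Real.pi := Real.pi_pos.le
  have hH2 : H ≤ H ^ 2 := by nlinarith
  have hH3 : H ^ 2 ≤ H ^ 3 := by nlinarith [sq_nonneg H]
  have e1 : (d : ℝ) * (A * (2 * H ^ 2) + A * (2 * H ^ 2)) ≤ 4 * A * H ^ 3 := by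
    have : (d : ℝ) * (4 * A * H ^ 2) ≤ H * (4 * A * H ^ 2) := mul_le_mul_of_nonneg_right hdH (by positivity)
    nlinarith
  have e2 : A * H + A * H ≤ 2 * A * H ^ 3 := by nlinarith
  have e3 : (d : ℝ) * (2 * (A * 1)) ≤ 2 * A * H ^ 3 := by
    have : (d : ℝ) * (2 * A) ≤ H * (2 * A) := mul_le_mul_of_nonneg_right hdH (by positivity)
    nlinarith
  have e4 : 2 * (A * 1) ≤ 2 * A * H ^ 3 := by nlinarith
  have e5 : 2 * Real.pi * (8 * (d : ℝ) + 5) ≤ 104 * H ^ 3 := by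
    have h1 : 8 * (d : ℝ) + 5 ≤ 13 * H ^ 3 := by nlinarith
    calc 2 * Real.pi * (8 * (d : ℝ) + 5) ≤ 2 * 4 * (13 * H ^ 3) := by
          apply mul_le_mul (by linarith) h1 (by positivity) (by norm_num)
      _ = 104 * H ^ 3 := by ring
  have e6 : (10 * A + 104) * H ^ 3 ≤ s4b_qp C (Real.log H) := by
    unfold s4b_qp
    have h1 : 10 * A + 104 ≤ Real.exp (C : ℝ) := hCA.trans ((by linarith : (C : ℝ) ≤ C + 1).trans (Real.add_one_le_exp _))
    have h2 : H ^ 3 = Real.exp (3 * Real.log H) := by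
      rw [mul_comm, Real.exp_mul, Real.exp_log hH0]; norm_cast
    rw [h2]
    calc (10 * A + 104) * Real.exp (3 * Real.log H) ≤ Real.exp (C : ℝ) * Real.exp (3 * Real.log H) :=
          mul_le_mul_of_nonneg_right h1 (Real.exp_pos _).le
      _ = Real.exp ((C : ℝ) + 3 * Real.log H) := (Real.exp_add _ _).symm
      _ ≤ _ := by
          apply Real.exp_le_exp.2
          have hC1 : 1 ≤ C := by
            have : (1 : ℝ) ≤ (C : ℝ) := by linarith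
            exact_mod_cast this
          have h3 : 1 + Real.log H ≤ (1 + Real.log H) ^ C := by
            calc 1 + Real.log H = (1 + Real.log H) ^ 1 := (pow_one _).symm
              _ ≤ _ := pow_le_pow_right₀ (by linarith) hC1
          have h4 : (C : ℝ) * (1 + Real.log H) ≤ (C : ℝ) * (1 + Real.log H) ^ C :=
            mul_le_mul_of_nonneg_left h3 (by positivity)
          nlinarith
  nlinarith

/-- **complexity of the amplitude**, parameters in `[0,1)` -/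
theorem s4b_brk_cplx {S : ℝ → ℝ} {A : ℝ} (hS : s4b_IsStep S A) : ∃ C : ℕ, ∀ (d : ℕ) (θ α : Fin d → ℝ) (lam β ρ κ ε H : ℝ),
    (∀ j, 0 ≤ θ j ∧ θ j < 1) → (∀ j, 0 ≤ α j ∧ α j < 1) → 0 ≤ lam → lam < 1 → 0 ≤ β → β < 1 →
    Real.exp 2 ≤ H → (d : ℝ) ≤ Real.log H → H⁻¹ ≤ ρ → ρ ≤ 1 / 4 → H⁻¹ ≤ κ → κ ≤ 1 / 2 → H⁻¹ ≤ ε → ε ≤ 1 / 4 →
    ContDiff ℝ ∞ (s4b_bchi S θ α lam β ρ κ ε) ∧ (∀ x, s4b_bchi S θ α lam β ρ κ ε x ≠ 0 → ∀ i, |x i| ≤ 2) ∧
    ∀ (n : ℕ) (x : s4b_Ix d → ℝ), ‖iteratedFDeriv ℝ n (s4b_bchi S θ α lam β ρ κ ε) x‖ ≤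
      (s4b_qp C (Real.log H)) ^ (cGev * ((n : ℝ) + 1)) * ((n : ℝ) + 1) ^ (cGev * ((n : ℝ) + 1)) := by
  obtain ⟨C, hC⟩ := s4b_brk_num A hS.A_ge
  refine ⟨C, fun d θ α lam β ρ κ ε H hθ hα hl0 hl1 hb0 hb1 hH hd hρ hρ' hκ hκ' hε hε' => ?_⟩
  obtain ⟨hq1, hnum⟩ := hC d H hH hd
  have hA : 0 ≤ A := by linarith [hS.A_ge]
  have hH1 : 1 ≤ H := le_trans (Real.one_le_exp (by norm_num)) hH
  have hH0 : 0 < H := by linarith
  have hinv : 0 < H⁻¹ := inv_pos.mpr hH0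
  have hρ0 : 0 < ρ := by linarith
  have hκ0 : 0 < κ := by linarith
  have hε0 : 0 < ε := by linarith
  have hd0 : (0 : ℝ) ≤ d := Nat.cast_nonneg _
  set K : Set (s4b_Ix d → ℝ) := {x | ∀ i, |x i| ≤ 2} with hK
  -- the factors
  have hK1 : ∀ j, (1 + |θ j|) * |ρ * κ|⁻¹ ≤ 2 * H ^ 2 := by
    intro j
    have h1 : |θ j| ≤ 1 := by rw [abs_of_nonneg (hθ j).1]; exact (hθ j).2.le
    have h2 : |ρ * κ|⁻¹ ≤ H ^ 2 := by
      rw [abs_of_pos (mul_pos hρ0 hκ0), mul_inv, sq]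
      exact mul_le_mul (inv_le_of_inv_le₀ hH0 hρ) (inv_le_of_inv_le₀ hH0 hκ) (inv_nonneg.2 hκ0.le) hH0.le
    exact mul_le_mul (by linarith) h2 (by positivity) (by norm_num)
  have hK2 : |ε|⁻¹ ≤ H := by
    rw [abs_of_pos hε0]
    exact inv_le_of_inv_le₀ hH0 hε
  have g1 : Gev 2 1 ((d : ℝ) * (A * (2 * H ^ 2) + A * (2 * H ^ 2)))
      (fun x : s4b_Ix d → ℝ => ∏ j, s4b_cut1 S ρ κ (x (Sum.inl (Sum.inl j)) - θ j * x (Sum.inr false))) := by
    have h := gev_prod (Finset.univ : Finset (Fin d)) (s := 2) (B := fun _ => 1)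
      (A := fun _ => A * (2 * H ^ 2) + A * (2 * H ^ 2)) (S := Set.univ)
      (f := fun j (x : s4b_Ix d → ℝ) => s4b_cut1 S ρ κ (x (Sum.inl (Sum.inl j)) - θ j * x (Sum.inr false)))
      (fun j _ => by positivity)
      (fun j _ => s4b_gev_cut1 hS (Sum.inl (Sum.inl j)) (Sum.inr false) (θ j) ρ κ (2 * H ^ 2) (by positivity) (hK1 j))
    exact gev_mono h le_rfl (by simp) (Finset.sum_nonneg fun _ _ => by positivity)
      (by rw [Finset.sum_const, Finset.card_univ, Fintype.card_fin, nsmul_eq_mul]) subset_rfl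
  have g2 := s4b_gev_eta1 (ι := s4b_Ix d) hS (Sum.inr false) ε H hH0.le hK2
  have g3 : Gev 2 1 ((d : ℝ) * (2 * (A * 1)))
      (fun x : s4b_Ix d → ℝ => ∏ j : Fin d, s4b_rho1 S (x (Sum.inl (Sum.inr j)))) := by
    have h := gev_prod (Finset.univ : Finset (Fin d)) (s := 2) (B := fun _ => 1)
      (A := fun _ => 2 * (A * 1)) (S := Set.univ)
      (f := fun j (x : s4b_Ix d → ℝ) => s4b_rho1 S (x (Sum.inl (Sum.inr j))))
      (fun j _ => by positivity)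
      (fun j _ => s4b_gev_rho1 hS (Sum.inl (Sum.inr j)))
    exact gev_mono h le_rfl (by simp) (Finset.sum_nonneg fun _ _ => by positivity)
      (by rw [Finset.sum_const, Finset.card_univ, Fintype.card_fin, nsmul_eq_mul]) subset_rfl
  have g4 := s4b_gev_rho1 (ι := s4b_Ix d) hS (Sum.inr true)
  have g12 := gev_mul (by positivity) (by positivity) g1 g2
  have g123 := gev_mul (by positivity) (by positivity) g12 g3
  have g1234 := gev_ofReal (gev_mul (by positivity) (by positivity) g123 g4)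
  have g5 : GevOn 2 1 (2 * Real.pi * (8 * (d : ℝ) + 5)) (fun x => ee (s4b_bQ θ α lam β x)) K := by
    have h := gev_ee_quad (s4b_quad_bQ θ α lam β hθ hα hl0 hl1 hb0 hb1) (D := 8 * (d : ℝ) + 5) (by positivity) le_rfl
      (by nlinarith)
    exact gev_mono h (by norm_num) le_rfl (by positivity) le_rfl subset_rfl
  have g := gev_mul (by positivity) (by positivity) (gev_mono_set g1234 (Set.subset_univ K)) g5
  have gchi : GevOn 2 1 (s4b_qp C (Real.log H)) (s4b_bchi S θ α lam β ρ κ ε) K := by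
    refine gev_congr (gev_mono g le_rfl (by norm_num) (by positivity) hnum subset_rfl) fun x => rfl
  have hsupp : ∀ x, s4b_bchi S θ α lam β ρ κ ε x ≠ 0 → ∀ i, |x i| ≤ 2 := by
    intro x hx
    unfold s4b_bchi at hx
    have hx1 := left_ne_zero_of_mul hx
    rw [Ne, Complex.ofReal_eq_zero] at hx1
    have a4 := right_ne_zero_of_mul hx1
    have hx2 := left_ne_zero_of_mul hx1
    have a3 := right_ne_zero_of_mul hx2
    have hx3 := left_ne_zero_of_mul hx2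
    have a2 := right_ne_zero_of_mul hx3
    have a1 := left_ne_zero_of_mul hx3
    rw [Finset.prod_ne_zero_iff] at a1 a3
    have hh : 0 < x (Sum.inr false) ∧ x (Sum.inr false) < 1 := by
      by_contra hcon
      apply a2
      apply s4b_eta1_zero hS hε0
      by_contra hc2
      push Not at hc2
      exact hcon ⟨hc2.1, hc2.2⟩
    rintro ((j | j) | b)
    · have h1 : |x (Sum.inl (Sum.inl j)) - θ j * x (Sum.inr false)| < ρ := by
        by_contra hcon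
        exact a1 j (Finset.mem_univ j) (s4b_cut1_zero hS hρ0 hκ0 (not_lt.1 hcon))
      rw [abs_lt] at h1
      rw [abs_le]
      have h2 : 0 ≤ θ j * x (Sum.inr false) := mul_nonneg (hθ j).1 hh.1.le
      have h3 : θ j * x (Sum.inr false) ≤ 1 := by nlinarith [(hθ j).1, (hθ j).2, hh.1, hh.2]
      constructor <;> linarith [h1.1, h1.2]
    · have h1 : |x (Sum.inl (Sum.inr j))| < 1 := by
        by_contra hcon
        exact a3 j (Finset.mem_univ j) (s4b_rho1_zero hS (not_lt.1 hcon))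
      linarith
    · cases b
      · rw [abs_of_pos hh.1]; linarith [hh.2]
      · have h1 : |x (Sum.inr true)| < 1 := by
          by_contra hcon
          exact a4 (s4b_rho1_zero hS (not_lt.1 hcon))
        linarith
  have hclosed : IsClosed K := by
    have : K = ⋂ i, {x : s4b_Ix d → ℝ | |x i| ≤ 2} := by
      ext x; simp [hK]
    rw [this]
    exact isClosed_iInter fun i => isClosed_le (continuous_abs.comp (continuous_apply i)) continuous_const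
  exact ⟨gchi.smooth, hsupp, s4b_cplx_deriv_of_gev gchi hclosed hsupp hq1 (by linarith) (by norm_num) le_rfl hq1⟩

theorem s4b_bC_entry (d : ℕ) (i j : s4b_Ix d) : s4b_bC d i j = 0 ∨ s4b_bC d i j = 1 ∨ s4b_bC d i j = -1 := by
  unfold s4b_bC
  rcases i with (i | i) | i <;> rcases j with (j | j) | j <;> try simp
  · by_cases h : i = j <;> simp [h]
  · cases i <;> cases j <;> simp

/-- the floor-interpolated bracket atom, `y₀ = 0` -/
theorem s4b_bracket_chart : ∃ C : ℕ, ∀ (d : ℕ) (θ α : Fin d → ℝ) (lam β ρ κ ε H : ℝ),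
    Real.exp 2 ≤ H → (d : ℝ) ≤ Real.log H → H⁻¹ ≤ ρ → ρ ≤ 1 / 4 → H⁻¹ ≤ κ → κ ≤ 1 / 2 →
    H⁻¹ ≤ ε → ε ≤ 1 / 4 →
    ∃ (χ : (Fin d → ℝ) → ℝ) (η : ℝ → ℝ) (A : Chart), s4b_IsCut ρ κ χ ∧ s4b_IsEta ε η ∧
      A.Cplx (s4b_qp C (Real.log H)) ∧ (∀ i j, (A.C i j).den = 1) ∧
      ∀ v : ℝ, A.eval v = (η (Int.fract v) : ℂ) * (χ (fun j => s4b_fr (θ j * (((⌊v⌋ : ℤ) : ℝ) - ((0 : ℤ) : ℝ)))) : ℂ) *
        ee (s4b_brPhase θ α lam β 0 ⌊v⌋) := by
  obtain ⟨S, A, hS⟩ := s4b_gevStep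
  obtain ⟨C₁, hC₁⟩ := s4b_brk_cplx hS
  refine ⟨max C₁ 2, fun d θ α lam β ρ κ ε H hH hd hρ hρ' hκ hκ' hε hε' => ?_⟩
  have hH1 : 1 ≤ H := le_trans (Real.one_le_exp (by norm_num)) hH
  have hH0 : 0 < H := by linarith
  have hinv : 0 < H⁻¹ := inv_pos.mpr hH0
  have hlog : 0 ≤ Real.log H := Real.log_nonneg hH1
  set θ' : Fin d → ℝ := fun j => Int.fract (θ j) with hθ'
  set α' : Fin d → ℝ := fun j => Int.fract (α j) with hα'
  set lam' : ℝ := Int.fract (lam + ∑ j, ((⌊α j⌋ : ℤ) : ℝ) * Int.fract (θ j)) with hlam'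
  set β' : ℝ := Int.fract β with hβ'
  set H' : ℝ := s4b_qp (max C₁ 2) (Real.log H) with hH'
  obtain ⟨hsm, hsupp, hder⟩ := hC₁ d θ' α' lam' β' ρ κ ε H (fun j => ⟨Int.fract_nonneg _, Int.fract_lt_one _⟩)
    (fun j => ⟨Int.fract_nonneg _, Int.fract_lt_one _⟩) (Int.fract_nonneg _) (Int.fract_lt_one _) (Int.fract_nonneg _)
    (Int.fract_lt_one _) hH hd hρ hρ' hκ hκ' hε hε'
  have hH'2 : Real.exp 2 ≤ H' := s4b_exp_two_le_qp (le_max_right _ _) hlog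
  have hH'1 : 1 ≤ H' := le_trans (Real.one_le_exp (by norm_num)) hH'2
  have h2H' : 2 ≤ H' := by
    have : (2 : ℝ) + 1 ≤ Real.exp 2 := Real.add_one_le_exp 2
    linarith
  have hqq : s4b_qp C₁ (Real.log H) ≤ H' := s4b_qp_mono (le_max_left _ _) hlog le_rfl
  have hcard : (Fintype.card (s4b_Ix d) : ℝ) ≤ Real.log H' := by
    rw [hH', s4b_log_qp]
    have hc : Fintype.card (s4b_Ix d) = 2 * d + 2 := by
      simp [s4b_Ix, Fintype.card_sum]; ring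
    rw [hc]
    have h1 : (1 : ℝ) ≤ 1 + Real.log H := by linarith
    have h2 : 1 + Real.log H ≤ (1 + Real.log H) ^ (max C₁ 2) := by
      calc 1 + Real.log H = (1 + Real.log H) ^ 1 := (pow_one _).symm
        _ ≤ _ := pow_le_pow_right₀ h1 (le_trans (by norm_num) (le_max_right _ _))
    have h3 : (2 : ℝ) ≤ ((max C₁ 2 : ℕ) : ℝ) := by exact_mod_cast le_max_right _ _
    push_cast
    push_cast at h3
    nlinarith
  have hheight : ∀ i j, (qHeight (s4b_bC d i j) : ℝ) ≤ H' := by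
    intro i j
    have : qHeight (s4b_bC d i j) ≤ 1 := by
      rcases s4b_bC_entry d i j with h | h | h <;> rw [h] <;> simp [qHeight]
    have h' : (qHeight (s4b_bC d i j) : ℝ) ≤ 1 := by exact_mod_cast this
    linarith
  obtain ⟨a, ha, haC, hae⟩ := s4b_chart_of_index (s4b_bth θ' α' (2 * lam' + ∑ j, α' j * θ' j)) (s4b_bC d) lam' β'
    (s4b_bchi S θ' α' lam' β' ρ κ ε) H' hH'2 hcard hheight hsm
    (fun x hx i => le_trans (hsupp x hx i) h2H')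
    (fun n x => le_trans (hder n x) (by
      have hq0 : 0 ≤ s4b_qp C₁ (Real.log H) := (s4b_qp_pos _ _).le
      have he : 0 ≤ cGev * ((n : ℝ) + 1) := by unfold cGev; positivity
      gcongr))
  refine ⟨fun t => ∏ j, s4b_cut1 S ρ κ (t j), s4b_eta1 S ε, a, s4b_isCut_prod hS d ρ κ (by linarith) (by linarith),
    s4b_isEta_eta1 hS ε (by linarith), ha, ?_, ?_⟩
  · intro i j
    obtain ⟨i', j', h⟩ := haC i j
    rw [h]
    rcases s4b_bC_entry d i' j' with h | h | h <;> rw [h] <;> simp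
  · intro v
    rw [hae v, s4b_brk_eval hS d θ' α' lam' β' ρ κ ε (by linarith) hρ' (by linarith) (by linarith) v]
    obtain ⟨r1, r2⟩ := s4b_brk_reduce d θ α lam β ⌊v⌋
    have e1 : s4b_brPhase θ α lam β 0 ⌊v⌋ = lam * ((⌊v⌋ : ℤ) : ℝ) ^ 2 + β * ((⌊v⌋ : ℤ) : ℝ) +
        ∑ j, α j * ((⌊v⌋ : ℤ) : ℝ) * s4b_fr (θ j * ((⌊v⌋ : ℤ) : ℝ)) := by
      simp [s4b_brPhase]
    rw [e1, r2]
    congr 2
    simp only [Int.cast_zero, sub_zero]
    congr 1
    exact Finset.prod_congr rfl (fun j _ => by rw [r1 j])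

end Claimed.Agent.R258
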