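/-
Row 258, block [S4b] (architect helper99).  FILE Atomize: from the bracket data of `s4b_U3Target` to a chart atom which is the
EXACT FLOOR INTERPOLATION of the sampled bracket phase (charts.tex l.955-1050, specialised: all matrices have entries 0, 1, -1).

NOTATION.  `fr t = t - round t`;  `a(n) = χ(fr(θ n')) e(lam n² + β n + ∑ α_j n' fr(θ_j n'))`, `n' = n - y₀`.

`s4b_bracket_chart` (`y₀ = 0`): see `S4b/Brk.lean`.
`s4b_chart_affine` = special case of `s4a_affine` (`S4a/Ops.lean`, helper78).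
-/
import Claimed.Agent.R258.S4b.Brk
import Claimed.Agent.R258.S4a.Ops

set_option autoImplicit false
open MeasureTheory
open scoped ENNReal ContDiff ComplexConjugate

namespace Claimed.Agent.R258

theorem s4b_cplx_mono {a : Chart} {H H' : ℝ} (h : a.Cplx H) (hH : H ≤ H') : a.Cplx H' := by
  have hH0 : 0 < H := lt_of_lt_of_le (Real.exp_pos 2) h.H_ge
  refine ⟨h.H_ge.trans hH, h.dim.trans (Real.log_le_log hH0 hH), fun i j => (h.height i j).trans hH, h.smooth,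
    fun x hx i => (h.supp x hx i).trans hH, fun n x => (h.deriv n x).trans ?_, h.unit⟩
  have he : 0 ≤ cGev * ((n : ℝ) + 1) := by unfold cGev; positivity
  gcongr

theorem s4b_chart_unit (a : Chart) (H : ℝ) (h : a.Cplx H) (c : ℂ) (hc : ‖c‖ = 1) :
    ∃ a' : Chart, a'.Cplx H ∧ ∀ u, a'.eval u = c * a.eval u := by
  refine ⟨{ a with unit := c * a.unit }, ⟨h.H_ge, h.dim, h.height, h.smooth, h.supp, h.deriv, ?_⟩, fun u => ?_⟩
  · show ‖c * a.unit‖ = 1
    rw [norm_mul, hc, h.unit, one_mul]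
  · show (c * a.unit) * ee (a.lam * u ^ 2 + a.bet * u) * _ = c * (a.unit * ee (a.lam * u ^ 2 + a.bet * u) * _)
    simp only [mul_assoc]
    rfl

theorem s4b_eval_continuous {a : Chart} {H : ℝ} (h : a.Cplx H) : Continuous a.eval := by
  have hee : Continuous ee := gev_ee_contDiff.continuous
  have hchi : Continuous a.chi := h.smooth.continuous
  set f : (Fin a.d → ℤ) → ℝ → ℂ := fun n y => a.chi (fun i => a.th i * y - (n i : ℝ)) * ee (a.phase y n) with hf
  have hfc : ∀ n, Continuous (f n) := by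
    intro n
    apply Continuous.mul
    · exact hchi.comp (continuous_pi fun i => (continuous_const.mul continuous_id).sub continuous_const)
    · apply hee.comp
      unfold Chart.phase
      fun_prop
  have hlf : LocallyFinite fun n => Function.support (f n) := by
    intro y₀
    refine ⟨Metric.ball y₀ 1, Metric.ball_mem_nhds y₀ one_pos, ?_⟩
    refine (s4a_lat_box_finite (H + ∑ i, |a.th i|) (fun i => a.th i * y₀)).subset ?_
    rintro n ⟨y, hy, hyb⟩
    have hy1 : a.chi (fun i => a.th i * y - (n i : ℝ)) ≠ 0 := by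
      intro h0
      apply hy
      simp only [hf, h0, zero_mul]
    intro i
    have h1 := h.supp _ hy1 i
    have h2 : |y₀ - y| ≤ 1 := by
      rw [Metric.mem_ball, Real.dist_eq] at hyb
      rw [abs_sub_comm]; exact hyb.le
    have h3 : |a.th i| ≤ ∑ i, |a.th i| := Finset.single_le_sum (f := fun i => |a.th i|) (fun _ _ => abs_nonneg _) (Finset.mem_univ i)
    have e : a.th i * y₀ - (n i : ℝ) = (a.th i * y - (n i : ℝ)) + a.th i * (y₀ - y) := by ring
    rw [e]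
    calc |(a.th i * y - (n i : ℝ)) + a.th i * (y₀ - y)| ≤ |a.th i * y - (n i : ℝ)| + |a.th i * (y₀ - y)| := abs_add_le _ _
      _ ≤ H + |a.th i| * 1 := by
        rw [abs_mul]
        gcongr
      _ ≤ H + ∑ i, |a.th i| := by linarith
  have hfin : ∀ y, (Function.support fun n => f n y).Finite := by
    intro y
    exact hlf.point_finite y
  have hS : Continuous fun y => ∑' n, f n y := by
    have : (fun y => ∑' n, f n y) = fun y => ∑ᶠ n, f n y := by
      funext y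
      exact tsum_eq_finsum (hfin y)
    rw [this]
    exact continuous_finsum hfc hlf
  have : a.eval = fun y => a.unit * ee (a.lam * y ^ 2 + a.bet * y) * ∑' n, f n y := rfl
  rw [this]
  apply Continuous.mul _ hS
  apply continuous_const.mul
  apply hee.comp
  fun_prop

/-- affine substitution in a chart (special case of `s4a_affine`, block [S4a], Lemma 4.2) -/
theorem s4b_chart_affine : ∃ C : ℕ, ∀ (a : Chart) (H s τ : ℝ), a.Cplx H → (∀ i j, (a.C i j).den = 1) →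
    ∃ a' : Chart, a'.Cplx (s4b_qp C (Real.log H)) ∧ ∀ u : ℝ, a'.eval u = a.eval (s * u + τ) := by
  obtain ⟨C, h⟩ := s4a_affine
  refine ⟨C, fun a H s τ ha _ => ?_⟩
  obtain ⟨a', h1, _, h2⟩ := h a H s τ ha
  exact ⟨a', h1, h2⟩

/-- **Atomization**: the sampled bracket function, floor-interpolated and composed with `u ↦ s u + t₀`, is a bounded atom. -/
theorem s4b_atomize : ∃ C : ℕ, ∀ (d : ℕ) (θ α : Fin d → ℝ) (y₀ : ℤ) (lam β ρ κ ε H s t₀ : ℝ),
    Real.exp 2 ≤ H → (d : ℝ) ≤ Real.log H → H⁻¹ ≤ ρ → ρ ≤ 1 / 4 → H⁻¹ ≤ κ → κ ≤ 1 / 2 →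
    H⁻¹ ≤ ε → ε ≤ 1 / 4 →
    ∃ (χ : (Fin d → ℝ) → ℝ) (η : ℝ → ℝ) (A : Chart), s4b_IsCut ρ κ χ ∧ s4b_IsEta ε η ∧
      A.Cplx (s4b_qp C (Real.log H)) ∧ A.Bdd ∧
      ∀ u : ℝ, A.eval u = (η (Int.fract (s * u + t₀)) : ℂ) *
        (χ (fun j => s4b_fr (θ j * (((⌊s * u + t₀⌋ : ℤ) : ℝ) - y₀))) : ℂ) * ee (s4b_brPhase θ α lam β y₀ ⌊s * u + t₀⌋) := by
  obtain ⟨C₁, h₁⟩ := s4b_bracket_chart
  obtain ⟨C₂, h₂⟩ := s4b_chart_affine
  obtain ⟨C, hC⟩ := s4b_qp_poly C₂ (C₁ : ℝ) C₁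
  refine ⟨C, fun d θ α y₀ lam β ρ κ ε H s t₀ hH hd hρ hρ' hκ hκ' hε hε' => ?_⟩
  have hH1 : 1 ≤ H := le_trans (Real.one_le_exp (by norm_num)) hH
  have hlog : 0 ≤ Real.log H := Real.log_nonneg hH1
  obtain ⟨χ, η, A₀, hχ, hη, hA₀, hint, hev⟩ := h₁ d θ α lam (2 * lam * y₀ + β) ρ κ ε H hH hd hρ hρ' hκ hκ' hε hε'
  obtain ⟨A₁, hA₁, hev₁⟩ := h₂ A₀ _ s (t₀ - y₀) hA₀ hint
  obtain ⟨A₂, hA₂, hev₂⟩ := s4b_chart_unit A₁ _ hA₁ (ee (lam * (y₀ : ℝ) ^ 2 + β * y₀)) (gev_ee_norm _)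
  have hle : s4b_qp C₂ (Real.log (s4b_qp C₁ (Real.log H))) ≤ s4b_qp C (Real.log H) := by
    apply hC _ _ hlog
    · rw [s4b_log_qp]; positivity
    · rw [s4b_log_qp]
  have key : ∀ u : ℝ, A₂.eval u = (η (Int.fract (s * u + t₀)) : ℂ) *
      (χ (fun j => s4b_fr (θ j * (((⌊s * u + t₀⌋ : ℤ) : ℝ) - y₀))) : ℂ) * ee (s4b_brPhase θ α lam β y₀ ⌊s * u + t₀⌋) := by
    intro u
    rw [hev₂, hev₁, hev]
    have e1 : s * u + (t₀ - (y₀ : ℝ)) = (s * u + t₀) - (y₀ : ℝ) := by ring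
    rw [e1, Int.fract_sub_intCast, Int.floor_sub_intCast]
    set n : ℤ := ⌊s * u + t₀⌋ with hn
    have e2 : s4b_brPhase θ α lam β y₀ n =
        (lam * (y₀ : ℝ) ^ 2 + β * y₀) + s4b_brPhase θ α lam (2 * lam * y₀ + β) 0 (n - y₀) := by
      simp only [s4b_brPhase]
      push_cast
      simp only [sub_zero]
      ring
    have e3 : ee (s4b_brPhase θ α lam β y₀ n) =
        ee (lam * (y₀ : ℝ) ^ 2 + β * y₀) * ee (s4b_brPhase θ α lam (2 * lam * y₀ + β) 0 (n - y₀)) := by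
      rw [e2, gev_ee_add]
    have e4 : (fun j => s4b_fr (θ j * ((((n - y₀ : ℤ) : ℤ) : ℝ) - ((0 : ℤ) : ℝ)))) =
        fun j => s4b_fr (θ j * ((n : ℝ) - y₀)) := by
      funext j
      push_cast
      simp only [sub_zero]
    rw [e3, e4]
    ring
  refine ⟨χ, η, A₂, hχ, hη, s4b_cplx_mono hA₂ hle, ?_, key⟩
  intro u
  rw [key u, norm_mul, norm_mul, gev_ee_norm, mul_one, Complex.norm_real, Complex.norm_real]
  have a1 := hη.2.1 (Int.fract (s * u + t₀))
  have a2 := hχ.1 (fun j => s4b_fr (θ j * (((⌊s * u + t₀⌋ : ℤ) : ℝ) - y₀)))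
  rw [Real.norm_of_nonneg a1.1, Real.norm_of_nonneg a2.1]
  exact mul_le_one₀ a1.2 a2.1 a2.2

end Claimed.Agent.R258
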