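/-
Row 258, block [S4b] (architect helper99).  FILE Abs: basic API of the local form `form I w z` and the three absolute
estimates used in the block (special cases of Lemma 2.1 `lem:local-absolute`, with DIRECT proofs).

PLAN.  Everything rests on: for `a ≠ b` in `Fin 4` the map `(x,t) ↦ (x + a t, x + b t)` is a linear automorphism of `ℝ²` with
determinant `b - a`, `1 ≤ |b - a| ≤ 3`; `w` is continuous, `‖w p‖ ≤ (2 C0)^(2 C0)` (`Admissible.deriv` with `n = 0`), and `w p ≠ 0`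
forces all four `p.1 + j p.2 ∈ I.set` (`Admissible.supp`, `0 < c0`).
* `s4b_abs11`: bound the kernel and the two bounded functions, change variables to `(y_a,y_b)`, Tonelli.
* `s4b_abs2222`: Cauchy-Schwarz for the pairs `(a,b)`, `(c,d)`, then the change of variables twice.
* `s4b_abs2qq2`: write `|R||h||u||v| = (|R||u|^{q'/2}) (|h||u|^{1-q'/2}|v|)`, Cauchy-Schwarz; the first square is a product in
  `(y_a,y_c)`; the second square is `∫ |v(y_d)|² [∫ |h|²(y_d + (b-d)t) |u|^{2-q'}(y_d + (c-d)t) dt] dy_d` and Hölder in `t` with the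
  exponents `q/2` and `(q/2)'` (note `(2-q')(q/2)' = q'`).
If block [S2] lands the general Lemma 2.1 first, deduce the three statements from it.
-/
import Claimed.Agent.R258.Pack012
import Claimed.Agent.R258.Pack005

set_option autoImplicit false
open MeasureTheory
open scoped ENNReal ContDiff ComplexConjugate

namespace Claimed.Agent.R258

/-- the integrand of the local form -/
noncomputable def s4b_igd (w : ℝ × ℝ → ℂ) (z : Fin 4 → ℝ → ℂ) (p : ℝ × ℝ) : ℂ :=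
  w p * ∏ j : Fin 4, z j (p.1 + (j : ℝ) * p.2)

theorem s4b_form_eq (I : Cell) (w : ℝ × ℝ → ℂ) (z : Fin 4 → ℝ → ℂ) :
    form I w z = ((I.len ^ 2)⁻¹ : ℝ) * ∫ p : ℝ × ℝ, s4b_igd w z p := rfl

theorem s4b_form_congr {c0 C0 : ℝ} (hc0 : 0 < c0) {I : Cell} {w : ℝ × ℝ → ℂ} (hw : Admissible c0 C0 I w)
    {z z' : Fin 4 → ℝ → ℂ} (h : ∀ k, ∀ y ∈ I.set, z k y = z' k y) : s4b_igd w z = s4b_igd w z' := by
  funext p
  unfold s4b_igd
  by_cases hp : w p = 0
  · rw [hp, zero_mul, zero_mul]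
  · have hm := (s2_adm_supp hw hc0 hp).1
    congr 1
    exact Finset.prod_congr rfl fun j _ => h j _ (hm j)

/-- the integrand with one slot singled out -/
theorem s4b_igd_update (w : ℝ × ℝ → ℂ) (z : Fin 4 → ℝ → ℂ) (i : Fin 4) (F : ℝ → ℂ) (p : ℝ × ℝ) :
    s4b_igd w (Function.update z i F) p =
      F (p.1 + (i : ℝ) * p.2) * (w p * ∏ j ∈ Finset.univ.erase i, z j (p.1 + (j : ℝ) * p.2)) := by
  unfold s4b_igd
  rw [← Finset.mul_prod_erase Finset.univ _ (Finset.mem_univ i), Function.update_self]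
  have : ∏ j ∈ Finset.univ.erase i, Function.update z i F j (p.1 + (j : ℝ) * p.2) =
      ∏ j ∈ Finset.univ.erase i, z j (p.1 + (j : ℝ) * p.2) :=
    Finset.prod_congr rfl fun j hj => by rw [Function.update_of_ne (Finset.ne_of_mem_erase hj)]
  rw [this]
  ring

theorem s4b_form_add (I : Cell) (w : ℝ × ℝ → ℂ) (z : Fin 4 → ℝ → ℂ) (i : Fin 4) (f g : ℝ → ℂ)
    (hf : Integrable (s4b_igd w (Function.update z i f))) (hg : Integrable (s4b_igd w (Function.update z i g))) :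
    Integrable (s4b_igd w (Function.update z i (f + g))) ∧
    form I w (Function.update z i (f + g)) = form I w (Function.update z i f) + form I w (Function.update z i g) := by
  have e : s4b_igd w (Function.update z i (f + g)) =
      s4b_igd w (Function.update z i f) + s4b_igd w (Function.update z i g) := by
    funext p
    rw [Pi.add_apply, s4b_igd_update, s4b_igd_update, s4b_igd_update, Pi.add_apply]
    ring
  refine ⟨e ▸ hf.add hg, ?_⟩
  rw [s4b_form_eq, s4b_form_eq, s4b_form_eq, e]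
  simp only [Pi.add_apply]
  rw [integral_add hf hg, mul_add]

theorem s4b_igd_smul (w : ℝ × ℝ → ℂ) (z : Fin 4 → ℝ → ℂ) (i : Fin 4) (c : ℂ) (f : ℝ → ℂ) :
    s4b_igd w (Function.update z i (fun y => c * f y)) = fun p => c * s4b_igd w (Function.update z i f) p := by
  funext p
  rw [s4b_igd_update, s4b_igd_update]
  ring

theorem s4b_form_smul (I : Cell) (w : ℝ × ℝ → ℂ) (z : Fin 4 → ℝ → ℂ) (i : Fin 4) (c : ℂ) (f : ℝ → ℂ) :
    form I w (Function.update z i (fun y => c * f y)) = c * form I w (Function.update z i f) := by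
  rw [s4b_form_eq, s4b_form_eq, s4b_igd_smul, integral_const_mul]
  ring

theorem s4b_igd_smul_integrable (w : ℝ × ℝ → ℂ) (z : Fin 4 → ℝ → ℂ) (i : Fin 4) (c : ℂ) (f : ℝ → ℂ)
    (hf : Integrable (s4b_igd w (Function.update z i f))) :
    Integrable (s4b_igd w (Function.update z i (fun y => c * f y))) := by
  rw [s4b_igd_smul]
  exact hf.const_mul c

/-- affine substitution on the line -/
theorem s4b_lintegral_affine (x c : ℝ) (hc : c ≠ 0) (G : ℝ → ℝ≥0∞) (hG : Measurable G) :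
    ∫⁻ t : ℝ, G (x + c * t) = ENNReal.ofReal |c|⁻¹ * ∫⁻ y, G y := by
  have h1 : ∫⁻ t : ℝ, G (x + c * t) = ∫⁻ s, G (x + s) ∂(Measure.map (fun t : ℝ => c * t) volume) := by
    have hGx : Measurable fun s : ℝ => G (x + s) := hG.comp (measurable_const.add measurable_id)
    have hc' : Measurable fun t : ℝ => c * t := measurable_id.const_mul c
    rw [lintegral_map hGx hc']
  rw [h1, Real.map_volume_mul_left hc, lintegral_smul_measure, lintegral_add_left_eq_self G x, abs_inv,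
    smul_eq_mul]

/-- the change of variables `(x,t) ↦ (x + a t, x + b t)` for nonnegative functions -/
theorem s4b_pair_lintegral (a b : ℝ) (hab : a ≠ b) (F G : ℝ → ℝ≥0∞) (hF : Measurable F) (hG : Measurable G) :
    ∫⁻ p : ℝ × ℝ, F (p.1 + a * p.2) * G (p.1 + b * p.2) =
      ENNReal.ofReal |b - a|⁻¹ * ((∫⁻ y, F y) * ∫⁻ y, G y) := by
  have hm : Measurable (fun p : ℝ × ℝ => F (p.1 + a * p.2) * G (p.1 + b * p.2)) :=
    (hF.comp (measurable_fst.add (measurable_snd.const_mul a))).mul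
      (hG.comp (measurable_fst.add (measurable_snd.const_mul b)))
  rw [Measure.volume_eq_prod, lintegral_prod_symm' _ hm]
  have h1 : ∀ t : ℝ, ∫⁻ x : ℝ, F (x + a * t) * G (x + b * t) = ∫⁻ x : ℝ, F x * G (x + (b - a) * t) := by
    intro t
    rw [← lintegral_add_right_eq_self (fun x : ℝ => F x * G (x + (b - a) * t)) (a * t)]
    refine lintegral_congr fun x => ?_
    congr 2
    ring
  simp only [h1]
  have hm2 : Measurable (Function.uncurry fun t x : ℝ => F x * G (x + (b - a) * t)) :=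
    (hF.comp measurable_snd).mul (hG.comp (measurable_snd.add (measurable_fst.const_mul (b - a))))
  rw [lintegral_lintegral_swap hm2.aemeasurable]
  have h2 : ∀ x : ℝ, ∫⁻ t : ℝ, F x * G (x + (b - a) * t) =
      F x * (ENNReal.ofReal |b - a|⁻¹ * ∫⁻ y, G y) := by
    intro x
    have hGx : Measurable fun t : ℝ => G (x + (b - a) * t) :=
      hG.comp (measurable_const.add (measurable_id.const_mul (b - a)))
    rw [lintegral_const_mul _ hGx, s4b_lintegral_affine x (b - a) (sub_ne_zero.2 hab.symm) G hG]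
  simp only [h2]
  rw [lintegral_mul_const _ hF]
  ring

/-- the image of Lebesgue measure under `(x,t) ↦ (x + a t, x + b t)` -/
theorem s4b_pair_map (a b : ℝ) (hab : a ≠ b) :
    Measure.map (fun p : ℝ × ℝ => (p.1 + a * p.2, p.1 + b * p.2)) volume =
      ENNReal.ofReal |b - a|⁻¹ • (volume : Measure (ℝ × ℝ)) := by
  have hΦ : Measurable (fun p : ℝ × ℝ => (p.1 + a * p.2, p.1 + b * p.2)) :=
    (measurable_fst.add (measurable_snd.const_mul a)).prodMk (measurable_fst.add (measurable_snd.const_mul b))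
  have hsf : SigmaFinite (ENNReal.ofReal |b - a|⁻¹ • (volume : Measure ℝ)) :=
    SMul.sigmaFinite (μ := (volume : Measure ℝ)) (Real.toNNReal |b - a|⁻¹)
  rw [Measure.volume_eq_prod, ← Measure.prod_smul_left]
  symm
  refine Measure.prod_eq fun s t hs ht => ?_
  rw [Measure.map_apply hΦ (hs.prod ht), ← lintegral_indicator_one (hΦ (hs.prod ht))]
  have := s4b_pair_lintegral a b hab (s.indicator 1) (t.indicator 1) (measurable_one.indicator hs)
    (measurable_one.indicator ht)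
  rw [lintegral_indicator_one hs, lintegral_indicator_one ht] at this
  rw [Measure.smul_apply, smul_eq_mul, mul_assoc, ← this, Measure.volume_eq_prod]
  refine lintegral_congr fun p => ?_
  by_cases h1 : p.1 + a * p.2 ∈ s <;> by_cases h2 : p.1 + b * p.2 ∈ t <;>
    simp [Set.indicator, h1, h2]

theorem s4b_pair_integral (a b : Fin 4) (hab : a ≠ b) (F G : ℝ → ℝ) (hF : Integrable F) (hG : Integrable G) :
    Integrable (fun p : ℝ × ℝ => F (p.1 + (a : ℝ) * p.2) * G (p.1 + (b : ℝ) * p.2)) ∧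
    ∫ p : ℝ × ℝ, F (p.1 + (a : ℝ) * p.2) * G (p.1 + (b : ℝ) * p.2) = |(b : ℝ) - (a : ℝ)|⁻¹ * ((∫ y, F y) * ∫ y, G y) := by
  have hab' : ((a : ℕ) : ℝ) ≠ ((b : ℕ) : ℝ) := fun h => hab (Fin.ext (Nat.cast_injective h))
  have hΦ : Measurable (fun p : ℝ × ℝ => (p.1 + ((a : ℕ) : ℝ) * p.2, p.1 + ((b : ℕ) : ℝ) * p.2)) :=
    (measurable_fst.add (measurable_snd.const_mul _)).prodMk (measurable_fst.add (measurable_snd.const_mul _))
  have hH : Integrable (fun y : ℝ × ℝ => F y.1 * G y.2) := hF.mul_prod hG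
  have hmap := s4b_pair_map _ _ hab'
  have hH' : Integrable (fun y : ℝ × ℝ => F y.1 * G y.2)
      (Measure.map (fun p : ℝ × ℝ => (p.1 + ((a : ℕ) : ℝ) * p.2, p.1 + ((b : ℕ) : ℝ) * p.2)) volume) := by
    rw [hmap]
    exact hH.smul_measure ENNReal.ofReal_ne_top
  refine ⟨(integrable_map_measure hH'.aestronglyMeasurable hΦ.aemeasurable).1 hH', ?_⟩
  have := integral_map hΦ.aemeasurable hH'.aestronglyMeasurable
  rw [← this, hmap, integral_smul_measure, Measure.volume_eq_prod, integral_prod_mul,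
    ENNReal.toReal_ofReal (by positivity), smul_eq_mul]

theorem s4b_fin_dist (a b : Fin 4) (hab : a ≠ b) : 1 ≤ |((b : ℕ) : ℝ) - ((a : ℕ) : ℝ)| := by
  have h : ((b : ℕ) : ℤ) - ((a : ℕ) : ℤ) ≠ 0 := by
    intro h
    apply hab
    apply Fin.ext
    omega
  have h1 := Int.one_le_abs h
  have h2 : ((1 : ℤ) : ℝ) ≤ ((|((b : ℕ) : ℤ) - ((a : ℕ) : ℤ)| : ℤ) : ℝ) := Int.cast_le.2 h1
  push_cast at h2
  exact h2

theorem s4b_fin_dist_inv (a b : Fin 4) (hab : a ≠ b) :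
    ENNReal.ofReal |((b : ℕ) : ℝ) - ((a : ℕ) : ℝ)|⁻¹ ≤ 1 := by
  rw [← ENNReal.ofReal_one]
  exact ENNReal.ofReal_le_ofReal (inv_le_one_of_one_le₀ (s4b_fin_dist a b hab))

theorem s4b_K0_ge {C0 : ℝ} (hC0 : 1 ≤ C0) : 1 ≤ (C0 * 2) ^ (C0 * 2) :=
  Real.one_le_rpow (by linarith) (by linarith)

theorem s4b_igd_measurable {w : ℝ × ℝ → ℂ} (hw : Continuous w) {z : Fin 4 → ℝ → ℂ} (hz : ∀ k, Measurable (z k)) :
    Measurable (s4b_igd w z) :=
  hw.measurable.mul (s2_prod_measurable hz)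

theorem s4b_igd_enorm (w : ℝ × ℝ → ℂ) (z : Fin 4 → ℝ → ℂ) (p : ℝ × ℝ) :
    ‖s4b_igd w z p‖ₑ = ‖w p‖ₑ * ∏ j : Fin 4, ‖z j (p.1 + (j : ℝ) * p.2)‖ₑ := by
  unfold s4b_igd
  rw [enorm_mul, Fin.prod_univ_four, Fin.prod_univ_four, enorm_mul, enorm_mul, enorm_mul]

/-- from a bound in `ℝ≥0∞` to integrability and the bound of the form -/
theorem s4b_of_enn (I : Cell) {w : ℝ × ℝ → ℂ} (hw : Continuous w) {z : Fin 4 → ℝ → ℂ} (hz : ∀ k, Measurable (z k))
    {X : ℝ} (hX : 0 ≤ X)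
    (h : (ENNReal.ofReal (I.len ^ 2))⁻¹ * ∫⁻ p : ℝ × ℝ, ‖w p‖ₑ * ∏ j : Fin 4, ‖z j (p.1 + (j : ℝ) * p.2)‖ₑ ≤
      ENNReal.ofReal X) :
    Integrable (s4b_igd w z) ∧ ‖form I w z‖ ≤ X := by
  have hlen : 0 < I.len := cell_len_pos I
  have hL0 : ENNReal.ofReal (I.len ^ 2) ≠ 0 := (ENNReal.ofReal_pos.2 (by positivity)).ne'
  have hLt : ENNReal.ofReal (I.len ^ 2) ≠ ⊤ := ENNReal.ofReal_ne_top
  constructor
  · refine ⟨(s4b_igd_measurable hw hz).aestronglyMeasurable, ?_⟩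
    unfold HasFiniteIntegral
    simp only [s4b_igd_enorm]
    by_contra hcon
    rw [not_lt, top_le_iff] at hcon
    rw [hcon, ENNReal.mul_top (ENNReal.inv_ne_zero.2 hLt)] at h
    exact ENNReal.ofReal_ne_top (top_le_iff.1 h)
  · rw [← ENNReal.ofReal_le_ofReal_iff hX, ofReal_norm]
    refine le_trans ?_ h
    rw [s4b_form_eq, enorm_mul]
    have e1 : ‖(((I.len ^ 2)⁻¹ : ℝ) : ℂ)‖ₑ = (ENNReal.ofReal (I.len ^ 2))⁻¹ := by
      rw [← ofReal_norm, Complex.norm_real, Real.norm_eq_abs, abs_of_pos (by positivity),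
        ENNReal.ofReal_inv_of_pos (by positivity)]
    rw [e1]
    gcongr
    refine (enorm_integral_le_lintegral_enorm _).trans (le_of_eq ?_)
    exact lintegral_congr fun p => s4b_igd_enorm w z p

theorem s4b_len_sq_inv (I : Cell) :
    (ENNReal.ofReal (I.len ^ 2))⁻¹ = (ENNReal.ofReal I.len)⁻¹ * (ENNReal.ofReal I.len)⁻¹ := by
  have hlen : 0 < I.len := cell_len_pos I
  rw [pow_two, ENNReal.ofReal_mul hlen.le, ENNReal.mul_inv]
  · left; simpa using hlen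
  · left; exact ENNReal.ofReal_ne_top

theorem s4b_abs11 (c0 C0 : ℝ) (hc0 : 0 < c0) (hC0 : 1 ≤ C0) :
    ∃ K : ℝ, 1 ≤ K ∧ ∀ (I : Cell) (w : ℝ × ℝ → ℂ) (z : Fin 4 → ℝ → ℂ) (a b : Fin 4) (B : ℝ),
      Admissible c0 C0 I w → a ≠ b → 0 ≤ B → (∀ k, Measurable (z k)) →
      IntegrableOn (z a) I.set → IntegrableOn (z b) I.set → (∀ k, k ≠ a → k ≠ b → SupLe I (z k) B) →
      Integrable (s4b_igd w z) ∧ ‖form I w z‖ ≤ K * nnorm 1 I (z a) * nnorm 1 I (z b) * B ^ 2 := by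
  refine ⟨(C0 * 2) ^ (C0 * 2), s4b_K0_ge hC0, ?_⟩
  intro I w z a b B hw hab hB hz hza hzb hsup
  have hK0 : 0 ≤ (C0 * 2) ^ (C0 * 2) := zero_le_one.trans (s4b_K0_ge hC0)
  refine s4b_of_enn I hw.smooth.continuous hz
    (by have := nnorm_nonneg 1 I (z a); have := nnorm_nonneg 1 I (z b); positivity) ?_
  set U : Fin 4 → ℝ → ℝ≥0∞ := fun k => I.set.indicator fun y => ‖z k y‖ₑ with hU
  have hUm : ∀ k, Measurable (U k) := fun k => (hz k).enorm.indicator (cell_measurableSet I)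
  have hab' : ((a : ℕ) : ℝ) ≠ ((b : ℕ) : ℝ) := fun h => hab (Fin.ext (Nat.cast_injective h))
  have h1 : ∀ p : ℝ × ℝ, ‖w p‖ₑ * ∏ j : Fin 4, ‖z j (p.1 + (j : ℝ) * p.2)‖ₑ ≤
      ENNReal.ofReal ((C0 * 2) ^ (C0 * 2)) * ENNReal.ofReal B ^ 2 *
        (U a (p.1 + (a : ℝ) * p.2) * U b (p.1 + (b : ℝ) * p.2)) := by
    intro p
    by_cases hp : w p = 0
    · simp [hp]
    · have hmem := (s2_adm_supp hw hc0 hp).1
      have hbm : b ∈ Finset.univ.erase a := Finset.mem_erase.2 ⟨hab.symm, Finset.mem_univ b⟩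
      rw [← Finset.mul_prod_erase Finset.univ _ (Finset.mem_univ a), ← Finset.mul_prod_erase _ _ hbm]
      have h2 : ∏ k ∈ (Finset.univ.erase a).erase b, ‖z k (p.1 + (k : ℝ) * p.2)‖ₑ ≤ ENNReal.ofReal B ^ 2 := by
        have hcard : ((Finset.univ.erase a).erase b).card = 2 := by
          rw [Finset.card_erase_of_mem hbm, Finset.card_erase_of_mem (Finset.mem_univ a)]
          simp
        rw [← hcard]
        refine Finset.prod_le_pow_card _ _ _ fun k hk => ?_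
        have hkb := Finset.ne_of_mem_erase hk
        have hka := Finset.ne_of_mem_erase (Finset.mem_of_mem_erase hk)
        rw [← ofReal_norm]
        exact ENNReal.ofReal_le_ofReal (hsup k hka hkb _ (hmem k))
      have h3 : ‖w p‖ₑ ≤ ENNReal.ofReal ((C0 * 2) ^ (C0 * 2)) := by
        rw [← ofReal_norm]
        exact ENNReal.ofReal_le_ofReal (s2_adm_bound hw p)
      simp only [hU]
      rw [Set.indicator_of_mem (hmem a), Set.indicator_of_mem (hmem b)]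
      calc ‖w p‖ₑ * (‖z a (p.1 + (a : ℝ) * p.2)‖ₑ * (‖z b (p.1 + (b : ℝ) * p.2)‖ₑ *
            ∏ k ∈ (Finset.univ.erase a).erase b, ‖z k (p.1 + (k : ℝ) * p.2)‖ₑ))
          ≤ ENNReal.ofReal ((C0 * 2) ^ (C0 * 2)) * (‖z a (p.1 + (a : ℝ) * p.2)‖ₑ *
              (‖z b (p.1 + (b : ℝ) * p.2)‖ₑ * ENNReal.ofReal B ^ 2)) := by gcongr
        _ = _ := by ring
  have hn : ∀ k, IntegrableOn (z k) I.set →
      ENNReal.ofReal (nnorm 1 I (z k)) = (ENNReal.ofReal I.len)⁻¹ * ∫⁻ y, U k y := by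
    intro k hk
    have hk' : IntegrableOn (fun y => ‖z k y‖ ^ (1 : ℝ)) I.set := by
      simp only [Real.rpow_one]
      exact hk.norm
    rw [ofReal_nnorm_eq one_pos I (z k) hk', hU]
    simp only [ENNReal.rpow_one, div_one]
    rw [lintegral_indicator (cell_measurableSet I)]
  calc (ENNReal.ofReal (I.len ^ 2))⁻¹ * ∫⁻ p : ℝ × ℝ, ‖w p‖ₑ * ∏ j : Fin 4, ‖z j (p.1 + (j : ℝ) * p.2)‖ₑ
      ≤ (ENNReal.ofReal (I.len ^ 2))⁻¹ * ∫⁻ p : ℝ × ℝ, ENNReal.ofReal ((C0 * 2) ^ (C0 * 2)) * ENNReal.ofReal B ^ 2 *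
        (U a (p.1 + (a : ℝ) * p.2) * U b (p.1 + (b : ℝ) * p.2)) := by
        exact mul_le_mul_right (lintegral_mono h1) _
    _ = (ENNReal.ofReal (I.len ^ 2))⁻¹ * (ENNReal.ofReal ((C0 * 2) ^ (C0 * 2)) * ENNReal.ofReal B ^ 2 *
        (ENNReal.ofReal |((b : ℕ) : ℝ) - ((a : ℕ) : ℝ)|⁻¹ * ((∫⁻ y, U a y) * ∫⁻ y, U b y))) := by
        rw [lintegral_const_mul' _ _ (ENNReal.mul_ne_top ENNReal.ofReal_ne_top (ENNReal.pow_ne_top ENNReal.ofReal_ne_top)),
          s4b_pair_lintegral _ _ hab' _ _ (hUm a) (hUm b)]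
    _ ≤ (ENNReal.ofReal (I.len ^ 2))⁻¹ * (ENNReal.ofReal ((C0 * 2) ^ (C0 * 2)) * ENNReal.ofReal B ^ 2 *
        (1 * ((∫⁻ y, U a y) * ∫⁻ y, U b y))) := by
        gcongr
        exact s4b_fin_dist_inv a b hab
    _ = ENNReal.ofReal ((C0 * 2) ^ (C0 * 2) * nnorm 1 I (z a) * nnorm 1 I (z b) * B ^ 2) := by
        rw [ENNReal.ofReal_mul (by have := nnorm_nonneg 1 I (z a); have := nnorm_nonneg 1 I (z b); positivity),
          ENNReal.ofReal_mul (by have := nnorm_nonneg 1 I (z a); positivity), ENNReal.ofReal_mul hK0,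
          hn a hza, hn b hzb, s4b_len_sq_inv, ENNReal.ofReal_pow hB]
        ring

theorem s4b_cell_finite (I : Cell) : IsFiniteMeasure (volume.restrict I.set) :=
  ⟨by rw [Measure.restrict_apply_univ, cell_volume_set]; exact ENNReal.ofReal_lt_top⟩

theorem s4b_memLp_rpow {I : Cell} {f : ℝ → ℂ} {q : ℝ} (hq : 0 < q)
    (hf : MemLp f (ENNReal.ofReal q) (volume.restrict I.set)) : IntegrableOn (fun y => ‖f y‖ ^ q) I.set := by
  have := hf.integrable_norm_rpow (ENNReal.ofReal_pos.2 hq).ne' ENNReal.ofReal_ne_top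
  rwa [ENNReal.toReal_ofReal hq.le] at this

theorem s4b_L2_sq {I : Cell} {f : ℝ → ℂ} (hf : s4b_L2 I f) : IntegrableOn (fun y => ‖f y‖ ^ (2 : ℝ)) I.set := by
  have := hf.integrable_norm_rpow (by norm_num) (by norm_num)
  rwa [ENNReal.toReal_ofNat] at this

theorem s4b_nnorm_one_le_two (I : Cell) (f : ℝ → ℂ) (hm : Measurable f) (hf : s4b_L2 I f) :
    IntegrableOn f I.set ∧ nnorm 1 I f ≤ nnorm 2 I f := by
  have := s4b_cell_finite I
  refine ⟨memLp_one_iff_integrable.1 (MemLp.mono_exponent hf (by norm_num)), ?_⟩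
  exact nnorm_mono_exponent one_pos (by norm_num) hm.aestronglyMeasurable (s4b_L2_sq hf)

theorem s4b_L2_of_supLe (I : Cell) (f : ℝ → ℂ) (B : ℝ) (hB : 0 ≤ B) (hm : Measurable f) (hf : SupLe I f B) :
    s4b_L2 I f ∧ nnorm 2 I f ≤ B := by
  have := s4b_cell_finite I
  refine ⟨MemLp.of_bound hm.aestronglyMeasurable B (ae_restrict_of_forall_mem (cell_measurableSet I) hf), ?_⟩
  exact nnorm_le_of_supLe (by norm_num) hB hf

theorem s4b_abs2222 (c0 C0 : ℝ) (hc0 : 0 < c0) (hC0 : 1 ≤ C0) :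
    ∃ K : ℝ, 1 ≤ K ∧ ∀ (I : Cell) (w : ℝ × ℝ → ℂ) (z : Fin 4 → ℝ → ℂ),
      Admissible c0 C0 I w → (∀ k, Measurable (z k)) → (∀ k, s4b_L2 I (z k)) →
      Integrable (s4b_igd w z) ∧ ‖form I w z‖ ≤ K * ∏ k, nnorm 2 I (z k) := by
  refine ⟨(C0 * 2) ^ (C0 * 2), s4b_K0_ge hC0, ?_⟩
  intro I w z hw hz hz2
  have hK0 : 0 ≤ (C0 * 2) ^ (C0 * 2) := zero_le_one.trans (s4b_K0_ge hC0)
  refine s4b_of_enn I hw.smooth.continuous hz
    (mul_nonneg hK0 (Finset.prod_nonneg fun j _ => nnorm_nonneg _ _ _)) ?_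
  refine (s2_local_abs_enn hw hc0 (fun j y => ‖z j y‖ₑ) (fun j => (hz j).enorm)).trans (le_of_eq ?_)
  rw [ENNReal.ofReal_mul hK0, ENNReal.ofReal_prod_of_nonneg (fun j _ => nnorm_nonneg _ _ _)]
  congr 1
  refine Finset.prod_congr rfl fun j _ => ?_
  rw [ofReal_nnorm_eq (by norm_num) I (z j) (s4b_L2_sq (hz2 j))]

theorem s4b_lintegral_affine_le (x c : ℝ) (hc : 1 ≤ |c|) (G : ℝ → ℝ≥0∞) (hG : Measurable G) :
    ∫⁻ t : ℝ, G (x + c * t) ≤ ∫⁻ y, G y := by
  have hc0 : c ≠ 0 := by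
    rintro rfl
    simp at hc
    linarith
  rw [s4b_lintegral_affine x c hc0 G hG]
  calc ENNReal.ofReal |c|⁻¹ * ∫⁻ y, G y ≤ 1 * ∫⁻ y, G y := by
        gcongr
        rw [← ENNReal.ofReal_one]
        exact ENNReal.ofReal_le_ofReal (inv_le_one_of_one_le₀ hc)
    _ = _ := one_mul _

theorem s4b_pair_lintegral_le (a b : ℝ) (hab : 1 ≤ |b - a|) (F G : ℝ → ℝ≥0∞) (hF : Measurable F) (hG : Measurable G) :
    ∫⁻ p : ℝ × ℝ, F (p.1 + a * p.2) * G (p.1 + b * p.2) ≤ (∫⁻ y, F y) * ∫⁻ y, G y := by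
  have hab0 : a ≠ b := by
    rintro rfl
    simp at hab
    linarith
  rw [s4b_pair_lintegral a b hab0 F G hF hG]
  calc ENNReal.ofReal |b - a|⁻¹ * ((∫⁻ y, F y) * ∫⁻ y, G y) ≤ 1 * ((∫⁻ y, F y) * ∫⁻ y, G y) := by
        gcongr
        rw [← ENNReal.ofReal_one]
        exact ENNReal.ofReal_le_ofReal (inv_le_one_of_one_le₀ hab)
    _ = _ := one_mul _

/-- three points of the progression: integrate first along the lines through the third point -/
theorem s4b_triple_lintegral (b c d : ℝ) (H W V : ℝ → ℝ≥0∞) (hH : Measurable H) (hW : Measurable W)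
    (hV : Measurable V) :
    ∫⁻ p : ℝ × ℝ, H (p.1 + b * p.2) * W (p.1 + c * p.2) * V (p.1 + d * p.2) =
      ∫⁻ x : ℝ, V x * ∫⁻ t : ℝ, H (x + (b - d) * t) * W (x + (c - d) * t) := by
  have hl : ∀ e : ℝ, Measurable fun p : ℝ × ℝ => p.1 + e * p.2 := fun e =>
    measurable_fst.add (measurable_snd.const_mul e)
  have hm : Measurable (fun p : ℝ × ℝ => H (p.1 + b * p.2) * W (p.1 + c * p.2) * V (p.1 + d * p.2)) :=
    ((hH.comp (hl b)).mul (hW.comp (hl c))).mul (hV.comp (hl d))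
  rw [Measure.volume_eq_prod, lintegral_prod_symm' _ hm]
  have h1 : ∀ t : ℝ, ∫⁻ x : ℝ, H (x + b * t) * W (x + c * t) * V (x + d * t) =
      ∫⁻ x : ℝ, H (x + (b - d) * t) * W (x + (c - d) * t) * V x := by
    intro t
    rw [← lintegral_add_right_eq_self (fun x : ℝ => H (x + (b - d) * t) * W (x + (c - d) * t) * V x) (d * t)]
    refine lintegral_congr fun x => ?_
    congr 3 <;> ring
  simp only [h1]
  have hl' : ∀ e : ℝ, Measurable fun p : ℝ × ℝ => p.2 + e * p.1 := fun e =>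
    measurable_snd.add (measurable_fst.const_mul e)
  have hm2 : Measurable (Function.uncurry fun t x : ℝ => H (x + (b - d) * t) * W (x + (c - d) * t) * V x) :=
    ((hH.comp (hl' _)).mul (hW.comp (hl' _))).mul (hV.comp measurable_snd)
  rw [lintegral_lintegral_swap hm2.aemeasurable]
  refine lintegral_congr fun x => ?_
  have hx : Measurable fun t : ℝ => H (x + (b - d) * t) * W (x + (c - d) * t) :=
    (hH.comp (measurable_const.add (measurable_id.const_mul _))).mul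
      (hW.comp (measurable_const.add (measurable_id.const_mul _)))
  rw [lintegral_mul_const _ hx, mul_comm]

/-- Hölder along the lines -/
theorem s4b_triple_le (b c d r r' : ℝ) (hr : r.HolderConjugate r') (hbd : 1 ≤ |b - d|) (hcd : 1 ≤ |c - d|)
    (H W V : ℝ → ℝ≥0∞) (hH : Measurable H) (hW : Measurable W) (hV : Measurable V) :
    ∫⁻ p : ℝ × ℝ, H (p.1 + b * p.2) * W (p.1 + c * p.2) * V (p.1 + d * p.2) ≤
      (∫⁻ y, V y) * ((∫⁻ y, H y ^ r) ^ (1 / r) * (∫⁻ y, W y ^ r') ^ (1 / r')) := by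
  rw [s4b_triple_lintegral b c d H W V hH hW hV, ← lintegral_mul_const _ hV]
  refine lintegral_mono fun x => ?_
  gcongr
  have hHx : Measurable fun t : ℝ => H (x + (b - d) * t) :=
    hH.comp (measurable_const.add (measurable_id.const_mul _))
  have hWx : Measurable fun t : ℝ => W (x + (c - d) * t) :=
    hW.comp (measurable_const.add (measurable_id.const_mul _))
  refine (ENNReal.lintegral_mul_le_Lp_mul_Lq volume hr hHx.aemeasurable hWx.aemeasurable).trans ?_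
  have hr0 : 0 ≤ 1 / r := by have := hr.pos; positivity
  have hr0' : 0 ≤ 1 / r' := by have := hr.symm.pos; positivity
  exact mul_le_mul'
    (ENNReal.rpow_le_rpow (s4b_lintegral_affine_le x (b - d) hbd (fun y => H y ^ r) (hH.pow_const _)) hr0)
    (ENNReal.rpow_le_rpow (s4b_lintegral_affine_le x (c - d) hcd (fun y => W y ^ r') (hW.pow_const _)) hr0')

/-- the `(2,q,q',2)` estimate for nonnegative functions on the line -/
theorem s4b_young (a b c d q : ℝ) (hq : 2 < q) (hac : 1 ≤ |c - a|) (hbd : 1 ≤ |b - d|) (hcd : 1 ≤ |c - d|)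
    (R h u v : ℝ → ℝ≥0∞) (hR : Measurable R) (hh : Measurable h) (hu : Measurable u) (hv : Measurable v) :
    ∫⁻ p : ℝ × ℝ, R (p.1 + a * p.2) * h (p.1 + b * p.2) * u (p.1 + c * p.2) * v (p.1 + d * p.2) ≤
      (∫⁻ y, R y ^ (2 : ℝ)) ^ (1 / 2 : ℝ) * (∫⁻ y, h y ^ q) ^ (1 / q) *
        (∫⁻ y, u y ^ (q / (q - 1))) ^ (1 / (q / (q - 1))) * (∫⁻ y, v y ^ (2 : ℝ)) ^ (1 / 2 : ℝ) := by
  set q' := q / (q - 1) with hq'
  have hq0 : 0 < q := by linarith
  have hq1 : 0 < q - 1 := by linarith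
  have hq2 : 0 < q - 2 := by linarith
  have hq'1 : 0 < q' := by positivity
  have hq'2 : q' < 2 := by rw [hq', div_lt_iff₀ hq1]; linarith
  have hl : ∀ e : ℝ, Measurable fun p : ℝ × ℝ => p.1 + e * p.2 := fun e =>
    measurable_fst.add (measurable_snd.const_mul e)
  set A : ℝ × ℝ → ℝ≥0∞ := fun p => R (p.1 + a * p.2) * u (p.1 + c * p.2) ^ (q' / 2) with hA
  set Bf : ℝ × ℝ → ℝ≥0∞ := fun p => h (p.1 + b * p.2) * u (p.1 + c * p.2) ^ (1 - q' / 2) * v (p.1 + d * p.2)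
    with hBf
  have hAm : Measurable A := (hR.comp (hl a)).mul ((hu.comp (hl c)).pow_const _)
  have hBm : Measurable Bf := ((hh.comp (hl b)).mul ((hu.comp (hl c)).pow_const _)).mul (hv.comp (hl d))
  have h0 : ∀ p : ℝ × ℝ, R (p.1 + a * p.2) * h (p.1 + b * p.2) * u (p.1 + c * p.2) * v (p.1 + d * p.2) =
      (A * Bf) p := by
    intro p
    have e : u (p.1 + c * p.2) = u (p.1 + c * p.2) ^ (q' / 2) * u (p.1 + c * p.2) ^ (1 - q' / 2) := by
      rw [← ENNReal.rpow_add_of_nonneg _ _ (by positivity) (by linarith)]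
      have : q' / 2 + (1 - q' / 2) = 1 := by ring
      rw [this, ENNReal.rpow_one]
    simp only [hA, hBf, Pi.mul_apply]
    conv_lhs => rw [e]
    ring
  simp only [h0]
  refine (ENNReal.lintegral_mul_le_Lp_mul_Lq volume (Real.HolderConjugate.two_two) hAm.aemeasurable
    hBm.aemeasurable).trans ?_
  have hA2 : ∫⁻ p, A p ^ (2 : ℝ) ≤ (∫⁻ y, R y ^ (2 : ℝ)) * ∫⁻ y, u y ^ q' := by
    refine le_trans (le_of_eq ?_) (s4b_pair_lintegral_le a c hac _ _ (hR.pow_const 2) (hu.pow_const q'))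
    refine lintegral_congr fun p => ?_
    simp only [hA]
    rw [ENNReal.mul_rpow_of_nonneg _ _ (by norm_num), ← ENNReal.rpow_mul]
    congr 2
    ring
  have hr : (q / 2).HolderConjugate (q / (q - 2)) := by
    rw [Real.holderConjugate_iff]
    refine ⟨by linarith, ?_⟩
    field_simp
    ring
  have hB2 : ∫⁻ p, Bf p ^ (2 : ℝ) ≤
      (∫⁻ y, v y ^ (2 : ℝ)) * ((∫⁻ y, h y ^ q) ^ (1 / (q / 2)) * (∫⁻ y, u y ^ q') ^ (1 / (q / (q - 2)))) := by
    have := s4b_triple_le b c d _ _ hr hbd hcd (fun y => h y ^ (2 : ℝ)) (fun y => u y ^ (2 - q'))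
      (fun y => v y ^ (2 : ℝ)) (hh.pow_const _) (hu.pow_const _) (hv.pow_const _)
    have e1 : ∀ y, (h y ^ (2 : ℝ)) ^ (q / 2) = h y ^ q := by
      intro y
      rw [← ENNReal.rpow_mul]
      congr 1
      ring
    have e2 : ∀ y, (u y ^ (2 - q')) ^ (q / (q - 2)) = u y ^ q' := by
      intro y
      rw [← ENNReal.rpow_mul]
      congr 1
      rw [hq']
      field_simp
      ring
    simp only [e1, e2] at this
    refine le_trans (le_of_eq ?_) this
    refine lintegral_congr fun p => ?_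
    simp only [hBf]
    rw [ENNReal.mul_rpow_of_nonneg _ _ (by norm_num), ENNReal.mul_rpow_of_nonneg _ _ (by norm_num),
      ← ENNReal.rpow_mul]
    congr 3
    ring
  calc (∫⁻ p, A p ^ (2 : ℝ)) ^ (1 / 2 : ℝ) * (∫⁻ p, Bf p ^ (2 : ℝ)) ^ (1 / 2 : ℝ)
      ≤ ((∫⁻ y, R y ^ (2 : ℝ)) * ∫⁻ y, u y ^ q') ^ (1 / 2 : ℝ) *
        ((∫⁻ y, v y ^ (2 : ℝ)) * ((∫⁻ y, h y ^ q) ^ (1 / (q / 2)) * (∫⁻ y, u y ^ q') ^ (1 / (q / (q - 2))))) ^
          (1 / 2 : ℝ) :=
        mul_le_mul' (ENNReal.rpow_le_rpow hA2 (by norm_num)) (ENNReal.rpow_le_rpow hB2 (by norm_num))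
    _ = _ := by
        rw [ENNReal.mul_rpow_of_nonneg _ _ (by norm_num), ENNReal.mul_rpow_of_nonneg _ _ (by norm_num),
          ENNReal.mul_rpow_of_nonneg _ _ (by norm_num), ← ENNReal.rpow_mul, ← ENNReal.rpow_mul]
        have e3 : 1 / (q / 2) * (1 / 2) = 1 / q := by field_simp
        have e4 : (1 / q' : ℝ) = 1 / 2 + 1 / (q / (q - 2)) * (1 / 2) := by
          rw [hq']
          field_simp
          ring
        rw [e3, e4, ENNReal.rpow_add_of_nonneg _ _ (by norm_num) (by positivity)]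
        ring

theorem s4b_lintegral_indicator_rpow (I : Cell) (u : ℝ → ℝ≥0∞) {r : ℝ} (hr : 0 < r) :
    ∫⁻ y, (I.set.indicator u y) ^ r = ∫⁻ y in I.set, u y ^ r := by
  rw [← lintegral_indicator (cell_measurableSet I)]
  refine lintegral_congr fun y => ?_
  by_cases hy : y ∈ I.set
  · rw [Set.indicator_of_mem hy, Set.indicator_of_mem hy]
  · rw [Set.indicator_of_notMem hy, Set.indicator_of_notMem hy, ENNReal.zero_rpow_of_pos hr]

theorem s4b_abs2qq2 (c0 C0 : ℝ) (hc0 : 0 < c0) (hC0 : 1 ≤ C0) :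
    ∃ K : ℝ, 1 ≤ K ∧ ∀ (q : ℝ) (I : Cell) (w : ℝ × ℝ → ℂ) (z : Fin 4 → ℝ → ℂ) (σ : Equiv.Perm (Fin 4)),
      2 < q → Admissible c0 C0 I w → (∀ k, Measurable (z k)) → s4b_L2 I (z (σ 0)) → s4b_L2 I (z (σ 3)) →
      MemLp (z (σ 1)) (ENNReal.ofReal q) (volume.restrict I.set) →
      MemLp (z (σ 2)) (ENNReal.ofReal (q / (q - 1))) (volume.restrict I.set) →
      Integrable (s4b_igd w z) ∧
      ‖form I w z‖ ≤ K * nnorm 2 I (z (σ 0)) * nnorm q I (z (σ 1)) * nnorm (q / (q - 1)) I (z (σ 2)) *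
        nnorm 2 I (z (σ 3)) := by
  refine ⟨(C0 * 2) ^ (C0 * 2), s4b_K0_ge hC0, ?_⟩
  intro q I w z σ hq hw hz h0 h3 h1 h2
  have hK0 : 0 ≤ (C0 * 2) ^ (C0 * 2) := zero_le_one.trans (s4b_K0_ge hC0)
  have hq0 : 0 < q := by linarith
  have hq1 : 0 < q - 1 := by linarith
  have hq' : 0 < q / (q - 1) := by positivity
  have n0 := nnorm_nonneg 2 I (z (σ 0))
  have n1 := nnorm_nonneg q I (z (σ 1))
  have n2 := nnorm_nonneg (q / (q - 1)) I (z (σ 2))
  have n3 := nnorm_nonneg 2 I (z (σ 3))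
  refine s4b_of_enn I hw.smooth.continuous hz (by positivity) ?_
  set U : Fin 4 → ℝ → ℝ≥0∞ := fun k => I.set.indicator fun y => ‖z k y‖ₑ with hU
  have hUm : ∀ k, Measurable (U k) := fun k => (hz k).enorm.indicator (cell_measurableSet I)
  have hd : ∀ i j : Fin 4, i ≠ j → 1 ≤ |(((σ j : Fin 4) : ℕ) : ℝ) - (((σ i : Fin 4) : ℕ) : ℝ)| := fun i j hij =>
    s4b_fin_dist _ _ fun h => hij (σ.injective h)
  have hp : ∀ p : ℝ × ℝ, ‖w p‖ₑ * ∏ j : Fin 4, ‖z j (p.1 + (j : ℝ) * p.2)‖ₑ ≤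
      ENNReal.ofReal ((C0 * 2) ^ (C0 * 2)) *
        (U (σ 0) (p.1 + ((σ 0 : Fin 4) : ℝ) * p.2) * U (σ 1) (p.1 + ((σ 1 : Fin 4) : ℝ) * p.2) *
          U (σ 2) (p.1 + ((σ 2 : Fin 4) : ℝ) * p.2) * U (σ 3) (p.1 + ((σ 3 : Fin 4) : ℝ) * p.2)) := by
    intro p
    by_cases hp : w p = 0
    · simp [hp]
    · have hmem := (s2_adm_supp hw hc0 hp).1
      rw [← Equiv.prod_comp σ, Fin.prod_univ_four]
      simp only [hU]
      rw [Set.indicator_of_mem (hmem _), Set.indicator_of_mem (hmem _), Set.indicator_of_mem (hmem _),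
        Set.indicator_of_mem (hmem _)]
      gcongr
      rw [← ofReal_norm]
      exact ENNReal.ofReal_le_ofReal (s2_adm_bound hw p)
  have hY := s4b_young ((σ 0 : Fin 4) : ℝ) ((σ 1 : Fin 4) : ℝ) ((σ 2 : Fin 4) : ℝ) ((σ 3 : Fin 4) : ℝ) q hq
    (hd 0 2 (by decide)) (hd 3 1 (by decide)) (hd 3 2 (by decide)) (U (σ 0)) (U (σ 1)) (U (σ 2)) (U (σ 3))
    (hUm _) (hUm _) (hUm _) (hUm _)
  simp only [hU] at hY
  rw [s4b_lintegral_indicator_rpow I _ (by norm_num : (0 : ℝ) < 2), s4b_lintegral_indicator_rpow I _ hq0,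
    s4b_lintegral_indicator_rpow I _ hq', s4b_lintegral_indicator_rpow I _ (by norm_num : (0 : ℝ) < 2)] at hY
  set c : ℝ≥0∞ := (ENNReal.ofReal I.len)⁻¹ with hc
  have hc2 : c ^ (1 / 2 : ℝ) * c ^ (1 / 2 : ℝ) = c := by
    rw [← ENNReal.rpow_add_of_nonneg _ _ (by norm_num) (by norm_num)]
    norm_num
  have hcq : c ^ (1 / q) * c ^ (1 / (q / (q - 1))) = c := by
    rw [← ENNReal.rpow_add_of_nonneg _ _ (by positivity) (by positivity)]
    have : 1 / q + 1 / (q / (q - 1)) = 1 := by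
      field_simp
      ring
    rw [this, ENNReal.rpow_one]
  have hcc : c * c = c ^ (1 / 2 : ℝ) * c ^ (1 / q) * c ^ (1 / (q / (q - 1))) * c ^ (1 / 2 : ℝ) := by
    calc c * c = (c ^ (1 / 2 : ℝ) * c ^ (1 / 2 : ℝ)) * (c ^ (1 / q) * c ^ (1 / (q / (q - 1)))) := by
          rw [hc2, hcq]
      _ = _ := by ring
  calc (ENNReal.ofReal (I.len ^ 2))⁻¹ * ∫⁻ p : ℝ × ℝ, ‖w p‖ₑ * ∏ j : Fin 4, ‖z j (p.1 + (j : ℝ) * p.2)‖ₑ
      ≤ (ENNReal.ofReal (I.len ^ 2))⁻¹ * ∫⁻ p : ℝ × ℝ, ENNReal.ofReal ((C0 * 2) ^ (C0 * 2)) *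
        (U (σ 0) (p.1 + ((σ 0 : Fin 4) : ℝ) * p.2) * U (σ 1) (p.1 + ((σ 1 : Fin 4) : ℝ) * p.2) *
          U (σ 2) (p.1 + ((σ 2 : Fin 4) : ℝ) * p.2) * U (σ 3) (p.1 + ((σ 3 : Fin 4) : ℝ) * p.2)) :=
        mul_le_mul_right (lintegral_mono hp) _
    _ ≤ (c * c) * (ENNReal.ofReal ((C0 * 2) ^ (C0 * 2)) *
        ((∫⁻ y in I.set, ‖z (σ 0) y‖ₑ ^ (2 : ℝ)) ^ (1 / 2 : ℝ) * (∫⁻ y in I.set, ‖z (σ 1) y‖ₑ ^ q) ^ (1 / q) *
        (∫⁻ y in I.set, ‖z (σ 2) y‖ₑ ^ (q / (q - 1))) ^ (1 / (q / (q - 1))) *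
        (∫⁻ y in I.set, ‖z (σ 3) y‖ₑ ^ (2 : ℝ)) ^ (1 / 2 : ℝ))) := by
        rw [lintegral_const_mul' _ _ ENNReal.ofReal_ne_top, s4b_len_sq_inv]
        exact mul_le_mul_right (mul_le_mul_right hY _) _
    _ = ENNReal.ofReal ((C0 * 2) ^ (C0 * 2) * nnorm 2 I (z (σ 0)) * nnorm q I (z (σ 1)) *
        nnorm (q / (q - 1)) I (z (σ 2)) * nnorm 2 I (z (σ 3))) := by
        rw [ENNReal.ofReal_mul (by positivity), ENNReal.ofReal_mul (by positivity),
          ENNReal.ofReal_mul (by positivity), ENNReal.ofReal_mul hK0,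
          ofReal_nnorm_eq (by norm_num) I _ (s4b_L2_sq h0), ofReal_nnorm_eq (by norm_num) I _ (s4b_L2_sq h3),
          ofReal_nnorm_eq hq0 I _ (s4b_memLp_rpow hq0 h1), ofReal_nnorm_eq hq' I _ (s4b_memLp_rpow hq' h2),
          ENNReal.mul_rpow_of_nonneg _ _ (by norm_num), ENNReal.mul_rpow_of_nonneg _ _ (by positivity),
          ENNReal.mul_rpow_of_nonneg _ _ (by positivity), ENNReal.mul_rpow_of_nonneg _ _ (by norm_num)]
        rw [← hc, hcc]
        ring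

end Claimed.Agent.R258
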