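/-
Row 258, block [S4b].  FILE HB (helper239): the Hahn-Banach decomposition `s4b_hb` (leaf P-S4B-HB of `S4b/Dec.lean`; plan of helper99 in the header of that file).

`E = Lp ℂ 2 (volume.restrict I.set)`, `s4b_cls I z` = the class of `z` (zero if `z` is not square integrable).
`s4b_sep`: Hahn-Banach + Riesz, normalised;  `s4b_bdd_of_dual`: a functional bounded on the `L¹` ball is given by a bounded function
(`ae_le_of_forall_setIntegral_le`);  `s4b_hbS1/2/3`: the three convex sets.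
-/
import Claimed.Agent.R258.S4b.Abs

set_option autoImplicit false
open MeasureTheory Filter Topology
open scoped ENNReal ContDiff ComplexConjugate InnerProductSpace Pointwise

namespace Claimed.Agent.R258

/-- the class in `L²(I)` of a function (zero if the function is not square integrable) -/
noncomputable def s4b_cls (I : Cell) (z : ℝ → ℂ) : Lp ℂ 2 (volume.restrict I.set) := by
  classical exact if h : s4b_L2 I z then MemLp.toLp z h else 0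

theorem s4b_cls_eqns_cite : True := by
  have := @s4b_cls.eq_1
  trivial

theorem s4b_cls_ae {I : Cell} {z : ℝ → ℂ} (hz : s4b_L2 I z) : s4b_cls I z =ᵐ[volume.restrict I.set] z := by
  unfold s4b_cls
  rw [dif_pos hz]
  exact MemLp.coeFn_toLp hz

theorem s4b_coe_L2 {I : Cell} (x : Lp ℂ 2 (volume.restrict I.set)) : s4b_L2 I x := Lp.memLp x

theorem s4b_coe_measurable {I : Cell} (x : Lp ℂ 2 (volume.restrict I.set)) : Measurable (x : ℝ → ℂ) :=
  (Lp.stronglyMeasurable x).measurable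

theorem s4b_cls_eq_iff {I : Cell} {z : ℝ → ℂ} (hz : s4b_L2 I z) (x : Lp ℂ 2 (volume.restrict I.set)) :
    s4b_cls I z = x ↔ z =ᵐ[volume.restrict I.set] x := by
  constructor
  · rintro rfl
    exact (s4b_cls_ae hz).symm
  · intro h
    exact Lp.ext ((s4b_cls_ae hz).trans h)

theorem s4b_cls_coe {I : Cell} (x : Lp ℂ 2 (volume.restrict I.set)) : s4b_cls I x = x :=
  (s4b_cls_eq_iff (s4b_coe_L2 x) x).2 (EventuallyEq.refl _ _)

theorem s4b_L2_lin {I : Cell} {z z' : ℝ → ℂ} (hz : s4b_L2 I z) (hz' : s4b_L2 I z') (α β : ℂ) :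
    s4b_L2 I (fun y => α * z y + β * z' y) := (hz.const_mul α).add (hz'.const_mul β)

theorem s4b_cls_lin {I : Cell} {z z' : ℝ → ℂ} (hz : s4b_L2 I z) (hz' : s4b_L2 I z') (α β : ℂ) :
    s4b_cls I (fun y => α * z y + β * z' y) = α • s4b_cls I z + β • s4b_cls I z' := by
  rw [s4b_cls_eq_iff (s4b_L2_lin hz hz' α β)]
  filter_upwards [s4b_cls_ae hz, s4b_cls_ae hz', Lp.coeFn_add (α • s4b_cls I z) (β • s4b_cls I z'),
    Lp.coeFn_smul α (s4b_cls I z), Lp.coeFn_smul β (s4b_cls I z')] with y h1 h2 h3 h4 h5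
  rw [h3, Pi.add_apply, h4, h5, Pi.smul_apply, Pi.smul_apply, h1, h2, smul_eq_mul, smul_eq_mul]

theorem s4b_cls_zero (I : Cell) : s4b_cls I (fun _ => (0 : ℂ)) = 0 := by
  rw [s4b_cls_eq_iff MemLp.zero']
  exact (Lp.coeFn_zero _ _ _).symm

theorem s4b_cls_sum {I : Cell} {ι : Type} (s : Finset ι) (c : ι → ℂ) (φ : ι → ℝ → ℂ) (hφ : ∀ ν, s4b_L2 I (φ ν)) :
    s4b_L2 I (fun y => ∑ ν ∈ s, c ν * φ ν y) ∧
      s4b_cls I (fun y => ∑ ν ∈ s, c ν * φ ν y) = ∑ ν ∈ s, c ν • s4b_cls I (φ ν) := by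
  classical
  induction s using Finset.induction_on with
  | empty =>
    simp only [Finset.sum_empty]
    exact ⟨MemLp.zero', s4b_cls_zero I⟩
  | insert a s ha ih =>
    simp only [Finset.sum_insert ha]
    have e : (fun y => c a * φ a y + ∑ ν ∈ s, c ν * φ ν y)
        = fun y => c a * φ a y + 1 * (fun y => ∑ ν ∈ s, c ν * φ ν y) y := by
      funext y
      rw [one_mul]
    rw [e]
    refine ⟨s4b_L2_lin (hφ a) ih.1 _ _, ?_⟩
    rw [s4b_cls_lin (hφ a) ih.1, ih.2, one_smul]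

/-- the moment is an inner product -/
theorem s4b_mom_eq_inner {I : Cell} {z h : ℝ → ℂ} (hz : s4b_L2 I z) (x : Lp ℂ 2 (volume.restrict I.set))
    (hh : h =ᵐ[volume.restrict I.set] x) :
    s4b_mom I z h = ((I.len⁻¹ : ℝ) : ℂ) * ⟪x, s4b_cls I z⟫_ℂ := by
  delta s4b_mom
  rw [L2.inner_def]
  congr 1
  refine integral_congr_ae ?_
  filter_upwards [s4b_cls_ae hz, hh] with y h1 h2
  rw [RCLike.inner_apply, h1, h2]

theorem s4b_sep (I : Cell) (S : Set (Lp ℂ 2 (volume.restrict I.set))) (hS : Convex ℝ S)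
    (h0 : (0 : Lp ℂ 2 (volume.restrict I.set)) ∈ S) (x : Lp ℂ 2 (volume.restrict I.set)) (hx : x ∉ closure S) :
    ∃ h : Lp ℂ 2 (volume.restrict I.set), (∀ a ∈ S, (((I.len⁻¹ : ℝ) : ℂ) * ⟪h, a⟫_ℂ).re ≤ 1) ∧
      1 < (((I.len⁻¹ : ℝ) : ℂ) * ⟪h, x⟫_ℂ).re := by
  obtain ⟨F, u, hF1, hF2⟩ := RCLike.geometric_hahn_banach_closed_point (𝕜 := ℂ) hS.closure isClosed_closure hx
  have hu : 0 < u := by
    have := hF1 0 (subset_closure h0)
    simpa using this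
  have hlen := cell_len_pos I
  have e : ∀ a, (((I.len⁻¹ : ℝ) : ℂ) * ⟪((I.len / u : ℝ) : ℂ) • (InnerProductSpace.toDual ℂ _).symm F, a⟫_ℂ).re
      = (F a).re / u := by
    intro a
    rw [inner_smul_left, InnerProductSpace.toDual_symm_apply, Complex.conj_ofReal, ← mul_assoc,
      ← Complex.ofReal_mul, Complex.re_ofReal_mul]
    field_simp
  refine ⟨((I.len / u : ℝ) : ℂ) • (InnerProductSpace.toDual ℂ _).symm F, ?_, ?_⟩
  · intro a ha
    rw [e, div_le_one hu]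
    exact (hF1 a (subset_closure ha)).le
  · rw [e, one_lt_div hu]
    exact hF2

theorem s4b_norm_le_of_re (M : ℝ) (hM : 0 < M) (w : ℂ) (h : ∀ c : ℂ, ‖c‖ ≤ M → (c * w).re ≤ 1) : ‖w‖ ≤ M⁻¹ := by
  by_cases hw : w = 0
  · rw [hw, norm_zero]
    positivity
  have hn : 0 < ‖w‖ := norm_pos_iff.2 hw
  have h1 := h ((M / ‖w‖ : ℝ) * conj w) (by
    rw [norm_mul, Complex.norm_real, RCLike.norm_conj, Real.norm_of_nonneg (by positivity)]
    exact le_of_eq (by field_simp))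
  rw [mul_assoc, Complex.conj_mul', ← Complex.ofReal_pow, ← Complex.ofReal_mul, Complex.ofReal_re] at h1
  rw [le_inv_comm₀ hn hM, ← one_div, le_div_iff₀ hn]
  calc M * ‖w‖ = M / ‖w‖ * ‖w‖ ^ 2 := by field_simp
    _ ≤ 1 := h1

theorem s4b_mom_conj (I : Cell) (h φ : ℝ → ℂ) : s4b_mom I h φ = conj (s4b_mom I φ h) := by
  delta s4b_mom
  rw [map_mul, Complex.conj_ofReal, ← integral_conj]
  congr 2
  funext y
  rw [map_mul, Complex.conj_conj, mul_comm]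

theorem s4b_nnorm_one (I : Cell) (f : ℝ → ℂ) : nnorm 1 I f = I.len⁻¹ * ∫ y in I.set, ‖f y‖ := by
  unfold nnorm
  simp only [Real.rpow_one, div_one]

theorem s4b_nnorm_cls {I : Cell} {z : ℝ → ℂ} (hz : s4b_L2 I z) (p : ℝ) : nnorm p I (s4b_cls I z) = nnorm p I z :=
  nnorm_congr_ae ((ae_restrict_iff' (cell_measurableSet I)).1 (s4b_cls_ae hz))

theorem s4b_bdd_of_dual (I : Cell) (σ : ℝ) (hσ : 0 < σ) (h : Lp ℂ 2 (volume.restrict I.set))
    (H : ∀ V : Lp ℂ 2 (volume.restrict I.set), nnorm 1 I V ≤ σ → (((I.len⁻¹ : ℝ) : ℂ) * ⟪h, V⟫_ℂ).re ≤ 1) :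
    ∀ᵐ y ∂(volume.restrict I.set), ‖h y‖ ≤ σ⁻¹ := by
  have := s4b_cell_finite I
  have hlen := cell_len_pos I
  have hint : Integrable (fun y => ‖h y‖) (volume.restrict I.set) :=
    ((Lp.memLp h).integrable one_le_two).norm
  refine ae_le_of_forall_setIntegral_le hint (integrable_const σ⁻¹) fun s hs _ => ?_
  rw [setIntegral_const, smul_eq_mul]
  by_cases h0 : (volume.restrict I.set) s = 0
  · rw [Measure.real, h0, Measure.restrict_eq_zero.2 h0]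
    simp
  have hpos : 0 < (volume.restrict I.set).real s := ENNReal.toReal_pos h0 (measure_ne_top _ _)
  set m : ℝ := (volume.restrict I.set).real s with hm
  set t : ℝ := σ * I.len / m with ht
  have ht0 : 0 < t := by positivity
  have hWm : Measurable (s.indicator fun y => (t : ℂ) * (h y / ‖h y‖)) := by
    have h1 := s4b_coe_measurable h
    refine Measurable.indicator ?_ hs
    fun_prop
  have hWb : ∀ y, ‖s.indicator (fun y => (t : ℂ) * (h y / ‖h y‖)) y‖ ≤ s.indicator (fun _ => t) y := by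
    intro y
    by_cases hy : y ∈ s
    · rw [Set.indicator_of_mem hy, Set.indicator_of_mem hy, norm_mul, Complex.norm_real, Real.norm_of_nonneg ht0.le,
        norm_div, Complex.norm_real, norm_norm]
      exact mul_le_of_le_one_right ht0.le (div_self_le_one _)
    · rw [Set.indicator_of_notMem hy, Set.indicator_of_notMem hy, norm_zero]
  have hW2 : s4b_L2 I (s.indicator fun y => (t : ℂ) * (h y / ‖h y‖)) :=
    MemLp.of_bound hWm.aestronglyMeasurable t (Eventually.of_forall fun y => (hWb y).trans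
      (Set.indicator_le_self' (fun _ _ => ht0.le) y))
  have hn1 : nnorm 1 I (s4b_cls I (s.indicator fun y => (t : ℂ) * (h y / ‖h y‖))) ≤ σ := by
    rw [s4b_nnorm_cls hW2, s4b_nnorm_one]
    have h1 : ∫ y in I.set, ‖s.indicator (fun y => (t : ℂ) * (h y / ‖h y‖)) y‖ ≤ ∫ y in I.set, s.indicator (fun _ => t) y :=
      integral_mono (hW2.integrable one_le_two).norm ((integrable_const t).indicator hs) hWb
    rw [integral_indicator_const t hs, smul_eq_mul, ← hm] at h1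
    calc I.len⁻¹ * ∫ y in I.set, ‖s.indicator (fun y => (t : ℂ) * (h y / ‖h y‖)) y‖ ≤ I.len⁻¹ * (m * t) := by gcongr
      _ = σ := by rw [ht]; field_simp
  have h2 := H _ hn1
  rw [← s4b_mom_eq_inner hW2 h (EventuallyEq.refl _ _)] at h2
  have e : ∀ y, s.indicator (fun y => (t : ℂ) * (h y / ‖h y‖)) y * conj (h y)
      = ((s.indicator (fun y => t * ‖h y‖) y : ℝ) : ℂ) := by
    intro y
    by_cases hy : y ∈ s
    · rw [Set.indicator_of_mem hy, Set.indicator_of_mem hy]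
      by_cases hz : h y = 0
      · simp [hz]
      · have hn : (‖h y‖ : ℂ) ≠ 0 := by exact_mod_cast (norm_pos_iff.2 hz).ne'
        rw [mul_assoc, div_mul_eq_mul_div, Complex.mul_conj']
        push_cast
        field_simp
    · rw [Set.indicator_of_notMem hy, Set.indicator_of_notMem hy, zero_mul, Complex.ofReal_zero]
  delta s4b_mom at h2
  simp only [e] at h2
  rw [integral_complex_ofReal, ← Complex.ofReal_mul, Complex.ofReal_re, integral_indicator hs, integral_const_mul] at h2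
  have h3 : I.len⁻¹ * (t * ∫ y in s, ‖h y‖ ∂(volume.restrict I.set)) = (σ / m) * ∫ y in s, ‖h y‖ ∂(volume.restrict I.set) := by
    rw [ht]
    field_simp
  rw [h3] at h2
  calc ∫ y in s, ‖h y‖ ∂(volume.restrict I.set) = (m / σ) * ((σ / m) * ∫ y in s, ‖h y‖ ∂(volume.restrict I.set)) := by
        field_simp
    _ ≤ (m / σ) * 1 := by gcongr
    _ = m * σ⁻¹ := by rw [mul_one, div_eq_mul_inv]

theorem s4b_nnorm_two_coe (I : Cell) (e : Lp ℂ 2 (volume.restrict I.set)) :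
    nnorm 2 I e ^ 2 = I.len⁻¹ * ‖e‖ ^ 2 := by
  have h1 : nnorm 2 I e ^ (2 : ℝ) = I.len⁻¹ * ∫ y in I.set, ‖e y‖ ^ (2 : ℝ) := nnorm_rpow (by norm_num) I _
  have h2 : ((‖e‖ ^ 2 : ℝ) : ℂ) = ((∫ y in I.set, ‖e y‖ ^ (2 : ℝ) : ℝ) : ℂ) := by
    rw [← integral_complex_ofReal]
    have h3 := inner_self_eq_norm_sq_to_K (𝕜 := ℂ) e
    rw [L2.inner_def] at h3
    push_cast
    rw [← Complex.coe_algebraMap, ← h3]
    refine integral_congr_ae (Eventually.of_forall fun y => ?_)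
    simp only
    rw [inner_self_eq_norm_sq_to_K, Complex.coe_algebraMap]
    norm_cast
  have h4 : ‖e‖ ^ 2 = ∫ y in I.set, ‖e y‖ ^ (2 : ℝ) := by exact_mod_cast h2
  rw [h4, ← h1]
  norm_cast

theorem s4b_nnorm_two_coe_le (I : Cell) (e : Lp ℂ 2 (volume.restrict I.set)) (ε : ℝ) (hε : 0 ≤ ε)
    (h : ‖e‖ ≤ ε * Real.sqrt I.len) : nnorm 2 I e ≤ ε := by
  have hlen := cell_len_pos I
  refine abs_le_of_sq_le_sq' ?_ hε |>.2
  rw [s4b_nnorm_two_coe]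
  have h1 : ‖e‖ ^ 2 ≤ (ε * Real.sqrt I.len) ^ 2 := by gcongr
  rw [mul_pow, Real.sq_sqrt hlen.le] at h1
  calc I.len⁻¹ * ‖e‖ ^ 2 ≤ I.len⁻¹ * (ε ^ 2 * I.len) := by gcongr
    _ = ε ^ 2 := by field_simp

/-- the atomic part -/
def s4b_hbS1 (I : Cell) (𝒜 : Set (ℝ → ℂ)) (M : ℝ) : Set (Lp ℂ 2 (volume.restrict I.set)) :=
  {x | ∃ (ι : Type) (_ : Fintype ι) (c : ι → ℂ) (φ : ι → ℝ → ℂ), (∀ ν, φ ν ∈ 𝒜) ∧ ∑ ν, ‖c ν‖ ≤ M ∧
    x = ∑ ν, c ν • s4b_cls I (φ ν)}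

/-- the uniform part -/
def s4b_hbS2 (I : Cell) (𝒰 : Set (ℝ → ℂ)) : Set (Lp ℂ 2 (volume.restrict I.set)) :=
  {x | ∃ u ∈ 𝒰, x = s4b_cls I u}

/-- the small part -/
def s4b_hbS3 (I : Cell) (σ : ℝ) : Set (Lp ℂ 2 (volume.restrict I.set)) :=
  {V | nnorm 1 I V ≤ σ}

theorem s4b_hbS_eqns_cite : True := by
  have := @s4b_hbS1.eq_1
  have := @s4b_hbS2.eq_1
  have := @s4b_hbS3.eq_1
  trivial

theorem s4b_real_smul {I : Cell} (a : ℝ) (x : Lp ℂ 2 (volume.restrict I.set)) : a • x = (a : ℂ) • x := by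
  refine Lp.ext ?_
  filter_upwards [Lp.coeFn_smul a x, Lp.coeFn_smul (a : ℂ) x] with y h1 h2
  rw [h1, h2, Pi.smul_apply, Pi.smul_apply, Complex.real_smul, smul_eq_mul]

theorem s4b_hbS1_convex (I : Cell) (𝒜 : Set (ℝ → ℂ)) (M : ℝ) : Convex ℝ (s4b_hbS1 I 𝒜 M) := by
  rintro x ⟨ι, _, c, φ, hφ, hc, rfl⟩ x' ⟨ι', _, c', φ', hφ', hc', rfl⟩ a b ha hb hab
  refine ⟨ι ⊕ ι', inferInstance, Sum.elim (fun ν => (a : ℂ) * c ν) (fun ν => (b : ℂ) * c' ν), Sum.elim φ φ',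
    ?_, ?_, ?_⟩
  · rintro (ν | ν)
    · exact hφ ν
    · exact hφ' ν
  · rw [Fintype.sum_sum_type]
    simp only [Sum.elim_inl, Sum.elim_inr, norm_mul, Complex.norm_real, Real.norm_of_nonneg ha,
      Real.norm_of_nonneg hb]
    rw [← Finset.mul_sum, ← Finset.mul_sum]
    calc a * ∑ ν, ‖c ν‖ + b * ∑ ν, ‖c' ν‖ ≤ a * M + b * M := by gcongr
      _ = M := by rw [← add_mul, hab, one_mul]
  · rw [Fintype.sum_sum_type]
    simp only [Sum.elim_inl, Sum.elim_inr, Finset.smul_sum, mul_smul, s4b_real_smul]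

theorem s4b_hbS1_zero (I : Cell) (𝒜 : Set (ℝ → ℂ)) (M : ℝ) (hM : 0 ≤ M) : (0 : Lp ℂ 2 (volume.restrict I.set)) ∈ s4b_hbS1 I 𝒜 M :=
  ⟨Empty, inferInstance, fun _ => 0, fun _ _ => 0, fun ν => ν.elim, by simpa using hM, by simp⟩

theorem s4b_hbS1_single (I : Cell) (𝒜 : Set (ℝ → ℂ)) (M : ℝ) (φ : ℝ → ℂ) (hφ : φ ∈ 𝒜) (c : ℂ) (hc : ‖c‖ ≤ M) :
    c • s4b_cls I φ ∈ s4b_hbS1 I 𝒜 M :=
  ⟨Unit, inferInstance, fun _ => c, fun _ => φ, fun _ => hφ, by simpa using hc, by simp⟩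

theorem s4b_hbS2_convex (I : Cell) (𝒰 : Set (ℝ → ℂ)) (hU : ∀ u ∈ 𝒰, Measurable u ∧ s4b_L2 I u)
    (hUc : ∀ u ∈ 𝒰, ∀ u' ∈ 𝒰, ∀ a b : ℝ, 0 ≤ a → 0 ≤ b → a + b = 1 → (fun y => (a : ℂ) * u y + (b : ℂ) * u' y) ∈ 𝒰) :
    Convex ℝ (s4b_hbS2 I 𝒰) := by
  rintro x ⟨u, hu, rfl⟩ x' ⟨u', hu', rfl⟩ a b ha hb hab
  refine ⟨_, hUc u hu u' hu' a b ha hb hab, ?_⟩
  rw [s4b_cls_lin (hU u hu).2 (hU u' hu').2, s4b_real_smul, s4b_real_smul]

theorem s4b_coe_int1 {I : Cell} (V : Lp ℂ 2 (volume.restrict I.set)) :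
    IntegrableOn (fun y => ‖V y‖ ^ (1 : ℝ)) I.set := by
  have := s4b_cell_finite I
  simp only [Real.rpow_one]
  exact ((Lp.memLp V).integrable one_le_two).norm

theorem s4b_nnorm_one_add_le (I : Cell) (V V' : Lp ℂ 2 (volume.restrict I.set)) :
    nnorm 1 I (V + V' : Lp ℂ 2 (volume.restrict I.set)) ≤ nnorm 1 I V + nnorm 1 I V' := by
  have e : nnorm 1 I (V + V' : Lp ℂ 2 (volume.restrict I.set)) = nnorm 1 I (fun y => V y + V' y) :=
    nnorm_congr_ae ((ae_restrict_iff' (cell_measurableSet I)).1 (Lp.coeFn_add V V'))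
  rw [e]
  exact nnorm_add_le le_rfl I (Lp.aestronglyMeasurable V) (Lp.aestronglyMeasurable V') (s4b_coe_int1 V)
    (s4b_coe_int1 V')

theorem s4b_nnorm_one_smul (I : Cell) (a : ℝ) (V : Lp ℂ 2 (volume.restrict I.set)) :
    nnorm 1 I (a • V : Lp ℂ 2 (volume.restrict I.set)) = |a| * nnorm 1 I V := by
  have e : nnorm 1 I (a • V : Lp ℂ 2 (volume.restrict I.set)) = nnorm 1 I (fun y => a • V y) :=
    nnorm_congr_ae ((ae_restrict_iff' (cell_measurableSet I)).1 (Lp.coeFn_smul a V))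
  rw [e, nnorm_const_smul one_pos, Real.norm_eq_abs]

theorem s4b_hbS3_convex (I : Cell) (σ : ℝ) : Convex ℝ (s4b_hbS3 I σ) := by
  intro V hV V' hV' a b ha hb hab
  have hV1 : nnorm 1 I V ≤ σ := hV
  have hV1' : nnorm 1 I V' ≤ σ := hV'
  show nnorm 1 I (a • V + b • V' : Lp ℂ 2 (volume.restrict I.set)) ≤ σ
  calc nnorm 1 I (a • V + b • V' : Lp ℂ 2 (volume.restrict I.set))
      ≤ nnorm 1 I (a • V : Lp ℂ 2 (volume.restrict I.set)) + nnorm 1 I (b • V' : Lp ℂ 2 (volume.restrict I.set)) :=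
        s4b_nnorm_one_add_le I _ _
    _ = a * nnorm 1 I V + b * nnorm 1 I V' := by
        rw [s4b_nnorm_one_smul, s4b_nnorm_one_smul, abs_of_nonneg ha, abs_of_nonneg hb]
    _ ≤ a * σ + b * σ := by gcongr
    _ = σ := by rw [← add_mul, hab, one_mul]

theorem s4b_hbS3_zero (I : Cell) (σ : ℝ) (hσ : 0 ≤ σ) : (0 : Lp ℂ 2 (volume.restrict I.set)) ∈ s4b_hbS3 I σ := by
  show nnorm 1 I (0 : Lp ℂ 2 (volume.restrict I.set)) ≤ σ
  have e : nnorm 1 I (0 : Lp ℂ 2 (volume.restrict I.set)) = nnorm 1 I (fun _ => (0 : ℂ)) :=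
    nnorm_congr_ae ((ae_restrict_iff' (cell_measurableSet I)).1 (Lp.coeFn_zero _ _ _))
  rw [e, nnorm_zero one_pos]
  exact hσ

/-- **Hahn-Banach decomposition**, in terms of functions. -/
theorem s4b_hb (I : Cell) (𝒜 𝒰 : Set (ℝ → ℂ)) (M σ ε : ℝ) (f : ℝ → ℂ) (hM : 0 < M) (hσ : 0 < σ) (hε : 0 < ε)
    (hA : ∀ φ ∈ 𝒜, Measurable φ ∧ s4b_L2 I φ) (hU : ∀ u ∈ 𝒰, Measurable u ∧ s4b_L2 I u)
    (hU0 : (fun _ => (0 : ℂ)) ∈ 𝒰)
    (hUc : ∀ u ∈ 𝒰, ∀ u' ∈ 𝒰, ∀ a b : ℝ, 0 ≤ a → 0 ≤ b → a + b = 1 → (fun y => (a : ℂ) * u y + (b : ℂ) * u' y) ∈ 𝒰)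
    (hf : Measurable f) (hf2 : s4b_L2 I f)
    (key : ∀ h : ℝ → ℂ, Measurable h → SupLe I h σ⁻¹ → (∀ φ ∈ 𝒜, ‖s4b_mom I h φ‖ ≤ M⁻¹) →
      (∀ u ∈ 𝒰, (s4b_mom I u h).re ≤ 1) → (s4b_mom I f h).re ≤ 1) :
    ∃ (ι : Type) (_ : Fintype ι) (c : ι → ℂ) (φ : ι → ℝ → ℂ) (u v : ℝ → ℂ), (∀ ν, φ ν ∈ 𝒜) ∧ ∑ ν, ‖c ν‖ ≤ M ∧ u ∈ 𝒰 ∧
      Measurable v ∧ s4b_L2 I v ∧ nnorm 1 I v ≤ σ + ε ∧ ∀ y ∈ I.set, f y = ∑ ν, c ν * φ ν y + u y + v y := by
  have hlen := cell_len_pos I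
  set S : Set (Lp ℂ 2 (volume.restrict I.set)) := s4b_hbS1 I 𝒜 M + s4b_hbS2 I 𝒰 + s4b_hbS3 I σ with hS
  have hSc : Convex ℝ S :=
    ((s4b_hbS1_convex I 𝒜 M).add (s4b_hbS2_convex I 𝒰 hU hUc)).add (s4b_hbS3_convex I σ)
  have z1 := s4b_hbS1_zero I 𝒜 M hM.le
  have z2 : (0 : Lp ℂ 2 (volume.restrict I.set)) ∈ s4b_hbS2 I 𝒰 := ⟨_, hU0, (s4b_cls_zero I).symm⟩
  have z3 := s4b_hbS3_zero I σ hσ.le
  have i1 : ∀ x ∈ s4b_hbS1 I 𝒜 M, x ∈ S := fun x hx => by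
    have := Set.add_mem_add (Set.add_mem_add hx z2) z3
    simpa only [add_zero] using this
  have i2 : ∀ x ∈ s4b_hbS2 I 𝒰, x ∈ S := fun x hx => by
    have := Set.add_mem_add (Set.add_mem_add z1 hx) z3
    simpa only [add_zero, zero_add] using this
  have i3 : ∀ x ∈ s4b_hbS3 I σ, x ∈ S := fun x hx => by
    have := Set.add_mem_add (Set.add_mem_add z1 z2) hx
    simpa only [add_zero, zero_add] using this
  have hcl : s4b_cls I f ∈ closure S := by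
    by_contra hx
    obtain ⟨h₁, hle, hgt⟩ := s4b_sep I S hSc (i1 0 z1) _ hx
    have hb := s4b_bdd_of_dual I σ hσ h₁ (fun V hV => hle V (i3 V hV))
    have hhm : Measurable (fun y => if ‖h₁ y‖ ≤ σ⁻¹ then h₁ y else 0) :=
      Measurable.ite (measurableSet_le (s4b_coe_measurable h₁).norm measurable_const) (s4b_coe_measurable h₁)
        measurable_const
    have hae : (fun y => if ‖h₁ y‖ ≤ σ⁻¹ then h₁ y else 0) =ᵐ[volume.restrict I.set] h₁ := by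
      filter_upwards [hb] with y hy
      rw [if_pos hy]
    have hsup : SupLe I (fun y => if ‖h₁ y‖ ≤ σ⁻¹ then h₁ y else 0) σ⁻¹ := by
      intro y _
      by_cases hy : ‖h₁ y‖ ≤ σ⁻¹
      · simp only [if_pos hy]
        exact hy
      · simp only [if_neg hy, norm_zero]
        positivity
    have k := key _ hhm hsup ?_ ?_
    · rw [s4b_mom_eq_inner hf2 h₁ hae] at k
      exact absurd k (not_le.2 hgt)
    · intro φ hφ
      rw [s4b_mom_conj, RCLike.norm_conj]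
      refine s4b_norm_le_of_re M hM _ fun c hc => ?_
      have h3 := hle _ (i1 _ (s4b_hbS1_single I 𝒜 M φ hφ c hc))
      rw [inner_smul_right] at h3
      rw [s4b_mom_eq_inner (hA φ hφ).2 h₁ hae]
      rwa [mul_left_comm]
    · intro u hu
      rw [s4b_mom_eq_inner (hU u hu).2 h₁ hae]
      exact hle _ (i2 _ ⟨u, hu, rfl⟩)
  obtain ⟨b, hbS, hdist⟩ := Metric.mem_closure_iff.1 hcl (ε * Real.sqrt I.len) (by positivity)
  obtain ⟨x12, hx12, V, hV, rfl⟩ := Set.mem_add.1 hbS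
  obtain ⟨x1, hx1, x2, hx2, rfl⟩ := Set.mem_add.1 hx12
  obtain ⟨ι, inst, c, φ, hφ, hc, rfl⟩ := hx1
  obtain ⟨u, hu, rfl⟩ := hx2
  have hφ2 : ∀ ν, s4b_L2 I (φ ν) := fun ν => (hA _ (hφ ν)).2
  obtain ⟨hs2, hscls⟩ := s4b_cls_sum Finset.univ c φ hφ2
  have hu2 := (hU u hu).2
  refine ⟨ι, inst, c, φ, u, fun y => f y - ∑ ν, c ν * φ ν y - u y, hφ, hc, hu, ?_, ?_, ?_, ?_⟩
  · exact (hf.sub (Finset.measurable_sum _ fun ν _ => (hA _ (hφ ν)).1.const_mul _)).sub (hU u hu).1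
  · exact (hf2.sub hs2).sub hu2
  · have hv : (fun y => f y - ∑ ν, c ν * φ ν y - u y) =ᵐ[volume.restrict I.set]
        (s4b_cls I f - s4b_cls I (fun y => ∑ ν, c ν * φ ν y) - s4b_cls I u : Lp ℂ 2 (volume.restrict I.set)) := by
      filter_upwards [Lp.coeFn_sub (s4b_cls I f - s4b_cls I (fun y => ∑ ν, c ν * φ ν y)) (s4b_cls I u),
        Lp.coeFn_sub (s4b_cls I f) (s4b_cls I (fun y => ∑ ν, c ν * φ ν y)), s4b_cls_ae hf2, s4b_cls_ae hs2,
        s4b_cls_ae hu2] with y h1 h2 h3 h4 h5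
      rw [h1, Pi.sub_apply, h2, Pi.sub_apply, h3, h4, h5]
    have e1 : s4b_cls I f - s4b_cls I (fun y => ∑ ν, c ν * φ ν y) - s4b_cls I u
        = V + (s4b_cls I f - (∑ ν, c ν • s4b_cls I (φ ν) + s4b_cls I u + V)) := by
      rw [hscls]
      abel
    rw [e1] at hv
    rw [nnorm_congr_ae ((ae_restrict_iff' (cell_measurableSet I)).1 hv)]
    have hV1 : nnorm 1 I V ≤ σ := hV
    have h2 := (s4b_nnorm_one_le_two I _ (s4b_coe_measurable (s4b_cls I f - (∑ ν, c ν • s4b_cls I (φ ν) + s4b_cls I u + V)))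
      (s4b_coe_L2 _)).2
    have h3 := s4b_nnorm_two_coe_le I (s4b_cls I f - (∑ ν, c ν • s4b_cls I (φ ν) + s4b_cls I u + V)) ε hε.le
      (by rw [← dist_eq_norm]; exact hdist.le)
    have h4 := s4b_nnorm_one_add_le I V (s4b_cls I f - (∑ ν, c ν • s4b_cls I (φ ν) + s4b_cls I u + V))
    linarith
  · intro y _
    ring

end Claimed.Agent.R258
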