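/-
Row 258, block [S4b] (architect helper99).  FILE Disc: discretization of the cube integral by CELL AVERAGES (first paragraphs of the proof of
Lemma 4.9, charts.tex l.800-845), for a bounded measurable function on a cell.

NOTATION.  `ε = |I|/L`, `ĝ = 1_I g`, `A_L(j) = s4b_cellAvg I L g j = ε⁻¹ ∫_{[left + jε, left + (j+1)ε)} ĝ`   (all `j ∈ ℤ`; it vanishes unless `0 ≤ j < L`).
MAIN STATEMENT `s4b_disc`:   `ε⁴ · s4b_cubeSum L A_L → s4b_cubeInt ĝ`   as `L → ∞`.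

PROOF (NOT the one of the paper: no approximation by continuous functions, no Riemann sums).
(1) `s4b_step_integral`, `s4b_cubeSum_eq_integral`: `ε⁴ cubeSum L A_L = ∫∫∫∫ F_L`, `F_L(x,h) = cubeProd A_L ⌊(x-left)/ε⌋ ⌊h₁/ε⌋ ⌊h₂/ε⌋ ⌊h₃/ε⌋` (a step function).
(2) `s4b_leb`: Lebesgue differentiation, Mathlib `IsUnifLocDoublingMeasure.ae_tendsto_average` (closed balls `closedBall (w j) (δ j)` with `x ∈ closedBall (w j) (K δ j)`):
    the subinterval number `m` is, up to its endpoints (null sets), the closed ball of centre `left + (m + 1/2) ε` and radius `ε/2`; `K = 12`.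
(3) the vertex `x + ω·h` differs from `left + ε (⌊(x-left)/ε⌋ + ω·⌊h/ε⌋)` by at most `4 ε`; by `s4b_ae_vertex` almost every `(x,h)` has all its eight vertices in the
    full-measure set of (2): `F_L → cubeProd ĝ x h₁ h₂ h₃` almost everywhere.
(4) `‖F_L‖ ≤ 1` and `F_L(x,h) ≠ 0` forces `x ∈ I`, `|h_i| ≤ 2|I|`: dominated convergence on `ℝ × ℝ × ℝ × ℝ` (`tendsto_integral_of_dominated_convergence`),
    `s4b_integral4` translates between the iterated integrals and the integral over the product.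
-/
import Claimed.Agent.R258.Pack012
import Claimed.Agent.R258.Pack006

set_option autoImplicit false
open MeasureTheory Filter Topology
open scoped ENNReal ContDiff ComplexConjugate

namespace Claimed.Agent.R258

/-- the `j`-th subinterval of length `|I|/L` (`j : ℤ`; for `0 ≤ j < L` these partition the cell) -/
def s4b_subZ (I : Cell) (L : ℕ) (j : ℤ) : Set ℝ :=
  Set.Ico (I.left + (j : ℝ) * (I.len / L)) (I.left + ((j : ℝ) + 1) * (I.len / L))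

/-- cell averages of `1_I g` -/
noncomputable def s4b_cellAvg (I : Cell) (L : ℕ) (g : ℝ → ℂ) (j : ℤ) : ℂ :=
  (((L : ℝ) / I.len : ℝ) : ℂ) * ∫ y in s4b_subZ I L j, I.set.indicator g y

theorem s4b_subZ_volume (I : Cell) (L : ℕ) (j : ℤ) : volume (s4b_subZ I L j) = ENNReal.ofReal (I.len / L) := by
  unfold s4b_subZ
  rw [Real.volume_Ico]
  congr 1
  ring

theorem s4b_ind_norm_le (I : Cell) (g : ℝ → ℂ) (hb : SupLe I g 1) (y : ℝ) : ‖I.set.indicator g y‖ ≤ 1 := by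
  by_cases hy : y ∈ I.set
  · rw [Set.indicator_of_mem hy]
    exact hb y hy
  · rw [Set.indicator_of_notMem hy, norm_zero]
    exact zero_le_one

theorem s4b_cellAvg_norm_le (I : Cell) (L : ℕ) (g : ℝ → ℂ) (hL : 1 ≤ L) (hb : SupLe I g 1) (j : ℤ) :
    ‖s4b_cellAvg I L g j‖ ≤ 1 := by
  have hlen := cell_len_pos I
  have hL0 : (0 : ℝ) < L := by exact_mod_cast hL
  have hε : 0 < I.len / L := div_pos hlen hL0
  have h1 : ‖∫ y in s4b_subZ I L j, I.set.indicator g y‖ ≤ 1 * (volume.real (s4b_subZ I L j)) :=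
    norm_setIntegral_le_of_norm_le_const (by rw [s4b_subZ_volume]; exact ENNReal.ofReal_lt_top)
      fun y _ => s4b_ind_norm_le I g hb y
  rw [Measure.real, s4b_subZ_volume, ENNReal.toReal_ofReal hε.le, one_mul] at h1
  unfold s4b_cellAvg
  rw [norm_mul, Complex.norm_real, Real.norm_of_nonneg (by positivity)]
  calc (L : ℝ) / I.len * ‖∫ y in s4b_subZ I L j, I.set.indicator g y‖ ≤ (L : ℝ) / I.len * (I.len / L) :=
        mul_le_mul_of_nonneg_left h1 (by positivity)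
    _ = 1 := by field_simp

theorem s4b_cellAvg_supp (I : Cell) (L : ℕ) (g : ℝ → ℂ) (hL : 1 ≤ L) (j : ℤ) (h : s4b_cellAvg I L g j ≠ 0) :
    0 ≤ j ∧ j < (L : ℤ) := by
  have hlen := cell_len_pos I
  have hL0 : (0 : ℝ) < L := by exact_mod_cast hL
  have hε : 0 < I.len / L := div_pos hlen hL0
  by_contra hcon
  apply h
  unfold s4b_cellAvg
  have h0 : ∫ y in s4b_subZ I L j, I.set.indicator g y = 0 := by
    refine setIntegral_eq_zero_of_forall_eq_zero fun y hy => Set.indicator_of_notMem ?_ _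
    intro hyI
    apply hcon
    constructor
    · by_contra hj
      have hj' : j + 1 ≤ 0 := by omega
      have hj'' : (j : ℝ) + 1 ≤ 0 := by exact_mod_cast hj'
      have h1 : ((j : ℝ) + 1) * (I.len / L) ≤ 0 := mul_nonpos_of_nonpos_of_nonneg hj'' hε.le
      have h2 := hy.2
      have h3 := hyI.1
      linarith
    · by_contra hj
      have hj' : (L : ℤ) ≤ j := by omega
      have hj'' : (L : ℝ) ≤ (j : ℝ) := by exact_mod_cast hj'
      have h1 : (L : ℝ) * (I.len / L) ≤ (j : ℝ) * (I.len / L) := mul_le_mul_of_nonneg_right hj'' hε.le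
      have h4 : (L : ℝ) * (I.len / L) = I.len := by field_simp
      have h2 := hy.1
      have h3 := hyI.2
      rw [cell_right_eq] at h3
      linarith
  rw [h0, mul_zero]

theorem s4b_floor_eq_iff (a ε : ℝ) (hε : 0 < ε) (x : ℝ) (n : ℤ) :
    ⌊(x - a) / ε⌋ = n ↔ x ∈ Set.Ico (a + (n : ℝ) * ε) (a + ((n : ℝ) + 1) * ε) := by
  rw [Int.floor_eq_iff, le_div_iff₀ hε, div_lt_iff₀ hε, Set.mem_Ico]
  constructor
  · rintro ⟨h1, h2⟩
    exact ⟨by linarith, by linarith⟩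
  · rintro ⟨h1, h2⟩
    exact ⟨by linarith, by linarith⟩

/-- integral of a step function -/
theorem s4b_step_integral (a ε : ℝ) (hε : 0 < ε) (φ : ℤ → ℂ) (s : Finset ℤ) (hφ : ∀ n, n ∉ s → φ n = 0) :
    ∫ x : ℝ, φ ⌊(x - a) / ε⌋ = (ε : ℂ) * ∑ n ∈ s, φ n := by
  classical
  have e : (fun x : ℝ => φ ⌊(x - a) / ε⌋)
      = fun x => ∑ n ∈ s, (Set.Ico (a + (n : ℝ) * ε) (a + ((n : ℝ) + 1) * ε)).indicator (fun _ => φ n) x := by
    funext x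
    by_cases hx : ⌊(x - a) / ε⌋ ∈ s
    · rw [Finset.sum_eq_single_of_mem _ hx]
      · rw [Set.indicator_of_mem ((s4b_floor_eq_iff a ε hε x _).1 rfl)]
      · intro n _ hn
        exact Set.indicator_of_notMem (fun h => hn ((s4b_floor_eq_iff a ε hε x n).2 h).symm) _
    · rw [hφ _ hx]
      refine (Finset.sum_eq_zero fun n hn => ?_).symm
      refine Set.indicator_of_notMem (fun h => hx ?_) _
      rw [(s4b_floor_eq_iff a ε hε x n).2 h]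
      exact hn
  rw [e, integral_finsetSum]
  · rw [Finset.mul_sum]
    refine Finset.sum_congr rfl fun n _ => ?_
    rw [integral_indicator_const _ measurableSet_Ico, Measure.real, Real.volume_Ico,
      ENNReal.toReal_ofReal (by nlinarith), Complex.real_smul]
    congr 2
    ring
  · intro n _
    exact (integrable_indicator_iff measurableSet_Ico).2 (integrableOn_const (by simp) (by simp))

/-- support of the cube product -/
theorem s4b_cubeProd_supp (L : ℕ) (f : ℤ → ℂ) (hf : ∀ n, f n ≠ 0 → 0 ≤ n ∧ n < (L : ℤ)) (x h₁ h₂ h₃ : ℤ)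
    (h : s4b_cubeProd f x h₁ h₂ h₃ ≠ 0) :
    x ∈ Finset.Ico (0 : ℤ) L ∧ h₁ ∈ Finset.Ioo (-(L : ℤ)) L ∧ h₂ ∈ Finset.Ioo (-(L : ℤ)) L ∧
      h₃ ∈ Finset.Ioo (-(L : ℤ)) L := by
  delta s4b_cubeProd at h
  simp only [ne_eq, mul_eq_zero, map_eq_zero, not_or] at h
  obtain ⟨⟨⟨⟨⟨⟨⟨k0, k1⟩, k2⟩, k3⟩, -⟩, -⟩, -⟩, -⟩ := h
  have a0 := hf _ k0
  have a1 := hf _ k1
  have a2 := hf _ k2
  have a3 := hf _ k3
  simp only [Finset.mem_Ico, Finset.mem_Ioo]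
  refine ⟨⟨a0.1, a0.2⟩, ⟨by omega, by omega⟩, ⟨by omega, by omega⟩, ⟨by omega, by omega⟩⟩

/-- the cube sum is the cube integral of a step function -/
theorem s4b_cubeSum_eq_integral (L : ℕ) (a ε : ℝ) (hε : 0 < ε) (f : ℤ → ℂ)
    (hf : ∀ n, f n ≠ 0 → 0 ≤ n ∧ n < (L : ℤ)) :
    ((ε ^ 4 : ℝ) : ℂ) * s4b_cubeSum L f =
      ∫ x : ℝ, ∫ h₁ : ℝ, ∫ h₂ : ℝ, ∫ h₃ : ℝ, s4b_cubeProd f ⌊(x - a) / ε⌋ ⌊h₁ / ε⌋ ⌊h₂ / ε⌋ ⌊h₃ / ε⌋ := by
  have hz : ∀ x h₁ h₂ h₃ : ℤ, ¬ (x ∈ Finset.Ico (0 : ℤ) L ∧ h₁ ∈ Finset.Ioo (-(L : ℤ)) L ∧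
      h₂ ∈ Finset.Ioo (-(L : ℤ)) L ∧ h₃ ∈ Finset.Ioo (-(L : ℤ)) L) → s4b_cubeProd f x h₁ h₂ h₃ = 0 := by
    intro x h₁ h₂ h₃ hn
    by_contra hne
    exact hn (s4b_cubeProd_supp L f hf x h₁ h₂ h₃ hne)
  have st : ∀ (φ : ℤ → ℂ) (s : Finset ℤ), (∀ n, n ∉ s → φ n = 0) → ∫ h : ℝ, φ ⌊h / ε⌋ = (ε : ℂ) * ∑ n ∈ s, φ n := by
    intro φ s hφ
    have := s4b_step_integral 0 ε hε φ s hφ
    simpa only [sub_zero] using this
  have i3 : ∀ X H₁ H₂ : ℤ, ∫ h₃ : ℝ, s4b_cubeProd f X H₁ H₂ ⌊h₃ / ε⌋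
      = (ε : ℂ) * ∑ n ∈ Finset.Ioo (-(L : ℤ)) L, s4b_cubeProd f X H₁ H₂ n := fun X H₁ H₂ =>
    st (fun n => s4b_cubeProd f X H₁ H₂ n) _ fun n hn => hz _ _ _ _ fun h => hn h.2.2.2
  have i2 : ∀ X H₁ : ℤ, ∫ h₂ : ℝ, (ε : ℂ) * ∑ n ∈ Finset.Ioo (-(L : ℤ)) L, s4b_cubeProd f X H₁ ⌊h₂ / ε⌋ n
      = (ε : ℂ) * ∑ n₂ ∈ Finset.Ioo (-(L : ℤ)) L, (ε : ℂ) * ∑ n ∈ Finset.Ioo (-(L : ℤ)) L, s4b_cubeProd f X H₁ n₂ n :=
    fun X H₁ => st (fun n₂ => (ε : ℂ) * ∑ n ∈ Finset.Ioo (-(L : ℤ)) L, s4b_cubeProd f X H₁ n₂ n) _ fun n₂ hn => by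
      rw [Finset.sum_eq_zero fun n _ => hz _ _ _ _ fun h => hn h.2.2.1, mul_zero]
  have i1 : ∀ X : ℤ, ∫ h₁ : ℝ, (ε : ℂ) * ∑ n₂ ∈ Finset.Ioo (-(L : ℤ)) L, (ε : ℂ) * ∑ n ∈ Finset.Ioo (-(L : ℤ)) L,
        s4b_cubeProd f X ⌊h₁ / ε⌋ n₂ n
      = (ε : ℂ) * ∑ n₁ ∈ Finset.Ioo (-(L : ℤ)) L, (ε : ℂ) * ∑ n₂ ∈ Finset.Ioo (-(L : ℤ)) L,
        (ε : ℂ) * ∑ n ∈ Finset.Ioo (-(L : ℤ)) L, s4b_cubeProd f X n₁ n₂ n :=
    fun X => st (fun n₁ => (ε : ℂ) * ∑ n₂ ∈ Finset.Ioo (-(L : ℤ)) L, (ε : ℂ) * ∑ n ∈ Finset.Ioo (-(L : ℤ)) L,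
        s4b_cubeProd f X n₁ n₂ n) _ fun n₁ hn => by
      rw [Finset.sum_eq_zero fun n₂ _ => by
        rw [Finset.sum_eq_zero fun n _ => hz _ _ _ _ fun h => hn h.2.1, mul_zero], mul_zero]
  have i0 := s4b_step_integral a ε hε (fun X => (ε : ℂ) * ∑ n₁ ∈ Finset.Ioo (-(L : ℤ)) L,
      (ε : ℂ) * ∑ n₂ ∈ Finset.Ioo (-(L : ℤ)) L, (ε : ℂ) * ∑ n ∈ Finset.Ioo (-(L : ℤ)) L, s4b_cubeProd f X n₁ n₂ n)
      (Finset.Ico (0 : ℤ) L) fun X hn => by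
    rw [Finset.sum_eq_zero fun n₁ _ => by
      rw [Finset.sum_eq_zero fun n₂ _ => by
        rw [Finset.sum_eq_zero fun n _ => hz _ _ _ _ fun h => hn h.1, mul_zero], mul_zero], mul_zero]
  simp only [i3, i2, i1]
  rw [i0]
  delta s4b_cubeSum
  simp only [Finset.mul_sum]
  refine Finset.sum_congr rfl fun x _ => Finset.sum_congr rfl fun h₁ _ => Finset.sum_congr rfl fun h₂ _ =>
    Finset.sum_congr rfl fun h₃ _ => ?_
  push_cast
  ring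

/-- iterated integral = integral over the product -/
theorem s4b_integral4 (F : ℝ × ℝ × ℝ × ℝ → ℂ) (hF : Integrable F) :
    ∫ x : ℝ, ∫ h₁ : ℝ, ∫ h₂ : ℝ, ∫ h₃ : ℝ, F (x, h₁, h₂, h₃) = ∫ p : ℝ × ℝ × ℝ × ℝ, F p := by
  have h1 : ∫ p : ℝ × ℝ × ℝ × ℝ, F p = ∫ x : ℝ, ∫ q : ℝ × ℝ × ℝ, F (x, q) := integral_prod F hF
  have h2 : ∀ᵐ x : ℝ, Integrable (fun q : ℝ × ℝ × ℝ => F (x, q)) := hF.prod_right_ae
  rw [h1]
  refine integral_congr_ae (h2.mono fun x hx => ?_)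
  have h3 : ∫ q : ℝ × ℝ × ℝ, F (x, q) = ∫ h₁ : ℝ, ∫ r : ℝ × ℝ, F (x, h₁, r) := integral_prod _ hx
  have h4 : ∀ᵐ h₁ : ℝ, Integrable (fun r : ℝ × ℝ => F (x, h₁, r)) := hx.prod_right_ae
  simp only
  rw [h3]
  refine integral_congr_ae (h4.mono fun h₁ hh => ?_)
  exact (integral_prod _ hh).symm

/-- a null set of `ℝ` is not seen by a vertex map -/
theorem s4b_ae_vertex (P : ℝ → Prop) (hP : ∀ᵐ y : ℝ, P y) (c₁ c₂ c₃ : ℝ) :
    ∀ᵐ p : ℝ × ℝ × ℝ × ℝ, P (p.1 + c₁ * p.2.1 + c₂ * p.2.2.1 + c₃ * p.2.2.2) := by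
  obtain ⟨N, hsub, hNm, hN0⟩ := exists_measurable_superset_of_null (ae_iff.1 hP)
  have hmap : Measurable fun p : ℝ × ℝ × ℝ × ℝ => p.1 + c₁ * p.2.1 + c₂ * p.2.2.1 + c₃ * p.2.2.2 := by fun_prop
  have hS : MeasurableSet ((fun p : ℝ × ℝ × ℝ × ℝ => p.1 + c₁ * p.2.1 + c₂ * p.2.2.1 + c₃ * p.2.2.2) ⁻¹' N) :=
    hmap hNm
  have h0 : (volume : Measure (ℝ × ℝ × ℝ × ℝ))
      ((fun p : ℝ × ℝ × ℝ × ℝ => p.1 + c₁ * p.2.1 + c₂ * p.2.2.1 + c₃ * p.2.2.2) ⁻¹' N) = 0 := by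
    have h1 := Measure.prod_apply_symm (μ := (volume : Measure ℝ)) (ν := (volume : Measure (ℝ × ℝ × ℝ))) hS
    have h2 : ∀ q : ℝ × ℝ × ℝ, (volume : Measure ℝ) ((fun x => (x, q)) ⁻¹'
        ((fun p : ℝ × ℝ × ℝ × ℝ => p.1 + c₁ * p.2.1 + c₂ * p.2.2.1 + c₃ * p.2.2.2) ⁻¹' N)) = 0 := by
      intro q
      have e : ((fun x : ℝ => (x, q)) ⁻¹'
          ((fun p : ℝ × ℝ × ℝ × ℝ => p.1 + c₁ * p.2.1 + c₂ * p.2.2.1 + c₃ * p.2.2.2) ⁻¹' N))
          = (fun x : ℝ => x + (c₁ * q.1 + c₂ * q.2.1 + c₃ * q.2.2)) ⁻¹' N := by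
        ext x
        simp only [Set.mem_preimage]
        rw [show x + c₁ * q.1 + c₂ * q.2.1 + c₃ * q.2.2 = x + (c₁ * q.1 + c₂ * q.2.1 + c₃ * q.2.2) by ring]
      rw [e, measure_preimage_add_right, hN0]
    simp only [h2, lintegral_zero] at h1
    exact h1
  rw [ae_iff]
  refine measure_mono_null (fun p hp => ?_) h0
  exact hsub hp

theorem s4b_ind_measurable (I : Cell) (g : ℝ → ℂ) (hm : Measurable g) : Measurable (I.set.indicator g) :=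
  hm.indicator (cell_measurableSet I)

theorem s4b_ind_locInt (I : Cell) (g : ℝ → ℂ) (hm : Measurable g) (hb : SupLe I g 1) :
    LocallyIntegrable (I.set.indicator g) volume := by
  have h1 : Integrable (I.set.indicator g) volume := by
    rw [integrable_indicator_iff (cell_measurableSet I)]
    refine Measure.integrableOn_of_bounded (M := 1) (cell_volume_ne_top I) hm.aestronglyMeasurable ?_
    exact (ae_restrict_iff' (cell_measurableSet I)).2 (Eventually.of_forall fun y hy => hb y hy)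
  exact h1.locallyIntegrable

theorem s4b_cellAvg_eq_average (I : Cell) (L : ℕ) (g : ℝ → ℂ) (hL : 1 ≤ L) (j : ℤ) :
    s4b_cellAvg I L g j =
      ⨍ y in Metric.closedBall (I.left + ((j : ℝ) + 1 / 2) * (I.len / L)) (I.len / (2 * L)), I.set.indicator g y := by
  have hlen := cell_len_pos I
  have hL0 : (0 : ℝ) < L := by exact_mod_cast hL
  have hε : 0 < I.len / L := div_pos hlen hL0
  rw [Real.closedBall_eq_Icc, setAverage_eq, integral_Icc_eq_integral_Ico]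
  have e1 : I.left + ((j : ℝ) + 1 / 2) * (I.len / L) - I.len / (2 * L) = I.left + (j : ℝ) * (I.len / L) := by
    field_simp
    ring
  have e2 : I.left + ((j : ℝ) + 1 / 2) * (I.len / L) + I.len / (2 * L) = I.left + ((j : ℝ) + 1) * (I.len / L) := by
    field_simp
    ring
  rw [e1, e2, Measure.real, Real.volume_Icc, ENNReal.toReal_ofReal (by nlinarith)]
  unfold s4b_cellAvg s4b_subZ
  rw [Complex.real_smul]
  congr 2
  rw [show I.left + ((j : ℝ) + 1) * (I.len / L) - (I.left + (j : ℝ) * (I.len / L)) = I.len / L by ring, inv_div]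

/-- Lebesgue differentiation along the subintervals -/
theorem s4b_leb (I : Cell) (g : ℝ → ℂ) (hm : Measurable g) (hb : SupLe I g 1) :
    ∀ᵐ y : ℝ, ∀ m : ℕ → ℤ, (∀ᶠ L : ℕ in atTop, |I.left + (m L : ℝ) * (I.len / L) - y| ≤ 5 * (I.len / L)) →
      Tendsto (fun L : ℕ => s4b_cellAvg I L g (m L)) atTop (𝓝 (I.set.indicator g y)) := by
  have hlen := cell_len_pos I
  filter_upwards [IsUnifLocDoublingMeasure.ae_tendsto_average (μ := (volume : Measure ℝ))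
    (s4b_ind_locInt I g hm hb) 12] with y hy m hmL
  have hδ : Tendsto (fun L : ℕ => I.len / (2 * (L : ℝ))) atTop (𝓝[>] 0) := by
    rw [tendsto_nhdsWithin_iff]
    constructor
    · refine Tendsto.div_atTop tendsto_const_nhds ?_
      exact Tendsto.const_mul_atTop (by norm_num) tendsto_natCast_atTop_atTop
    · filter_upwards [eventually_ge_atTop 1] with L hL
      have hL0 : (0 : ℝ) < L := by exact_mod_cast hL
      exact div_pos hlen (by positivity)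
  have h1 := hy (fun L : ℕ => I.left + ((m L : ℝ) + 1 / 2) * (I.len / L)) (fun L : ℕ => I.len / (2 * (L : ℝ))) hδ ?_
  · refine h1.congr' ?_
    filter_upwards [eventually_ge_atTop 1] with L hL
    exact (s4b_cellAvg_eq_average I L g hL (m L)).symm
  · filter_upwards [hmL, eventually_ge_atTop 1] with L h2 hL
    have hL0 : (0 : ℝ) < L := by exact_mod_cast hL
    have hε : 0 < I.len / L := div_pos hlen hL0
    rw [Metric.mem_closedBall, Real.dist_eq]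
    have e : 12 * (I.len / (2 * (L : ℝ))) = 6 * (I.len / L) := by
      field_simp
      ring
    rw [e, abs_le]
    rw [abs_le] at h2
    constructor <;> nlinarith [h2.1, h2.2]

theorem s4b_cubeProd_norm_le {G : Type*} [Add G] (f : G → ℂ) (hf : ∀ x, ‖f x‖ ≤ 1) (x h₁ h₂ h₃ : G) :
    ‖s4b_cubeProd f x h₁ h₂ h₃‖ ≤ 1 := by
  delta s4b_cubeProd
  simp only [norm_mul, RCLike.norm_conj]
  have n := fun y => norm_nonneg (f y)
  refine mul_le_one₀ (mul_le_one₀ (mul_le_one₀ (mul_le_one₀ (mul_le_one₀ (mul_le_one₀ (mul_le_one₀ (hf _) (n _) (hf _))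
    (n _) (hf _)) (n _) (hf _)) (n _) (hf _)) (n _) (hf _)) (n _) (hf _)) (n _) (hf _)

theorem s4b_cubeProd_tendsto {ι : Type*} {l : Filter ι} (A : ι → ℤ → ℂ) (f : ℝ → ℂ) (X H₁ H₂ H₃ : ι → ℤ)
    (x h₁ h₂ h₃ : ℝ)
    (t0 : Tendsto (fun i => A i (X i)) l (𝓝 (f x)))
    (t1 : Tendsto (fun i => A i (X i + H₁ i)) l (𝓝 (f (x + h₁))))
    (t2 : Tendsto (fun i => A i (X i + H₂ i)) l (𝓝 (f (x + h₂))))
    (t3 : Tendsto (fun i => A i (X i + H₃ i)) l (𝓝 (f (x + h₃))))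
    (t12 : Tendsto (fun i => A i (X i + H₁ i + H₂ i)) l (𝓝 (f (x + h₁ + h₂))))
    (t13 : Tendsto (fun i => A i (X i + H₁ i + H₃ i)) l (𝓝 (f (x + h₁ + h₃))))
    (t23 : Tendsto (fun i => A i (X i + H₂ i + H₃ i)) l (𝓝 (f (x + h₂ + h₃))))
    (t123 : Tendsto (fun i => A i (X i + H₁ i + H₂ i + H₃ i)) l (𝓝 (f (x + h₁ + h₂ + h₃)))) :
    Tendsto (fun i => s4b_cubeProd (A i) (X i) (H₁ i) (H₂ i) (H₃ i)) l (𝓝 (s4b_cubeProd f x h₁ h₂ h₃)) := by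
  have hc : ∀ {u : ι → ℂ} {z : ℂ}, Tendsto u l (𝓝 z) → Tendsto (fun i => conj (u i)) l (𝓝 (conj z)) :=
    fun h => (Complex.continuous_conj.tendsto _).comp h
  exact ((((((t0.mul (hc t1)).mul (hc t2)).mul (hc t3)).mul t12).mul t13).mul t23).mul (hc t123)

theorem s4b_floor_mem (ε : ℝ) (hε : 0 < ε) (h : ℝ) :
    (⌊h / ε⌋ : ℝ) * ε ≤ h ∧ h < ((⌊h / ε⌋ : ℝ) + 1) * ε := by
  constructor
  · have := Int.floor_le (h / ε)
    rwa [le_div_iff₀ hε] at this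
  · have := Int.lt_floor_add_one (h / ε)
    rwa [div_lt_iff₀ hε] at this

theorem s4b_ae_vertices (P : ℝ → Prop) (hP : ∀ᵐ y : ℝ, P y) :
    ∀ᵐ p : ℝ × ℝ × ℝ × ℝ, P p.1 ∧ P (p.1 + p.2.1) ∧ P (p.1 + p.2.2.1) ∧ P (p.1 + p.2.2.2) ∧
      P (p.1 + p.2.1 + p.2.2.1) ∧ P (p.1 + p.2.1 + p.2.2.2) ∧ P (p.1 + p.2.2.1 + p.2.2.2) ∧
      P (p.1 + p.2.1 + p.2.2.1 + p.2.2.2) := by
  filter_upwards [s4b_ae_vertex P hP 0 0 0, s4b_ae_vertex P hP 1 0 0, s4b_ae_vertex P hP 0 1 0,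
    s4b_ae_vertex P hP 0 0 1, s4b_ae_vertex P hP 1 1 0, s4b_ae_vertex P hP 1 0 1, s4b_ae_vertex P hP 0 1 1,
    s4b_ae_vertex P hP 1 1 1] with p a0 a1 a2 a3 a12 a13 a23 a123
  simp only [zero_mul, one_mul, add_zero] at a0 a1 a2 a3 a12 a13 a23 a123
  exact ⟨a0, a1, a2, a3, a12, a13, a23, a123⟩

/-- the box which carries all the cube products -/
def s4b_box (I : Cell) : Set (ℝ × ℝ × ℝ × ℝ) :=
  Set.Icc I.left I.right ×ˢ Set.Icc (-I.len) I.len ×ˢ Set.Icc (-I.len) I.len ×ˢ Set.Icc (-I.len) I.len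

theorem s4b_box_eqns_cite : True := by
  have := @s4b_box.eq_1
  trivial

theorem s4b_box_integrable (I : Cell) : Integrable ((s4b_box I).indicator fun _ => (1 : ℝ)) := by
  have hc : IsCompact (s4b_box I) := isCompact_Icc.prod (isCompact_Icc.prod (isCompact_Icc.prod isCompact_Icc))
  exact (integrable_indicator_iff hc.measurableSet).2 (integrableOn_const hc.measure_lt_top.ne (by simp))

theorem s4b_le_box (I : Cell) (z : ℂ) (p : ℝ × ℝ × ℝ × ℝ) (h1 : ‖z‖ ≤ 1) (h2 : z ≠ 0 → p ∈ s4b_box I) :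
    ‖z‖ ≤ (s4b_box I).indicator (fun _ => (1 : ℝ)) p := by
  by_cases hz : z = 0
  · rw [hz, norm_zero]
    exact Set.indicator_nonneg (fun _ _ => zero_le_one) _
  · rw [Set.indicator_of_mem (h2 hz)]
    exact h1

theorem s4b_step_measurable (A : ℤ → ℂ) (a ε : ℝ) :
    Measurable fun p : ℝ × ℝ × ℝ × ℝ => s4b_cubeProd A ⌊(p.1 - a) / ε⌋ ⌊p.2.1 / ε⌋ ⌊p.2.2.1 / ε⌋ ⌊p.2.2.2 / ε⌋ := by
  have h1 : Measurable fun q : ℤ × ℤ × ℤ × ℤ => s4b_cubeProd A q.1 q.2.1 q.2.2.1 q.2.2.2 := Measurable.of_discrete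
  have h2 : Measurable fun p : ℝ × ℝ × ℝ × ℝ =>
      ((⌊(p.1 - a) / ε⌋, ⌊p.2.1 / ε⌋, ⌊p.2.2.1 / ε⌋, ⌊p.2.2.2 / ε⌋) : ℤ × ℤ × ℤ × ℤ) := by
    fun_prop
  have h3 := h1.comp h2
  simpa only [Function.comp_def] using h3

theorem s4b_lim_measurable (f : ℝ → ℂ) (hf : Measurable f) :
    Measurable fun p : ℝ × ℝ × ℝ × ℝ => s4b_cubeProd f p.1 p.2.1 p.2.2.1 p.2.2.2 := by
  have hc : Measurable (fun z : ℂ => conj z) := Complex.continuous_conj.measurable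
  delta s4b_cubeProd
  fun_prop

theorem s4b_step_box (I : Cell) (L : ℕ) (hL : 1 ≤ L) (A : ℤ → ℂ) (hA : ∀ n, A n ≠ 0 → 0 ≤ n ∧ n < (L : ℤ))
    (p : ℝ × ℝ × ℝ × ℝ)
    (h : s4b_cubeProd A ⌊(p.1 - I.left) / (I.len / L)⌋ ⌊p.2.1 / (I.len / L)⌋ ⌊p.2.2.1 / (I.len / L)⌋
      ⌊p.2.2.2 / (I.len / L)⌋ ≠ 0) : p ∈ s4b_box I := by
  have hlen := cell_len_pos I
  have hL0 : (0 : ℝ) < L := by exact_mod_cast hL
  have hε : 0 < I.len / L := div_pos hlen hL0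
  have hLε : (L : ℝ) * (I.len / L) = I.len := by field_simp
  obtain ⟨h0, h1, h2, h3⟩ := s4b_cubeProd_supp L A hA _ _ _ _ h
  have key : ∀ t : ℝ, ⌊t / (I.len / L)⌋ ∈ Finset.Ioo (-(L : ℤ)) L → t ∈ Set.Icc (-I.len) I.len := by
    intro t ht
    rw [Finset.mem_Ioo] at ht
    obtain ⟨t1, t2⟩ := s4b_floor_mem _ hε t
    have c1 : -(L : ℝ) ≤ (⌊t / (I.len / L)⌋ : ℝ) := by exact_mod_cast ht.1.le
    have c2 : (⌊t / (I.len / L)⌋ : ℝ) + 1 ≤ (L : ℝ) := by exact_mod_cast ht.2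
    have d1 := mul_le_mul_of_nonneg_right c1 hε.le
    have d2 := mul_le_mul_of_nonneg_right c2 hε.le
    constructor <;> linarith
  refine ⟨?_, key _ h1, key _ h2, key _ h3⟩
  rw [Finset.mem_Ico] at h0
  obtain ⟨t1, t2⟩ := s4b_floor_mem _ hε (p.1 - I.left)
  have c1 : (0 : ℝ) ≤ (⌊(p.1 - I.left) / (I.len / L)⌋ : ℝ) := by exact_mod_cast h0.1
  have c2 : (⌊(p.1 - I.left) / (I.len / L)⌋ : ℝ) + 1 ≤ (L : ℝ) := by exact_mod_cast h0.2
  have d1 := mul_nonneg c1 hε.le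
  have d2 := mul_le_mul_of_nonneg_right c2 hε.le
  rw [cell_right_eq]
  constructor <;> linarith

theorem s4b_lim_box (I : Cell) (g : ℝ → ℂ) (p : ℝ × ℝ × ℝ × ℝ)
    (h : s4b_cubeProd (I.set.indicator g) p.1 p.2.1 p.2.2.1 p.2.2.2 ≠ 0) : p ∈ s4b_box I := by
  delta s4b_cubeProd at h
  simp only [ne_eq, mul_eq_zero, map_eq_zero, not_or] at h
  obtain ⟨⟨⟨⟨⟨⟨⟨k0, k1⟩, k2⟩, k3⟩, -⟩, -⟩, -⟩, -⟩ := h
  have a0 := Set.mem_of_indicator_ne_zero k0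
  have a1 := Set.mem_of_indicator_ne_zero k1
  have a2 := Set.mem_of_indicator_ne_zero k2
  have a3 := Set.mem_of_indicator_ne_zero k3
  rw [cell_mem_set, cell_right_eq] at a0 a1 a2 a3
  refine ⟨?_, ?_, ?_, ?_⟩
  · rw [cell_right_eq]
    constructor <;> linarith [a0.1, a0.2]
  · constructor <;> linarith [a0.1, a0.2, a1.1, a1.2]
  · constructor <;> linarith [a0.1, a0.2, a2.1, a2.2]
  · constructor <;> linarith [a0.1, a0.2, a3.1, a3.2]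

theorem s4b_step_tendsto (I : Cell) (g : ℝ → ℂ) (p : ℝ × ℝ × ℝ × ℝ)
    (hp : ∀ y : ℝ, (y = p.1 ∨ y = p.1 + p.2.1 ∨ y = p.1 + p.2.2.1 ∨ y = p.1 + p.2.2.2 ∨ y = p.1 + p.2.1 + p.2.2.1 ∨
      y = p.1 + p.2.1 + p.2.2.2 ∨ y = p.1 + p.2.2.1 + p.2.2.2 ∨ y = p.1 + p.2.1 + p.2.2.1 + p.2.2.2) →
      ∀ m : ℕ → ℤ, (∀ᶠ L : ℕ in atTop, |I.left + (m L : ℝ) * (I.len / L) - y| ≤ 5 * (I.len / L)) →
      Tendsto (fun L : ℕ => s4b_cellAvg I L g (m L)) atTop (𝓝 (I.set.indicator g y))) :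
    Tendsto (fun L : ℕ => s4b_cubeProd (s4b_cellAvg I L g) ⌊(p.1 - I.left) / (I.len / L)⌋ ⌊p.2.1 / (I.len / L)⌋
      ⌊p.2.2.1 / (I.len / L)⌋ ⌊p.2.2.2 / (I.len / L)⌋) atTop
      (𝓝 (s4b_cubeProd (I.set.indicator g) p.1 p.2.1 p.2.2.1 p.2.2.2)) := by
  have hlen := cell_len_pos I
  refine s4b_cubeProd_tendsto (fun L : ℕ => s4b_cellAvg I L g) (I.set.indicator g)
    (fun L : ℕ => ⌊(p.1 - I.left) / (I.len / L)⌋) (fun L : ℕ => ⌊p.2.1 / (I.len / L)⌋)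
    (fun L : ℕ => ⌊p.2.2.1 / (I.len / L)⌋) (fun L : ℕ => ⌊p.2.2.2 / (I.len / L)⌋) p.1 p.2.1 p.2.2.1 p.2.2.2
    (hp _ (by tauto) _ ?_) (hp _ (by tauto) _ ?_) (hp _ (by tauto) _ ?_) (hp _ (by tauto) _ ?_)
    (hp _ (by tauto) _ ?_) (hp _ (by tauto) _ ?_) (hp _ (by tauto) _ ?_) (hp _ (by tauto) _ ?_)
  all_goals
    filter_upwards [eventually_ge_atTop 1] with L hL
    have hL0 : (0 : ℝ) < L := by exact_mod_cast hL
    have hε : 0 < I.len / L := div_pos hlen hL0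
    obtain ⟨x1, x2⟩ := s4b_floor_mem _ hε (p.1 - I.left)
    obtain ⟨u1, u2⟩ := s4b_floor_mem _ hε p.2.1
    obtain ⟨v1, v2⟩ := s4b_floor_mem _ hε p.2.2.1
    obtain ⟨w1, w2⟩ := s4b_floor_mem _ hε p.2.2.2
    push_cast
    rw [abs_le]
    constructor <;> linarith

/-- **Discretization of the cube integral.** -/
theorem s4b_disc (I : Cell) (g : ℝ → ℂ) (hm : Measurable g) (hb : SupLe I g 1) :
    Tendsto (fun L : ℕ => (((I.len / L) ^ 4 : ℝ) : ℂ) * s4b_cubeSum L (s4b_cellAvg I L g)) atTop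
      (𝓝 (s4b_cubeInt (I.set.indicator g))) := by
  have hlen := cell_len_pos I
  have hg1 := s4b_ind_norm_le I g hb
  have hgm := s4b_ind_measurable I g hm
  have hGint : Integrable fun p : ℝ × ℝ × ℝ × ℝ => s4b_cubeProd (I.set.indicator g) p.1 p.2.1 p.2.2.1 p.2.2.2 :=
    (s4b_box_integrable I).mono' (s4b_lim_measurable _ hgm).aestronglyMeasurable
      (Eventually.of_forall fun p => s4b_le_box I _ p (s4b_cubeProd_norm_le _ hg1 _ _ _ _) (s4b_lim_box I g p))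
  have hFle : ∀ L : ℕ, 1 ≤ L → ∀ p : ℝ × ℝ × ℝ × ℝ, ‖s4b_cubeProd (s4b_cellAvg I L g) ⌊(p.1 - I.left) / (I.len / L)⌋
      ⌊p.2.1 / (I.len / L)⌋ ⌊p.2.2.1 / (I.len / L)⌋ ⌊p.2.2.2 / (I.len / L)⌋‖
      ≤ (s4b_box I).indicator (fun _ => (1 : ℝ)) p := fun L hL p =>
    s4b_le_box I _ p (s4b_cubeProd_norm_le _ (s4b_cellAvg_norm_le I L g hL hb) _ _ _ _)
      (s4b_step_box I L hL _ (fun n hn => s4b_cellAvg_supp I L g hL n hn) p)
  have hFint : ∀ L : ℕ, 1 ≤ L → Integrable fun p : ℝ × ℝ × ℝ × ℝ => s4b_cubeProd (s4b_cellAvg I L g)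
      ⌊(p.1 - I.left) / (I.len / L)⌋ ⌊p.2.1 / (I.len / L)⌋ ⌊p.2.2.1 / (I.len / L)⌋ ⌊p.2.2.2 / (I.len / L)⌋ :=
    fun L hL => (s4b_box_integrable I).mono' (s4b_step_measurable _ _ _).aestronglyMeasurable
      (Eventually.of_forall (hFle L hL))
  have e1 : s4b_cubeInt (I.set.indicator g)
      = ∫ p : ℝ × ℝ × ℝ × ℝ, s4b_cubeProd (I.set.indicator g) p.1 p.2.1 p.2.2.1 p.2.2.2 :=
    s4b_integral4 _ hGint
  have e2 : ∀ L : ℕ, 1 ≤ L → (((I.len / L) ^ 4 : ℝ) : ℂ) * s4b_cubeSum L (s4b_cellAvg I L g)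
      = ∫ p : ℝ × ℝ × ℝ × ℝ, s4b_cubeProd (s4b_cellAvg I L g)
      ⌊(p.1 - I.left) / (I.len / L)⌋ ⌊p.2.1 / (I.len / L)⌋ ⌊p.2.2.1 / (I.len / L)⌋ ⌊p.2.2.2 / (I.len / L)⌋ := by
    intro L hL
    have hL0 : (0 : ℝ) < L := by exact_mod_cast hL
    have hε : 0 < I.len / L := div_pos hlen hL0
    rw [s4b_cubeSum_eq_integral L I.left (I.len / L) hε _ (fun n hn => s4b_cellAvg_supp I L g hL n hn)]
    exact s4b_integral4 _ (hFint L hL)
  rw [e1]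
  refine Tendsto.congr' (f₁ := fun L : ℕ => ∫ p : ℝ × ℝ × ℝ × ℝ, s4b_cubeProd (s4b_cellAvg I L g)
      ⌊(p.1 - I.left) / (I.len / L)⌋ ⌊p.2.1 / (I.len / L)⌋ ⌊p.2.2.1 / (I.len / L)⌋ ⌊p.2.2.2 / (I.len / L)⌋) ?_ ?_
  · filter_upwards [eventually_ge_atTop 1] with L hL
    exact (e2 L hL).symm
  · refine tendsto_integral_filter_of_dominated_convergence ((s4b_box I).indicator fun _ => (1 : ℝ)) ?_ ?_
      (s4b_box_integrable I) ?_
    · exact Eventually.of_forall fun L => (s4b_step_measurable _ _ _).aestronglyMeasurable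
    · filter_upwards [eventually_ge_atTop 1] with L hL
      exact Eventually.of_forall (hFle L hL)
    · filter_upwards [s4b_ae_vertices _ (s4b_leb I g hm hb)] with p hp
      obtain ⟨a0, a1, a2, a3, a12, a13, a23, a123⟩ := hp
      refine s4b_step_tendsto I g p ?_
      rintro y (rfl | rfl | rfl | rfl | rfl | rfl | rfl | rfl)
      · exact a0
      · exact a1
      · exact a2
      · exact a3
      · exact a12
      · exact a13
      · exact a23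
      · exact a123

end Claimed.Agent.R258
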