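/-
Row 258, block [S4b] (architect helper99).  FILE Inv: the continuous bounded inverse theorem (Lemma 4.9 `lem:continuous-inverse`).

ASSEMBLY of `s4b_cont_inverse` from  `s4b_disc` (Disc), `s4b_U3Target` (crew [U3]), `s4b_atomize` (Atomize), `s4b_mom_lower` (below), `Qp`.
  `δ' = δ/2`.  By `s4b_disc` there is `L ≥ 1` with `δ'^8 L^4 ≤ Re cubeSum L A_L`, `A_L = s4b_cellAvg I L g`.  TARGET at `(L, δ', A_L)` gives the bracket data;
  `H₀ = qp (max C₀ 2) (log (1/δ'))`, `H = 8 H₀`, `κ' = min κ (1/2)`, `ε = 1/H`; `s4b_atomize` with `s = L/|I|`, `t₀ = -(L/|I|) left` gives `χ, η, A`;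
  TARGET for this `χ`: `|∑_j A_L(j) F(j)| ≥ L/H₀`, `F(n) = χ(..) e(-phase n)`; `conj (A.eval u) = η({su+t₀}) F(⌊su+t₀⌋)`; `s4b_mom_lower`: `|mom| ≥ 1/H₀ - 2ε ≥ 1/H`.

PLAN for `s4b_mom_lower`.  On `I`: `s u + t₀ = (u - left) L/|I| ∈ [0,L)`; `I.set` is the disjoint union of `s4b_subZ I L j`, `0 ≤ j < L`, and `⌊s u + t₀⌋ = j` on the `j`-th one.
  (i) `∫_I g(u) F(⌊su+t₀⌋) du = (|I|/L) ∑_j A_L(j) F(j)`;  (ii) `∫_I (1 - η({su+t₀})) du = |I| ∫_0^1 (1-η) ≤ 2 ε |I|`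
  (or: the set `{u ∈ I : {su+t₀} ∉ [ε,1-ε]}` has measure `2ε|I|`);  (iii) `|∫_I g (1-η) F| ≤ ∫_I (1-η)`.
-/
import Claimed.Agent.R258.S4b.Atomize
import Claimed.Agent.R258.S4b.Disc
import Claimed.Agent.R258.Pack012

set_option autoImplicit false
open MeasureTheory Filter Topology
open scoped ENNReal ContDiff ComplexConjugate

namespace Claimed.Agent.R258

theorem s4b_len_pos (I : Cell) : 0 < I.len := by
  unfold Cell.len; positivity

/-- a function bounded by one which vanishes on the middle part of an interval -/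
theorem s4b_ml_piece (p e ε : ℝ) (he : 0 < e) (hε : 0 < ε) (hε' : ε ≤ 1 / 4) (h : ℝ → ℂ)
    (hb : ∀ u ∈ Set.Ico p (p + e), ‖h u‖ ≤ 1) (h0 : ∀ u, p + ε * e ≤ u → u ≤ p + (1 - ε) * e → h u = 0) :
    ‖∫ u in Set.Ico p (p + e), h u‖ ≤ 2 * ε * e := by
  have hεe : 0 < ε * e := mul_pos hε he
  have hεe' : ε * e ≤ e / 4 := by nlinarith
  have hsub : Set.Ico p (p + ε * e) ∪ Set.Ioo (p + (1 - ε) * e) (p + e) ⊆ Set.Ico p (p + e) := by
    rintro u (hu | hu)
    · exact ⟨hu.1, by linarith [hu.2]⟩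
    · exact ⟨by nlinarith [hu.1], hu.2⟩
  rw [setIntegral_eq_of_subset_of_forall_sdiff_eq_zero measurableSet_Ico hsub]
  · have hfin : volume (Set.Ico p (p + ε * e) ∪ Set.Ioo (p + (1 - ε) * e) (p + e)) < (⊤ : ℝ≥0∞) :=
      lt_of_le_of_lt (measure_mono hsub) (by simp)
    refine le_trans (norm_setIntegral_le_of_norm_le_const hfin (fun u hu => hb u (hsub hu))) ?_
    refine le_trans (mul_le_mul_of_nonneg_left (measureReal_union_le _ _) zero_le_one) ?_
    rw [Real.volume_real_Ico, Real.volume_real_Ioo_of_le (by nlinarith), max_eq_left (by linarith)]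
    apply le_of_eq; ring
  · rintro u ⟨hu, hn⟩
    apply h0
    · by_contra hc
      exact hn (Or.inl ⟨hu.1, not_le.1 hc⟩)
    · by_contra hc
      exact hn (Or.inr ⟨not_le.1 hc, hu.2⟩)

theorem s4b_ml_v (I : Cell) (L : ℕ) (hL : 1 ≤ L) (u : ℝ) :
    (L : ℝ) / I.len * u + -((L : ℝ) / I.len * I.left) = (u - I.left) / (I.len / L) := by
  have hl := s4b_len_pos I
  have hLpos : (0 : ℝ) < L := by exact_mod_cast hL
  field_simp
  ring

theorem s4b_ml_mem (I : Cell) (L : ℕ) (hL : 1 ≤ L) (u : ℝ) (j : ℤ) :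
    u ∈ s4b_subZ I L j ↔ ⌊(L : ℝ) / I.len * u + -((L : ℝ) / I.len * I.left)⌋ = j := by
  have hl := s4b_len_pos I
  have hLpos : (0 : ℝ) < L := by exact_mod_cast hL
  have he : 0 < I.len / L := by positivity
  rw [s4b_ml_v I L hL, Int.floor_eq_iff, le_div_iff₀ he, div_lt_iff₀ he]
  unfold s4b_subZ
  constructor
  · rintro ⟨h1, h2⟩
    exact ⟨by linarith, by linarith⟩
  · rintro ⟨h1, h2⟩
    exact ⟨by linarith, by linarith⟩

theorem s4b_ml_union (I : Cell) (L : ℕ) (hL : 1 ≤ L) :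
    I.set = ⋃ j ∈ Finset.Ico (0 : ℤ) L, s4b_subZ I L j := by
  have hl := s4b_len_pos I
  have hLpos : (0 : ℝ) < L := by exact_mod_cast hL
  have he : 0 < I.len / L := by positivity
  have hr : I.right = I.left + I.len := by unfold Cell.right Cell.left; ring
  ext u
  simp only [Set.mem_iUnion, Finset.mem_Ico, exists_prop]
  constructor
  · intro hu
    refine ⟨⌊(L : ℝ) / I.len * u + -((L : ℝ) / I.len * I.left)⌋, ⟨?_, ?_⟩, (s4b_ml_mem I L hL u _).2 rfl⟩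
    · rw [s4b_ml_v I L hL]
      exact Int.floor_nonneg.2 (div_nonneg (by linarith [hu.1]) he.le)
    · rw [s4b_ml_v I L hL, Int.floor_lt, div_lt_iff₀ he]
      have := hu.2
      rw [hr] at this
      have e1 : ((L : ℤ) : ℝ) * (I.len / L) = I.len := by
        push_cast; field_simp
      rw [e1]; linarith
  · rintro ⟨j, ⟨hj0, hjL⟩, hu⟩
    unfold s4b_subZ at hu
    have hj0' : (0 : ℝ) ≤ j := by exact_mod_cast hj0
    have hjL' : (j : ℝ) + 1 ≤ L := by exact_mod_cast hjL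
    refine ⟨le_trans (by nlinarith) hu.1, lt_of_lt_of_le hu.2 ?_⟩
    rw [hr]
    have e1 : (L : ℝ) * (I.len / L) = I.len := by field_simp
    nlinarith

/-- exact cell averaging and the endpoint strips -/
theorem s4b_mom_lower (I : Cell) (L : ℕ) (g φ : ℝ → ℂ) (η : ℝ → ℝ) (F : ℤ → ℂ) (ε : ℝ) (hL : 1 ≤ L)
    (hm : Measurable g) (hb : SupLe I g 1) (hε : 0 < ε) (hε' : ε ≤ 1 / 4) (hη : s4b_IsEta ε η) (hF : ∀ n, ‖F n‖ ≤ 1)
    (hφ : ∀ u, conj (φ u) = (η (Int.fract ((L : ℝ) / I.len * u + -((L : ℝ) / I.len * I.left))) : ℂ) *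
      F ⌊(L : ℝ) / I.len * u + -((L : ℝ) / I.len * I.left)⌋) :
    (L : ℝ)⁻¹ * ‖∑ j ∈ Finset.Ico (0 : ℤ) L, s4b_cellAvg I L g j * F j‖ - 2 * ε ≤ ‖s4b_mom I g φ‖ := by
  have hl := s4b_len_pos I
  have hLpos : (0 : ℝ) < L := by exact_mod_cast hL
  have he : 0 < I.len / L := by positivity
  set e : ℝ := I.len / L with he_def
  set v : ℝ → ℝ := fun u => (L : ℝ) / I.len * u + -((L : ℝ) / I.len * I.left) with hv
  have hvm : Measurable v := (measurable_const.mul measurable_id).add measurable_const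
  have hsubI : ∀ j ∈ Finset.Ico (0 : ℤ) L, s4b_subZ I L j ⊆ I.set := by
    intro j hj u hu
    rw [s4b_ml_union I L hL]
    simp only [Set.mem_iUnion, exists_prop]
    exact ⟨j, hj, hu⟩
  have hGm : Measurable (fun u => g u * conj (φ u)) := by
    have : (fun u => g u * conj (φ u)) = fun u => g u * ((η (Int.fract (v u)) : ℂ) * F ⌊v u⌋) := by
      funext u; rw [hφ u]
    rw [this]
    exact hm.mul ((Complex.measurable_ofReal.comp (hη.1.measurable.comp (measurable_fract.comp hvm))).mul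
      ((measurable_from_top : Measurable F).comp (Int.measurable_floor.comp hvm)))
  have hφb : ∀ u, ‖conj (φ u)‖ ≤ 1 := by
    intro u
    rw [hφ u, norm_mul, Complex.norm_real, Real.norm_eq_abs, abs_of_nonneg (hη.2.1 _).1]
    exact mul_le_one₀ (hη.2.1 _).2 (norm_nonneg _) (hF _)
  have hfinJ : ∀ j : ℤ, volume (s4b_subZ I L j) ≠ (⊤ : ℝ≥0∞) := by
    intro j; unfold s4b_subZ; simp
  have hGi : ∀ j ∈ Finset.Ico (0 : ℤ) L, IntegrableOn (fun u => g u * conj (φ u)) (s4b_subZ I L j) := by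
    intro j hj
    refine Measure.integrableOn_of_bounded (M := 1) (hfinJ j) hGm.aestronglyMeasurable ?_
    refine (ae_restrict_iff' measurableSet_Ico).2 (Filter.Eventually.of_forall fun u hu => ?_)
    rw [norm_mul]
    exact mul_le_one₀ (hb u (hsubI j hj hu)) (norm_nonneg _) (hφb u)
  have hgi : ∀ j ∈ Finset.Ico (0 : ℤ) L, IntegrableOn g (s4b_subZ I L j) := by
    intro j hj
    refine Measure.integrableOn_of_bounded (M := 1) (hfinJ j) hm.aestronglyMeasurable ?_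
    exact (ae_restrict_iff' measurableSet_Ico).2 (Filter.Eventually.of_forall fun u hu => hb u (hsubI j hj hu))
  -- the decomposition of the integral
  have hsplit : ∫ u in I.set, g u * conj (φ u) = ∑ j ∈ Finset.Ico (0 : ℤ) L, ∫ u in s4b_subZ I L j, g u * conj (φ u) := by
    rw [s4b_ml_union I L hL]
    refine integral_biUnion_finset _ (fun j _ => measurableSet_Ico) ?_ hGi
    intro i _ j _ hij
    refine Set.disjoint_left.2 fun u hu hu' => hij ?_
    rw [← (s4b_ml_mem I L hL u i).1 hu, ← (s4b_ml_mem I L hL u j).1 hu']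
  -- each piece
  have hpiece : ∀ j ∈ Finset.Ico (0 : ℤ) L,
      ‖(∫ u in s4b_subZ I L j, g u * conj (φ u)) - (e : ℂ) * (s4b_cellAvg I L g j * F j)‖ ≤ 2 * ε * e := by
    intro j hj
    have h1 : (e : ℂ) * (s4b_cellAvg I L g j * F j) = ∫ u in s4b_subZ I L j, g u * F j := by
      rw [integral_mul_const]
      unfold s4b_cellAvg
      have h2 : ∫ y in s4b_subZ I L j, I.set.indicator g y = ∫ y in s4b_subZ I L j, g y :=
        setIntegral_congr_fun measurableSet_Ico (fun y hy => Set.indicator_of_mem (hsubI j hj hy) g)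
      rw [h2, ← mul_assoc, ← mul_assoc, ← Complex.ofReal_mul]
      have h3 : e * ((L : ℝ) / I.len) = 1 := by rw [he_def]; field_simp
      rw [h3, Complex.ofReal_one, one_mul]
    rw [h1, ← integral_sub (hGi j hj) ((hgi j hj).mul_const _)]
    have hJ : s4b_subZ I L j = Set.Ico (I.left + j * e) (I.left + j * e + e) := by
      unfold s4b_subZ; congr 1; ring
    have hform : ∀ u ∈ s4b_subZ I L j, g u * conj (φ u) - g u * F j = g u * (((η (Int.fract (v u)) : ℝ) : ℂ) - 1) * F j := by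
      intro u hu
      rw [hφ u, (s4b_ml_mem I L hL u j).1 hu]
      ring
    rw [hJ]
    refine s4b_ml_piece _ e ε he hε hε' _ ?_ ?_
    · intro u hu
      rw [← hJ] at hu
      rw [hform u hu, norm_mul, norm_mul]
      have h4 : ‖((η (Int.fract (v u)) : ℝ) : ℂ) - 1‖ ≤ 1 := by
        rw [← Complex.ofReal_one, ← Complex.ofReal_sub, Complex.norm_real, Real.norm_eq_abs, abs_le]
        constructor <;> linarith [(hη.2.1 (Int.fract (v u))).1, (hη.2.1 (Int.fract (v u))).2]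
      exact mul_le_one₀ (mul_le_one₀ (hb u (hsubI j hj hu)) (norm_nonneg _) h4) (norm_nonneg _) (hF _)
    · intro u hu1 hu2
      have hu : u ∈ s4b_subZ I L j := by
        rw [hJ]
        exact ⟨by nlinarith, by nlinarith⟩
      rw [hform u hu]
      have hfl := (s4b_ml_mem I L hL u j).1 hu
      have hfr : Int.fract (v u) = (u - I.left) / e - j := by
        unfold Int.fract
        rw [hfl]
        rw [hv]
        simp only
        rw [s4b_ml_v I L hL]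
      have h5 : η (Int.fract (v u)) = 1 := by
        apply hη.2.2
        · rw [hfr, le_sub_iff_add_le, le_div_iff₀ he]; linarith
        · rw [hfr, sub_le_iff_le_add, div_le_iff₀ he]; linarith
      rw [h5]; simp
  -- conclusion
  have hsum : ‖(∫ u in I.set, g u * conj (φ u)) - (e : ℂ) * ∑ j ∈ Finset.Ico (0 : ℤ) L, s4b_cellAvg I L g j * F j‖
      ≤ (L : ℝ) * (2 * ε * e) := by
    rw [hsplit, Finset.mul_sum, ← Finset.sum_sub_distrib]
    refine le_trans (norm_sum_le _ _) (le_trans (Finset.sum_le_sum hpiece) ?_)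
    rw [Finset.sum_const, Int.card_Ico, nsmul_eq_mul]
    simp
  unfold s4b_mom
  rw [norm_mul, Complex.norm_real, Real.norm_eq_abs, abs_of_pos (inv_pos.2 hl)]
  have h6 : e * ‖∑ j ∈ Finset.Ico (0 : ℤ) L, s4b_cellAvg I L g j * F j‖ - (L : ℝ) * (2 * ε * e) ≤
      ‖∫ u in I.set, g u * conj (φ u)‖ := by
    have h7 := norm_sub_norm_le ((e : ℂ) * ∑ j ∈ Finset.Ico (0 : ℤ) L, s4b_cellAvg I L g j * F j)
      (∫ u in I.set, g u * conj (φ u))
    rw [norm_sub_rev, norm_mul, Complex.norm_real, Real.norm_eq_abs, abs_of_pos he] at h7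
    linarith
  have h8 : (L : ℝ)⁻¹ * ‖∑ j ∈ Finset.Ico (0 : ℤ) L, s4b_cellAvg I L g j * F j‖ - 2 * ε =
      I.len⁻¹ * (e * ‖∑ j ∈ Finset.Ico (0 : ℤ) L, s4b_cellAvg I L g j * F j‖ - (L : ℝ) * (2 * ε * e)) := by
    rw [he_def]; field_simp
  rw [h8]
  exact mul_le_mul_of_nonneg_left h6 (inv_pos.2 hl).le

/-- discretization step: some `L ≥ 1` has a large cube sum of cell averages -/
theorem s4b_exists_L (I : Cell) (g : ℝ → ℂ) (hm : Measurable g) (hb : SupLe I g 1) (δ δ' : ℝ) (hδ' : 0 < δ') (hδ : δ' < δ)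
    (hU : δ ^ 8 ≤ s4b_U8 I g) :
    ∃ L : ℕ, 1 ≤ L ∧ δ' ^ 8 * (L : ℝ) ^ 4 ≤ (s4b_cubeSum L (s4b_cellAvg I L g)).re := by
  have hl := s4b_len_pos I
  have ht := (Complex.continuous_re.tendsto _).comp (s4b_disc I g hm hb)
  have hlim : I.len ^ 4 * δ' ^ 8 < (s4b_cubeInt (I.set.indicator g)).re := by
    have h1 : I.len ^ 4 * δ ^ 8 ≤ (s4b_cubeInt (I.set.indicator g)).re := by
      unfold s4b_U8 at hU
      have h4 : 0 < I.len ^ 4 := by positivity
      calc I.len ^ 4 * δ ^ 8 ≤ I.len ^ 4 * ((I.len ^ 4)⁻¹ * (s4b_cubeInt (I.set.indicator g)).re) := by gcongr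
        _ = (s4b_cubeInt (I.set.indicator g)).re := by field_simp
    have h2 : δ' ^ 8 < δ ^ 8 := by gcongr
    have h4 : 0 < I.len ^ 4 := by positivity
    nlinarith
  have hev := (ht.eventually_const_lt hlim).and (Filter.eventually_ge_atTop 1)
  obtain ⟨L, hL, hL1⟩ := hev.exists
  refine ⟨L, hL1, ?_⟩
  simp only [Function.comp, Complex.re_ofReal_mul] at hL
  have hLpos : (0 : ℝ) < L := by exact_mod_cast hL1
  have e : (I.len / L) ^ 4 = I.len ^ 4 / (L : ℝ) ^ 4 := by rw [div_pow]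
  rw [e] at hL
  have h4 : 0 < I.len ^ 4 := by positivity
  have hL4 : 0 < (L : ℝ) ^ 4 := by positivity
  have h5 : I.len ^ 4 * (δ' ^ 8 * (L : ℝ) ^ 4) < I.len ^ 4 * (s4b_cubeSum L (s4b_cellAvg I L g)).re := by
    have := mul_lt_mul_of_pos_right hL hL4
    calc I.len ^ 4 * (δ' ^ 8 * (L : ℝ) ^ 4) = I.len ^ 4 * δ' ^ 8 * (L : ℝ) ^ 4 := by ring
      _ < I.len ^ 4 / (L : ℝ) ^ 4 * (s4b_cubeSum L (s4b_cellAvg I L g)).re * (L : ℝ) ^ 4 := this
      _ = I.len ^ 4 * (s4b_cubeSum L (s4b_cellAvg I L g)).re := by field_simp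
  exact (lt_of_mul_lt_mul_left h5 h4.le).le

/-- **Continuous bounded inverse theorem** (Lemma 4.9) -/
theorem s4b_cont_inverse (hU3 : s4b_U3Target) : ∃ C : ℕ, ∀ (δ : ℝ) (I : Cell) (g : ℝ → ℂ), 0 < δ → δ < 1 / 2 →
    Measurable g → SupLe I g 1 → δ ^ 8 ≤ s4b_U8 I g →
    ∃ a : Chart, a.Bdd ∧ a.Cplx (s4b_qp C (Real.log (1 / δ))) ∧
      (s4b_qp C (Real.log (1 / δ)))⁻¹ ≤ ‖s4b_mom I g a.eval‖ := by
  obtain ⟨C₀, h₀⟩ := hU3
  obtain ⟨C₁, h₁⟩ := s4b_atomize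
  obtain ⟨C, hC⟩ := s4b_qp_poly (max C₁ 1) (3 + ((max C₀ 2 : ℕ) : ℝ) * 2 ^ (max C₀ 2)) (max C₀ 2)
  refine ⟨C, fun δ I g hδ0 hδ2 hm hb hU => ?_⟩
  set x : ℝ := Real.log (1 / δ) with hx
  have hx0 : 0 ≤ x := Real.log_nonneg (by rw [le_div_iff₀ hδ0]; linarith)
  have hl := s4b_len_pos I
  obtain ⟨L, hL1, hLc⟩ := s4b_exists_L I g hm hb δ (δ / 2) (by linarith) (by linarith) hU
  have hLpos : (0 : ℝ) < L := by exact_mod_cast hL1
  set x' : ℝ := Real.log (1 / (δ / 2)) with hx'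
  have hxx' : x' = Real.log 2 + x := by
    rw [hx', hx, ← Real.log_mul (by norm_num) (by positivity)]
    congr 1
    field_simp
  have hlog2 : 0 ≤ Real.log 2 := Real.log_nonneg (by norm_num)
  have hlog2' : Real.log 2 ≤ 1 := by
    have := Real.log_two_lt_d9
    linarith
  have hx'0 : 0 ≤ x' := by rw [hxx']; linarith
  obtain ⟨d, θ, α, y, lam, β, ρ, κ, hd, hρ, hρ', hκ, hmain⟩ := h₀ L (δ / 2) (s4b_cellAvg I L g) (by linarith) (by linarith) hL1
    (s4b_cellAvg_norm_le I L g hL1 hb) (fun n hn => s4b_cellAvg_supp I L g hL1 n hn) hLc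
  set H₀ : ℝ := s4b_qp (max C₀ 2) x' with hH₀
  have hq0 : s4b_qp C₀ x' ≤ H₀ := s4b_qp_mono (le_max_left _ _) hx'0 le_rfl
  have hq0pos : 0 < s4b_qp C₀ x' := s4b_qp_pos _ _
  have hH₀e : Real.exp 2 ≤ H₀ := s4b_exp_two_le_qp (le_max_right _ _) hx'0
  have hH₀1 : 1 ≤ H₀ := s4b_one_le_qp _ hx'0
  have hH₀pos : 0 < H₀ := by linarith
  set H : ℝ := 8 * H₀ with hH
  have hHH₀ : H₀ ≤ H := by rw [hH]; linarith
  have hHpos : 0 < H := by linarith
  have hH8 : 8 ≤ H := by rw [hH]; linarith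
  have hinv : H⁻¹ ≤ H₀⁻¹ := inv_anti₀ hH₀pos hHH₀
  have hinv0 : H₀⁻¹ ≤ (s4b_qp C₀ x')⁻¹ := inv_anti₀ hq0pos hq0
  have hinv8 : H⁻¹ ≤ 1 / 8 := by
    rw [one_div]; exact inv_anti₀ (by norm_num) hH8
  have hlogH : Real.log H₀ ≤ Real.log H := Real.log_le_log hH₀pos hHH₀
  have hdH : (d : ℝ) ≤ Real.log H := by
    refine le_trans hd (le_trans ?_ hlogH)
    have := Real.log_le_log hq0pos hq0
    rwa [s4b_log_qp] at this
  obtain ⟨χ, η, A, hχ, hη, hA, hAb, hAe⟩ := h₁ d θ α y lam β ρ (min κ (1 / 2)) H⁻¹ H ((L : ℝ) / I.len)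
    (-((L : ℝ) / I.len * I.left)) (hH₀e.trans hHH₀) hdH (hinv.trans (hinv0.trans hρ)) hρ'
    (le_min (hinv.trans (hinv0.trans hκ)) (by linarith)) (min_le_right _ _) le_rfl (by linarith)
  set F : ℤ → ℂ := fun n => (χ (fun j => s4b_fr (θ j * ((n : ℝ) - y))) : ℂ) * ee (-(s4b_brPhase θ α lam β y n)) with hF
  have hFn : ∀ n, ‖F n‖ ≤ 1 := by
    intro n
    rw [hF]
    simp only [norm_mul, gev_ee_norm, mul_one, Complex.norm_real]
    have a2 := hχ.1 (fun j => s4b_fr (θ j * ((n : ℝ) - y)))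
    rw [Real.norm_of_nonneg a2.1]
    exact a2.2
  have hρ0 : 0 ≤ ρ := le_trans (inv_nonneg.mpr hq0pos.le) hρ
  have hsum := hmain χ hχ.1
    (fun t ht => hχ.2.1 t (fun j => le_trans (ht j) (by
      have : min κ (1 / 2) ≤ κ := min_le_left _ _
      nlinarith)))
    (fun t ⟨j, hj⟩ => hχ.2.2 t ⟨j, hj.le⟩)
  have hsum' : (L : ℝ) * (s4b_qp C₀ x')⁻¹ ≤ ‖∑ j ∈ Finset.Ico (0 : ℤ) L, s4b_cellAvg I L g j * F j‖ := by
    refine le_trans hsum (le_of_eq ?_)
    congr 1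
    exact Finset.sum_congr rfl (fun n _ => by rw [hF]; ring)
  have hlow := s4b_mom_lower I L g A.eval η F H⁻¹ hL1 hm hb (inv_pos.mpr hHpos) (by linarith) hη hFn (by
    intro u
    rw [hAe u, hF]
    simp only [map_mul, Complex.conj_ofReal, gev_ee_neg]
    ring)
  have hHlog0 : 0 ≤ Real.log H := Real.log_nonneg (by linarith)
  have hlogHle : Real.log H ≤ (3 + ((max C₀ 2 : ℕ) : ℝ) * 2 ^ (max C₀ 2)) * (1 + x) ^ (max C₀ 2) := by
    rw [hH, Real.log_mul (by norm_num) hH₀pos.ne', hH₀, s4b_log_qp, hxx']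
    have h8 : Real.log 8 ≤ 3 := by
      have : (8 : ℝ) = 2 ^ 3 := by norm_num
      rw [this, Real.log_pow]
      push_cast
      linarith
    have h1 : (1 : ℝ) ≤ (1 + x) ^ (max C₀ 2) := one_le_pow₀ (by linarith)
    have h2 : (1 + (Real.log 2 + x)) ^ (max C₀ 2) ≤ 2 ^ (max C₀ 2) * (1 + x) ^ (max C₀ 2) := by
      rw [← mul_pow]
      gcongr
      linarith
    have h3 : (0 : ℝ) ≤ ((max C₀ 2 : ℕ) : ℝ) := Nat.cast_nonneg _
    calc Real.log 8 + ((max C₀ 2 : ℕ) : ℝ) * (1 + (Real.log 2 + x)) ^ (max C₀ 2)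
        ≤ 3 * (1 + x) ^ (max C₀ 2) + ((max C₀ 2 : ℕ) : ℝ) * (2 ^ (max C₀ 2) * (1 + x) ^ (max C₀ 2)) := by
          gcongr
          linarith
      _ = _ := by ring
  have hD1 : s4b_qp (max C₁ 1) (Real.log H) ≤ s4b_qp C x := hC x _ hx0 hHlog0 hlogHle
  have hD2 : s4b_qp C₁ (Real.log H) ≤ s4b_qp C x := le_trans (s4b_qp_mono (le_max_left _ _) hHlog0 le_rfl) hD1
  have hD3 : H ≤ s4b_qp C x := le_trans (s4b_le_qp_log (le_max_right _ _) (by linarith)) hD1
  refine ⟨A, hAb, s4b_cplx_mono hA hD2, ?_⟩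
  have hfin : H⁻¹ ≤ ‖s4b_mom I g A.eval‖ := by
    refine le_trans ?_ hlow
    have h1 : (s4b_qp C₀ x')⁻¹ ≤ (L : ℝ)⁻¹ * ‖∑ j ∈ Finset.Ico (0 : ℤ) L, s4b_cellAvg I L g j * F j‖ := by
      rw [inv_mul_eq_div, le_div_iff₀ hLpos]
      linarith
    have h2 : H⁻¹ = H₀⁻¹ / 8 := by
      rw [hH, mul_inv]; ring
    have h3 : 0 < H₀⁻¹ := inv_pos.mpr hH₀pos
    linarith
  exact le_trans (inv_anti₀ hHpos hD3) hfin

end Claimed.Agent.R258
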