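import Claimed.Agent.R258.Pack012

set_option autoImplicit false
open MeasureTheory
open scoped ENNReal ContDiff ComplexConjugate

namespace Claimed.Agent.R258

/-- bounded measurable function with bounded support -/
structure s4b_Nice {α E : Type*} [NormedAddCommGroup α] [MeasurableSpace α] [NormedAddCommGroup E] [MeasurableSpace E]
    (f : α → E) : Prop where
  meas : Measurable f
  bdd : ∃ M : ℝ, ∀ x, ‖f x‖ ≤ M
  supp : ∃ r : ℝ, ∀ x, f x ≠ 0 → ‖x‖ ≤ r

section nice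
variable {α β E : Type*} [NormedAddCommGroup α] [MeasurableSpace α] [NormedAddCommGroup β] [MeasurableSpace β]
  [NormedAddCommGroup E] [MeasurableSpace E]

theorem s4b_Nice.integrable [BorelSpace α] [ProperSpace α] [BorelSpace E] [SecondCountableTopology E]
    {μ : Measure α} [IsFiniteMeasureOnCompacts μ] {f : α → E} (h : s4b_Nice f) : Integrable f μ := by
  obtain ⟨M, hM⟩ := h.bdd
  obtain ⟨r, hr⟩ := h.supp
  have h1 : IntegrableOn f (Metric.closedBall 0 r) μ :=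
    Measure.integrableOn_of_bounded (M := M) (isCompact_closedBall 0 r).measure_lt_top.ne
      h.meas.aestronglyMeasurable (Filter.Eventually.of_forall hM)
  refine h1.integrable_of_forall_notMem_eq_zero fun x hx => ?_
  by_contra hne
  exact hx (by simpa using hr x hne)

theorem s4b_Nice.comp {f : α → E} (h : s4b_Nice f) {φ : β → α} (hφ : Measurable φ)
    (hp : ∀ r : ℝ, ∃ r' : ℝ, ∀ x, ‖φ x‖ ≤ r → ‖x‖ ≤ r') : s4b_Nice (fun x => f (φ x)) := by
  obtain ⟨M, hM⟩ := h.bdd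
  obtain ⟨r, hr⟩ := h.supp
  obtain ⟨r', hr'⟩ := hp r
  exact ⟨h.meas.comp hφ, ⟨M, fun x => hM _⟩, ⟨r', fun x hx => hr' x (hr _ hx)⟩⟩

theorem s4b_Nice.sec_left {f : α × β → E} (h : s4b_Nice f) (a : α) : s4b_Nice (fun b => f (a, b)) :=
  h.comp measurable_prodMk_left fun r => ⟨r, fun x hx => (norm_snd_le (a, x)).trans hx⟩

theorem s4b_Nice.sec_right {f : α × β → E} (h : s4b_Nice f) (b : β) : s4b_Nice (fun a => f (a, b)) :=
  h.comp measurable_prodMk_right fun r => ⟨r, fun x hx => (norm_fst_le (x, b)).trans hx⟩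

theorem s4b_Nice.swap {f : α × β → E} (h : s4b_Nice f) : s4b_Nice (fun p : β × α => f (p.2, p.1)) :=
  h.comp measurable_swap fun r => ⟨r, fun x hx => by
    rw [Prod.norm_def] at hx ⊢
    rw [max_comm]; exact hx⟩

theorem s4b_Nice.norm_sq {f : α → E} [BorelSpace E] (h : s4b_Nice f) : s4b_Nice (fun x => ‖f x‖ ^ 2) := by
  obtain ⟨M, hM⟩ := h.bdd
  obtain ⟨r, hr⟩ := h.supp
  refine ⟨h.meas.norm.pow_const 2, ⟨M ^ 2, fun x => ?_⟩, ⟨r, fun x hx => hr x ?_⟩⟩
  · rw [Real.norm_eq_abs, abs_of_nonneg (sq_nonneg _)]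
    exact pow_le_pow_left₀ (norm_nonneg _) (hM x) 2
  · intro h0; apply hx; simp [h0]

theorem s4b_Nice.integral_right [NormedSpace ℝ E] [BorelSpace E] [SecondCountableTopology E]
    {f : α × ℝ → E} (h : s4b_Nice f) : s4b_Nice (fun a => ∫ t, f (a, t)) := by
  obtain ⟨M, hM⟩ := h.bdd
  obtain ⟨r, hr⟩ := h.supp
  refine ⟨(h.meas.stronglyMeasurable.integral_prod_right').measurable,
    ⟨∫ t, (Set.Icc (-r) r).indicator (fun _ => M) t, fun a => ?_⟩, ⟨r, fun a ha => ?_⟩⟩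
  · refine norm_integral_le_of_norm_le
      ((integrable_indicator_iff measurableSet_Icc).2 (integrableOn_const (by simp) (by simp)))
      (Filter.Eventually.of_forall fun t => ?_)
    by_cases ht : t ∈ Set.Icc (-r) r
    · rw [Set.indicator_of_mem ht]; exact hM _
    · rw [Set.indicator_of_notMem ht]
      have : f (a, t) = 0 := by
        by_contra hne
        apply ht
        have := (norm_snd_le (a, t)).trans (hr _ hne)
        exact abs_le.mp this
      rw [this, norm_zero]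
  · by_contra hcon
    apply ha
    have : ∀ t, f (a, t) = 0 := by
      intro t
      by_contra hne
      exact hcon ((norm_fst_le (a, t)).trans (hr _ hne))
    simp [this]

end nice

section niceC
variable {α : Type*} [NormedAddCommGroup α] [MeasurableSpace α]

theorem s4b_Nice.mul_bdd {𝕂 : Type*} [NormedRing 𝕂] [MeasurableSpace 𝕂] [BorelSpace 𝕂] [SecondCountableTopology 𝕂]
    {f g : α → 𝕂} (h : s4b_Nice f) (hg : Measurable g)
    (hb : ∃ M : ℝ, ∀ x, ‖g x‖ ≤ M) : s4b_Nice (fun x => f x * g x) := by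
  obtain ⟨M, hM⟩ := h.bdd
  obtain ⟨r, hr⟩ := h.supp
  obtain ⟨M', hM'⟩ := hb
  refine ⟨h.meas.mul hg, ⟨M * M', fun x => ?_⟩, ⟨r, fun x hx => hr x ?_⟩⟩
  · exact (norm_mul_le _ _).trans (mul_le_mul (hM x) (hM' x) (norm_nonneg _) ((norm_nonneg _).trans (hM x)))
  · intro h0; apply hx; simp [h0]

theorem s4b_Nice.bdd_mul {𝕂 : Type*} [NormedRing 𝕂] [MeasurableSpace 𝕂] [BorelSpace 𝕂] [SecondCountableTopology 𝕂]
    {f g : α → 𝕂} (h : s4b_Nice f) (hg : Measurable g)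
    (hb : ∃ M : ℝ, ∀ x, ‖g x‖ ≤ M) : s4b_Nice (fun x => g x * f x) := by
  obtain ⟨M, hM⟩ := h.bdd
  obtain ⟨r, hr⟩ := h.supp
  obtain ⟨M', hM'⟩ := hb
  refine ⟨hg.mul h.meas, ⟨M' * M, fun x => ?_⟩, ⟨r, fun x hx => hr x ?_⟩⟩
  · exact (norm_mul_le _ _).trans (mul_le_mul (hM' x) (hM x) (norm_nonneg _) ((norm_nonneg _).trans (hM' x)))
  · intro h0; apply hx; simp [h0]

theorem s4b_Nice.mul {𝕂 : Type*} [NormedRing 𝕂] [MeasurableSpace 𝕂] [BorelSpace 𝕂] [SecondCountableTopology 𝕂]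
    {f g : α → 𝕂} (h : s4b_Nice f) (hg : s4b_Nice g) : s4b_Nice (fun x => f x * g x) :=
  h.mul_bdd hg.meas hg.bdd

theorem s4b_Nice.conj {f : α → ℂ} (h : s4b_Nice f) : s4b_Nice (fun x => conj (f x)) := by
  obtain ⟨M, hM⟩ := h.bdd
  obtain ⟨r, hr⟩ := h.supp
  refine ⟨Complex.continuous_conj.measurable.comp h.meas, ⟨M, fun x => ?_⟩, ⟨r, fun x hx => hr x ?_⟩⟩
  · rw [RCLike.norm_conj]; exact hM x
  · intro h0; apply hx; simp [h0]

end niceC

/-! ## Cauchy-Schwarz, affine substitutions -/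

theorem s4b_Nice.memLp_two {α : Type*} [NormedAddCommGroup α] [MeasurableSpace α] [BorelSpace α] [ProperSpace α]
    {μ : Measure α} [IsFiniteMeasureOnCompacts μ] {f : α → ℂ} (h : s4b_Nice f) : MemLp f 2 μ :=
  (memLp_two_iff_integrable_sq_norm h.meas.aestronglyMeasurable).2 h.norm_sq.integrable

theorem s4b_cs {α : Type*} [MeasurableSpace α] (μ : Measure α) (f g : α → ℂ) (hfL : MemLp f 2 μ) (hgL : MemLp g 2 μ) :
    ‖∫ y, f y * g y ∂μ‖ ^ 2 ≤ (∫ y, ‖f y‖ ^ 2 ∂μ) * ∫ y, ‖g y‖ ^ 2 ∂μ := by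
  have h1 : ‖∫ y, f y * g y ∂μ‖ ≤ ∫ y, ‖f y‖ * ‖g y‖ ∂μ := by
    refine (norm_integral_le_integral_norm _).trans (le_of_eq ?_)
    simp only [norm_mul]
  have h2 := integral_mul_le_Lp_mul_Lq_of_nonneg (μ := μ) (p := 2) (q := 2) Real.HolderConjugate.two_two
    (f := fun y => ‖f y‖) (g := fun y => ‖g y‖) (Filter.Eventually.of_forall fun _ => norm_nonneg _)
    (Filter.Eventually.of_forall fun _ => norm_nonneg _)
    (by simpa using hfL.norm) (by simpa using hgL.norm)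
  have h3 : ‖∫ y, f y * g y ∂μ‖ ≤ Real.sqrt (∫ y, ‖f y‖ ^ 2 ∂μ) * Real.sqrt (∫ y, ‖g y‖ ^ 2 ∂μ) := by
    refine h1.trans (h2.trans (le_of_eq ?_))
    simp only [Real.rpow_two, Real.sqrt_eq_rpow]
  have hA : 0 ≤ ∫ y, ‖f y‖ ^ 2 ∂μ := integral_nonneg fun _ => sq_nonneg _
  have hB : 0 ≤ ∫ y, ‖g y‖ ^ 2 ∂μ := integral_nonneg fun _ => sq_nonneg _
  calc ‖∫ y, f y * g y ∂μ‖ ^ 2 ≤ (Real.sqrt (∫ y, ‖f y‖ ^ 2 ∂μ) * Real.sqrt (∫ y, ‖g y‖ ^ 2 ∂μ)) ^ 2 :=
        pow_le_pow_left₀ (norm_nonneg _) h3 2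
    _ = _ := by rw [mul_pow, Real.sq_sqrt hA, Real.sq_sqrt hB]

theorem s4b_integral_mul_conj {α : Type*} [MeasurableSpace α] (μ : Measure α) (h : α → ℂ) :
    ∫ x, h x * conj (h x) ∂μ = ((∫ x, ‖h x‖ ^ 2 ∂μ : ℝ) : ℂ) := by
  rw [← integral_complex_ofReal]
  refine integral_congr_ae (Filter.Eventually.of_forall fun x => ?_)
  simp only [Complex.mul_conj, Complex.normSq_eq_norm_sq]

theorem s4b_integral_affine {E : Type*} [NormedAddCommGroup E] [NormedSpace ℝ E] (φ : ℝ → E) (y c : ℝ) :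
    ∫ s, φ (y + c * s) = |c⁻¹| • ∫ u, φ u := by
  rw [Measure.integral_comp_mul_left (fun u => φ (y + u)) c, integral_add_left_eq_self]

/-! ## Fubini for nice functions -/

theorem s4b_Nice.integral_prod2 {E : Type*} [NormedAddCommGroup E] [NormedSpace ℝ E] [MeasurableSpace E] [BorelSpace E]
    [SecondCountableTopology E] {f : ℝ × ℝ → E} (h : s4b_Nice f) : ∫ p, f p = ∫ s, ∫ y, f (s, y) :=
  integral_prod f h.integrable

theorem s4b_Nice.integral_swap2 {E : Type*} [NormedAddCommGroup E] [NormedSpace ℝ E] [MeasurableSpace E] [BorelSpace E]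
    [SecondCountableTopology E] {f : ℝ × ℝ → E} (h : s4b_Nice f) : ∫ s, ∫ y, f (s, y) = ∫ y, ∫ s, f (s, y) :=
  integral_integral_swap (f := fun s y => f (s, y)) h.integrable

theorem s4b_Nice.integral_prod3 {E : Type*} [NormedAddCommGroup E] [NormedSpace ℝ E] [MeasurableSpace E] [BorelSpace E]
    [SecondCountableTopology E] {f : ℝ × (ℝ × ℝ) → E} (h : s4b_Nice f) :
    ∫ p, f p = ∫ s, ∫ s', ∫ y, f (s, (s', y)) := by
  have h1 : ∫ p, f p = ∫ s, ∫ q : ℝ × ℝ, f (s, q) := integral_prod f h.integrable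
  rw [h1]
  refine integral_congr_ae (Filter.Eventually.of_forall fun s => ?_)
  exact (h.sec_left s).integral_prod2

/-- expansion of a square -/
theorem s4b_sq_expand (E : ℝ × ℝ → ℂ) (hE : s4b_Nice E) (q : ℝ) :
    ∫ y, (∫ t, E (y, t)) * conj (∫ t, E (y, t))
      = ∫ s, ∫ y, ∫ t, E (y - q * t, t) * conj (E (y - q * t, t + s)) := by
  set W : (ℝ × ℝ) × ℝ → ℂ := fun p => E (p.1.1, p.1.2) * conj (E (p.1.1, p.1.2 + p.2)) with hW
  have hWn : s4b_Nice W := by
    obtain ⟨M, hM⟩ := hE.bdd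
    obtain ⟨r, hr⟩ := hE.supp
    have hm := hE.meas
    refine ⟨?_, ⟨M * M, fun p => ?_⟩, ⟨2 * r, fun p hp => ?_⟩⟩
    · refine (hm.comp (by fun_prop)).mul (Complex.continuous_conj.measurable.comp (hm.comp (by fun_prop)))
    · simp only [hW, norm_mul, RCLike.norm_conj]
      exact mul_le_mul (hM _) (hM _) (norm_nonneg _) ((norm_nonneg _).trans (hM (p.1.1, p.1.2)))
    · have h1 : E (p.1.1, p.1.2) ≠ 0 := fun h0 => hp (by simp [hW, h0])
      have h2 : E (p.1.1, p.1.2 + p.2) ≠ 0 := fun h0 => hp (by simp [hW, h0])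
      have k1 := hr _ h1
      have k2 := hr _ h2
      have k3 : ‖p.1.2‖ ≤ r := (norm_snd_le (p.1.1, p.1.2)).trans k1
      have k4 : ‖p.1.2 + p.2‖ ≤ r := (norm_snd_le (p.1.1, p.1.2 + p.2)).trans k2
      have k5 : ‖p.2‖ ≤ 2 * r := by
        have : p.2 = (p.1.2 + p.2) - p.1.2 := by ring
        rw [this]
        exact (norm_sub_le _ _).trans (by linarith)
      have k6 : ‖p.1‖ ≤ 2 * r := by
        have : (0 : ℝ) ≤ r := (norm_nonneg _).trans k1
        have e : p.1 = (p.1.1, p.1.2) := rfl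
        rw [e]; linarith
      rw [Prod.norm_def]
      exact max_le k6 k5
  -- step a
  have ha : ∀ y, (∫ t, E (y, t)) * conj (∫ t, E (y, t)) = ∫ t, ∫ s, W ((y, t), s) := by
    intro y
    have e1 : ∀ t, ∫ s, W ((y, t), s) = E (y, t) * conj (∫ t', E (y, t')) := by
      intro t
      simp only [hW]
      rw [integral_const_mul, integral_conj, integral_add_left_eq_self (fun t' => E (y, t')) t]
    simp only [e1]
    rw [integral_mul_const]
  simp only [ha]
  -- step b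
  have hb : ∫ y, ∫ t, ∫ s, W ((y, t), s) = ∫ s, ∫ t, ∫ y, W ((y, t), s) := by
    rw [← hWn.integral_right.integral_prod2]
    rw [integral_integral_swap (f := fun (p : ℝ × ℝ) (s : ℝ) => W (p, s)) hWn.integrable]
    refine integral_congr_ae (Filter.Eventually.of_forall fun s => ?_)
    show ∫ p : ℝ × ℝ, W (p, s) = _
    rw [(hWn.sec_right s).integral_prod2, (hWn.sec_right s).integral_swap2]
  rw [hb]
  refine integral_congr_ae (Filter.Eventually.of_forall fun s => ?_)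
  show ∫ t, ∫ y, W ((y, t), s) = ∫ y, ∫ t, E (y - q * t, t) * conj (E (y - q * t, t + s))
  have hc : ∀ t, ∫ y, W ((y, t), s) = ∫ y, W ((y - q * t, t), s) := by
    intro t
    rw [integral_sub_right_eq_self (fun y => W ((y, t), s)) (q * t)]
  simp only [hc]
  have hn : s4b_Nice (fun p : ℝ × ℝ => W ((p.2 - q * p.1, p.1), s)) := by
    refine (hWn.sec_right s).comp (φ := fun p : ℝ × ℝ => (p.2 - q * p.1, p.1)) (by fun_prop) fun r => ?_
    refine ⟨r + |q| * r, fun p hp => ?_⟩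
    have k1 : ‖p.2 - q * p.1‖ ≤ r := (norm_fst_le (p.2 - q * p.1, p.1)).trans hp
    have k2 : ‖p.1‖ ≤ r := (norm_snd_le (p.2 - q * p.1, p.1)).trans hp
    have hr0 : 0 ≤ r := (norm_nonneg _).trans k2
    have k3 : ‖p.2‖ ≤ r + |q| * r := by
      have : p.2 = (p.2 - q * p.1) + q * p.1 := by ring
      rw [this]
      refine (norm_add_le _ _).trans (add_le_add k1 ?_)
      rw [norm_mul, Real.norm_eq_abs q]
      exact mul_le_mul_of_nonneg_left k2 (abs_nonneg _)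
    rw [Prod.norm_def]
    exact max_le (k2.trans (by nlinarith [abs_nonneg q])) k3
  exact hn.integral_swap2

/-- volume computation -/
theorem s4b_integral_pair (φ ψ : ℝ → ℝ) (hφ : s4b_Nice φ) (hψ : s4b_Nice ψ) (c : ℝ) (hc : 1 ≤ |c|) :
    s4b_Nice (fun p : ℝ × ℝ => φ p.2 * ψ (p.2 + c * p.1)) ∧
    ∫ s, ∫ y, φ y * ψ (y + c * s) = |c⁻¹| * ((∫ y, φ y) * ∫ y, ψ y) := by
  have hn : s4b_Nice (fun p : ℝ × ℝ => φ p.2 * ψ (p.2 + c * p.1)) := by
    obtain ⟨M, hM⟩ := hφ.bdd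
    obtain ⟨r, hr⟩ := hφ.supp
    obtain ⟨M', hM'⟩ := hψ.bdd
    obtain ⟨r', hr'⟩ := hψ.supp
    have hm := hφ.meas
    have hm' := hψ.meas
    refine ⟨(hm.comp (by fun_prop)).mul (hm'.comp (by fun_prop)), ⟨M * M', fun p => ?_⟩, ⟨r + r', fun p hp => ?_⟩⟩
    · rw [norm_mul]
      exact mul_le_mul (hM _) (hM' _) (norm_nonneg _) ((norm_nonneg _).trans (hM p.2))
    · have h1 : φ p.2 ≠ 0 := fun h0 => hp (by simp [h0])
      have h2 : ψ (p.2 + c * p.1) ≠ 0 := fun h0 => hp (by simp [h0])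
      have k1 := hr _ h1
      have k2 := hr' _ h2
      have hr0 : 0 ≤ r := (norm_nonneg _).trans k1
      have hr0' : 0 ≤ r' := (norm_nonneg _).trans k2
      have k3 : ‖c * p.1‖ ≤ r + r' := by
        have : c * p.1 = (p.2 + c * p.1) - p.2 := by ring
        rw [this]
        exact (norm_sub_le _ _).trans (by linarith)
      have k4 : ‖p.1‖ ≤ r + r' := by
        rw [norm_mul, Real.norm_eq_abs c] at k3
        nlinarith [norm_nonneg p.1]
      rw [Prod.norm_def]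
      exact max_le k4 (by linarith)
  refine ⟨hn, ?_⟩
  rw [hn.integral_swap2]
  have e1 : ∀ y, ∫ s, φ y * ψ (y + c * s) = φ y * (|c⁻¹| * ∫ u, ψ u) := by
    intro y
    rw [integral_const_mul, s4b_integral_affine ψ y c, smul_eq_mul]
  simp only [e1]
  rw [integral_mul_const]
  ring

end Claimed.Agent.R258
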