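/-
Row 258, block [S4b] (architect helper99).  FILE VN: the generalized von Neumann bound (Lemma 4.11, first estimate), in the form
      |H_I(z)| ≤ K ‖z_j‖_{2,I} (N² U + 1/N)      (all `N ≥ 1`, all `U ≥ 0` with `s4b_U8 I (z i) ≤ U^8`),
`z_j ∈ L²(I)`, the three other functions bounded by one.

PLAN.
(1) `s4b_raw_eq_T`: unweighted form = `s4b_T` (shear `(x,t) ↦ (x + j t, t)`, measure preserving, Fubini).
(2) three Cauchy-Schwarz steps `s4b_vn1, s4b_vn2, s4b_vn3`.  With `Φ(y) = ∫ g(y+at) b(y+βt) c(y+γt) dt`: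
    |T|² ≤ ‖R‖₂² ∫|Φ|²,  ∫|Φ|² = S1 (expand the square, `t' = t + s`, then `y ↦ y - β t`);
    S1 = ∫_s ∫_y B_s(y) X_s(y), `B_s = dl β s b` supported in `I`, `∫∫ |B_s(y)|² ≤ |I|²/|β|`; Cauchy-Schwarz over `(s,y)`, `y ∈ I`;
    expand `|X_s(y)|²` (`t' = t + s'`, `y ↦ y - (γ-β) t`): S2;  the same once more; now `∫_t G(y + (a-γ) t) dt` does not depend on `y`
    (this is why the Cauchy-Schwarz must be restricted to `y ∈ I`), and `|∫G|² = ∫∫ G(u) conj G(u + (a-γ) s'')|a-γ| du ds''`;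
    rescale `s, s', s''` by `a, a-β, a-γ` to get `s4b_cubeInt g`.
    All functions are bounded, measurable, supported in `I.set`: every integrand is bounded with bounded support, so all Fubini
    steps are legitimate.  A general helper (one Cauchy-Schwarz step on a product `Ω × ℝ`) is advisable.
(3) `s4b_kernel_step`: mean value inequality (`Admissible.deriv` with `n = 0, 1`), `κ A A' = w` at the point with
    `(y_j, y_k) =` left endpoints of the two subintervals.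
(4) `s4b_vn`: insert the indicators of `I` in all four slots (`s4b_form_congr`), replace `w` by the step kernel in the slots `j` and
    `k` (`k` = any slot different from `i, j`): error `≤ (K/N) |I|^{-2} ∫∫ |z_j(y_j)| 1_I(y_k) ≤ (K/N) ‖z_j‖_{1,I}`; main term: `N²` unweighted forms
    with `z_j 1_A`, `z_k 1_{A'}`; `‖z_j 1_A‖₂ ≤ ‖z_j‖₂`.
-/
import Claimed.Agent.R258.S4b.Abs
import Claimed.Agent.R258.S4b.VNKit
import Claimed.Agent.R258.Pack005

set_option autoImplicit false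
set_option linter.unusedVariables false
open MeasureTheory
open scoped ENNReal ContDiff ComplexConjugate

namespace Claimed.Agent.R258

/-- bounded by one, measurable, supported in the cell -/
structure s4b_Bd (I : Cell) (f : ℝ → ℂ) : Prop where
  meas : Measurable f
  le_one : ∀ y, ‖f y‖ ≤ 1
  supp : ∀ y, y ∉ I.set → f y = 0

/-- multiplicative derivative `g(u) conj g(u + a s)` -/
def s4b_dl (a s : ℝ) (g : ℝ → ℂ) (u : ℝ) : ℂ := g u * conj (g (u + a * s))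

noncomputable def s4b_T (a β γ : ℝ) (R g b c : ℝ → ℂ) : ℂ :=
  ∫ y : ℝ, R y * ∫ t : ℝ, g (y + a * t) * b (y + β * t) * c (y + γ * t)

noncomputable def s4b_S1 (a β γ : ℝ) (g b c : ℝ → ℂ) : ℂ :=
  ∫ s : ℝ, ∫ y : ℝ, s4b_dl β s b y *
    ∫ t : ℝ, s4b_dl a s g (y + (a - β) * t) * s4b_dl γ s c (y + (γ - β) * t)

noncomputable def s4b_S2 (a β γ : ℝ) (g c : ℝ → ℂ) : ℂ :=
  ∫ s : ℝ, ∫ s' : ℝ, ∫ y : ℝ, s4b_dl (γ - β) s' (s4b_dl γ s c) y *
    ∫ t : ℝ, s4b_dl (a - β) s' (s4b_dl a s g) (y + (a - γ) * t)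

/-- the unweighted form -/
noncomputable def s4b_raw (z : Fin 4 → ℝ → ℂ) : ℂ := ∫ p : ℝ × ℝ, ∏ j : Fin 4, z j (p.1 + (j : ℝ) * p.2)

/-! ### basic facts -/

theorem s4b_cell_right (I : Cell) : I.right = I.left + I.len := by
  unfold Cell.right Cell.left; ring

theorem s4b_cell_len_pos (I : Cell) : 0 < I.len := by unfold Cell.len; positivity

theorem s4b_cell_abs_le (I : Cell) {y : ℝ} (hy : y ∈ I.set) : |y| ≤ |I.left| + I.len := by
  obtain ⟨h1, h2⟩ := hy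
  rw [s4b_cell_right] at h2
  have := s4b_cell_len_pos I
  rw [abs_le]
  constructor
  · linarith [neg_abs_le I.left]
  · linarith [le_abs_self I.left]

theorem s4b_cell_diff (I : Cell) {u v : ℝ} (hu : u ∈ I.set) (hv : v ∈ I.set) : |u - v| ≤ I.len := by
  obtain ⟨h1, h2⟩ := hu
  obtain ⟨h3, h4⟩ := hv
  rw [s4b_cell_right] at h2 h4
  rw [abs_le]
  constructor <;> linarith

theorem s4b_abs_le_of_mem (I : Cell) {u c s : ℝ} (hu : u ∈ I.set) (hv : u + c * s ∈ I.set) (hc : 1 ≤ |c|) :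
    |s| ≤ I.len := by
  have h1 := s4b_cell_diff I hv hu
  have h2 : u + c * s - u = c * s := by ring
  rw [h2, abs_mul] at h1
  nlinarith [abs_nonneg s]

theorem s4b_abs_le_of_mem2 (I : Cell) {y c c' t : ℝ} (hu : y + c * t ∈ I.set) (hv : y + c' * t ∈ I.set)
    (hc : 1 ≤ |c - c'|) : |t| ≤ I.len := by
  have h1 := s4b_cell_diff I hu hv
  have h2 : y + c * t - (y + c' * t) = (c - c') * t := by ring
  rw [h2, abs_mul] at h1
  nlinarith [abs_nonneg t]

theorem s4b_abs_le_of_mem3 (I : Cell) {y c t : ℝ} (hu : y + c * t ∈ I.set) (ht : |t| ≤ I.len) :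
    |y| ≤ |I.left| + I.len + |c| * I.len := by
  have h1 := s4b_cell_abs_le I hu
  have h2 : y = (y + c * t) - c * t := by ring
  rw [h2]
  refine (abs_sub _ _).trans ?_
  rw [abs_mul]
  nlinarith [abs_nonneg c, abs_nonneg t]

theorem s4b_Bd.mem {I : Cell} {f : ℝ → ℂ} (h : s4b_Bd I f) {y : ℝ} (hy : f y ≠ 0) : y ∈ I.set := by
  by_contra hn; exact hy (h.supp y hn)

theorem s4b_Bd.nice {I : Cell} {f : ℝ → ℂ} (h : s4b_Bd I f) : s4b_Nice f :=
  ⟨h.meas, ⟨1, h.le_one⟩, ⟨|I.left| + I.len, fun _ hy => s4b_cell_abs_le I (h.mem hy)⟩⟩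

theorem s4b_dl_norm_le {g : ℝ → ℂ} (h : ∀ y, ‖g y‖ ≤ 1) (a s u : ℝ) : ‖s4b_dl a s g u‖ ≤ 1 := by
  unfold s4b_dl
  rw [norm_mul, RCLike.norm_conj]
  exact mul_le_one₀ (h _) (norm_nonneg _) (h _)

theorem s4b_dl_ne {g : ℝ → ℂ} {a s u : ℝ} (h : s4b_dl a s g u ≠ 0) : g u ≠ 0 ∧ g (u + a * s) ≠ 0 := by
  unfold s4b_dl at h
  constructor
  · intro h0; apply h; simp [h0]
  · intro h0; apply h; simp [h0]

/-- the real indicator of the cell -/
noncomputable def s4b_one (I : Cell) : ℝ → ℝ := I.set.indicator fun _ => (1 : ℝ)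

theorem s4b_cell_measurableSet (I : Cell) : MeasurableSet I.set := measurableSet_Ico

theorem s4b_one_nice (I : Cell) : s4b_Nice (s4b_one I) := by
  refine ⟨measurable_const.indicator (s4b_cell_measurableSet I), ⟨1, fun y => ?_⟩, ⟨|I.left| + I.len, fun y hy => ?_⟩⟩
  · unfold s4b_one
    by_cases h : y ∈ I.set
    · rw [Set.indicator_of_mem h]; simp
    · rw [Set.indicator_of_notMem h]; simp
  · refine s4b_cell_abs_le I ?_
    by_contra h
    exact hy (Set.indicator_of_notMem h _)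

theorem s4b_integral_one (I : Cell) : ∫ y, s4b_one I y = I.len := by
  unfold s4b_one
  rw [integral_indicator (s4b_cell_measurableSet I)]
  simp only [integral_const, smul_eq_mul, mul_one]
  unfold Cell.set
  rw [Measure.real, Measure.restrict_apply MeasurableSet.univ, Set.univ_inter, Real.volume_Ico, s4b_cell_right,
    ENNReal.toReal_ofReal (by have := s4b_cell_len_pos I; linarith)]
  ring

theorem s4b_Bd.normsq_le_one {I : Cell} {f : ℝ → ℂ} (h : s4b_Bd I f) (y : ℝ) : ‖f y‖ ^ 2 ≤ s4b_one I y := by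
  unfold s4b_one
  by_cases hy : y ∈ I.set
  · rw [Set.indicator_of_mem hy]
    exact pow_le_one₀ (norm_nonneg _) (h.le_one y)
  · rw [Set.indicator_of_notMem hy, h.supp y hy]; simp

theorem s4b_Bd.integral_normsq_le {I : Cell} {f : ℝ → ℂ} (h : s4b_Bd I f) : ∫ y, ‖f y‖ ^ 2 ≤ I.len := by
  rw [← s4b_integral_one I]
  exact integral_mono h.nice.norm_sq.integrable (s4b_one_nice I).integrable h.normsq_le_one

theorem s4b_slot_sep (p q : Fin 4) (hpq : p ≠ q) : 1 ≤ |((p : ℕ) : ℝ) - ((q : ℕ) : ℝ)| := by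
  have h : (p : ℕ) ≠ (q : ℕ) := fun h => hpq (Fin.ext h)
  have h' : ((p : ℕ) : ℤ) - ((q : ℕ) : ℤ) ≠ 0 := by
    intro h0; apply h; omega
  have h1 := Int.one_le_abs h'
  have h2 : ((1 : ℤ) : ℝ) ≤ ((|((p : ℕ) : ℤ) - ((q : ℕ) : ℤ)| : ℤ) : ℝ) := by exact_mod_cast h1
  simpa using h2

theorem s4b_E1_nice (I : Cell) (a β γ : ℝ) (g b c : ℝ → ℂ) (hab : 1 ≤ |a - β|)
    (hg : s4b_Bd I g) (hb : s4b_Bd I b) (hc : s4b_Bd I c) :
    s4b_Nice (fun p : ℝ × ℝ => g (p.1 + a * p.2) * b (p.1 + β * p.2) * c (p.1 + γ * p.2)) := by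
  have := hg.meas
  have := hb.meas
  have := hc.meas
  refine ⟨by fun_prop, ⟨1, fun p => ?_⟩, ⟨|I.left| + I.len + |a| * I.len, fun p hp => ?_⟩⟩
  · rw [norm_mul, norm_mul]
    exact mul_le_one₀ (mul_le_one₀ (hg.le_one _) (norm_nonneg _) (hb.le_one _)) (norm_nonneg _) (hc.le_one _)
  · have h1 : g (p.1 + a * p.2) ≠ 0 := fun h0 => hp (by simp [h0])
    have h2 : b (p.1 + β * p.2) ≠ 0 := fun h0 => hp (by simp [h0])
    have k1 := s4b_abs_le_of_mem2 I (hg.mem h1) (hb.mem h2) hab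
    have k2 := s4b_abs_le_of_mem3 I (hg.mem h1) k1
    rw [Prod.norm_def]
    exact max_le k2 (k1.trans (by nlinarith [abs_nonneg I.left, abs_nonneg a, s4b_cell_len_pos I]))

/-- the shear `(x,t) ↦ (x + c t, t)` preserves the Lebesgue measure -/
theorem s4b_shear_mp (c : ℝ) :
    MeasurePreserving (fun p : ℝ × ℝ => (p.1 + c * p.2, p.2)) (volume : Measure (ℝ × ℝ)) volume := by
  have h1 : MeasurePreserving (fun p : ℝ × ℝ => (p.1, p.2 + c * p.1)) (volume.prod volume) (volume.prod volume) :=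
    (MeasurePreserving.id volume).skew_product (g := fun t y => y + c * t) (by fun_prop)
      (Filter.Eventually.of_forall fun t => (measurePreserving_add_right volume (c * t)).map_eq)
  have h2 := (Measure.measurePreserving_swap (μ := (volume : Measure ℝ)) (ν := (volume : Measure ℝ))).comp
    (h1.comp (Measure.measurePreserving_swap (μ := (volume : Measure ℝ)) (ν := (volume : Measure ℝ))))
  exact h2

theorem s4b_integrable_of_L2 (I : Cell) (R : ℝ → ℂ) (hR2 : MemLp R 2 volume) (hRs : ∀ y, y ∉ I.set → R y = 0) :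
    Integrable R := by
  have hfin : IsFiniteMeasure (volume.restrict I.set) := ⟨by
    rw [Measure.restrict_apply MeasurableSet.univ, Set.univ_inter]
    unfold Cell.set
    rw [Real.volume_Ico]; exact ENNReal.ofReal_lt_top⟩
  have h1 : MemLp R 1 (volume.restrict I.set) := (hR2.restrict I.set).mono_exponent (by norm_num)
  have h2 : IntegrableOn R I.set := memLp_one_iff_integrable.mp h1
  exact h2.integrable_of_forall_notMem_eq_zero hRs

theorem s4b_raw_eq_T (I : Cell) (z : Fin 4 → ℝ → ℂ) (σ : Equiv.Perm (Fin 4))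
    (hR : Measurable (z (σ 0))) (hR2 : MemLp (z (σ 0)) 2 volume) (hRs : ∀ y, y ∉ I.set → z (σ 0) y = 0)
    (hb : ∀ k, k ≠ σ 0 → s4b_Bd I (z k)) :
    s4b_raw z = s4b_T (((σ 1 : Fin 4) : ℝ) - (σ 0 : Fin 4)) (((σ 2 : Fin 4) : ℝ) - (σ 0 : Fin 4))
      (((σ 3 : Fin 4) : ℝ) - (σ 0 : Fin 4)) (z (σ 0)) (z (σ 1)) (z (σ 2)) (z (σ 3)) := by
  have hbd : ∀ p : Fin 4, p ≠ 0 → s4b_Bd I (z (σ p)) := fun p hp => hb _ (fun h => hp (σ.injective h))
  set a : ℝ := ((σ 1 : Fin 4) : ℝ) - (σ 0 : Fin 4) with ha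
  set β : ℝ := ((σ 2 : Fin 4) : ℝ) - (σ 0 : Fin 4) with hβ
  set γ : ℝ := ((σ 3 : Fin 4) : ℝ) - (σ 0 : Fin 4) with hγ
  set j0 : ℝ := ((σ 0 : Fin 4) : ℝ) with hj0
  have hab : 1 ≤ |a - β| := by
    have := s4b_slot_sep (σ 1) (σ 2) (fun h => by have := σ.injective h; simp at this)
    have e : a - β = (((σ 1 : Fin 4) : ℕ) : ℝ) - (((σ 2 : Fin 4) : ℕ) : ℝ) := by rw [ha, hβ]; ring
    rwa [e]
  set E1 : ℝ × ℝ → ℂ := fun p => z (σ 1) (p.1 + a * p.2) * z (σ 2) (p.1 + β * p.2) * z (σ 3) (p.1 + γ * p.2) with hE1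
  have hE : s4b_Nice E1 := s4b_E1_nice I a β γ _ _ _ hab (hbd 1 (by decide)) (hbd 2 (by decide)) (hbd 3 (by decide))
  set G : ℝ × ℝ → ℂ := fun p => z (σ 0) p.1 * E1 p with hG
  have hGm : Measurable G := (hR.comp measurable_fst).mul hE.meas
  have hRi : Integrable (z (σ 0)) := s4b_integrable_of_L2 I _ hR2 hRs
  have hGi : Integrable G := by
    obtain ⟨M, hM⟩ := hE.bdd
    obtain ⟨r, hr⟩ := hE.supp
    have hd : Integrable (fun p : ℝ × ℝ => ‖z (σ 0) p.1‖ * (Set.Icc (-r) r).indicator (fun _ => M) p.2) :=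
      hRi.norm.mul_prod ((integrable_indicator_iff measurableSet_Icc).2 (integrableOn_const (by simp) (by simp)))
    refine hd.mono' hGm.aestronglyMeasurable (Filter.Eventually.of_forall fun p => ?_)
    simp only [hG, norm_mul]
    refine mul_le_mul_of_nonneg_left ?_ (norm_nonneg _)
    by_cases ht : p.2 ∈ Set.Icc (-r) r
    · rw [Set.indicator_of_mem ht]; exact hM _
    · rw [Set.indicator_of_notMem ht]
      have : E1 p = 0 := by
        by_contra hne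
        exact ht (abs_le.mp ((norm_snd_le p).trans (hr _ hne)))
      rw [this, norm_zero]
  have hS := s4b_shear_mp j0
  have e1 : s4b_raw z = ∫ p : ℝ × ℝ, G (p.1 + j0 * p.2, p.2) := by
    unfold s4b_raw
    refine integral_congr_ae (Filter.Eventually.of_forall fun p => ?_)
    dsimp only
    rw [← Equiv.prod_comp σ, Fin.prod_univ_four]
    have k1 : p.1 + j0 * p.2 + a * p.2 = p.1 + ((σ 1 : Fin 4) : ℝ) * p.2 := by rw [ha, hj0]; ring
    have k2 : p.1 + j0 * p.2 + β * p.2 = p.1 + ((σ 2 : Fin 4) : ℝ) * p.2 := by rw [hβ, hj0]; ring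
    have k3 : p.1 + j0 * p.2 + γ * p.2 = p.1 + ((σ 3 : Fin 4) : ℝ) * p.2 := by rw [hγ, hj0]; ring
    simp only [hG, hE1, k1, k2, k3]
    ring
  rw [e1, ← integral_map hS.measurable.aemeasurable (by rw [hS.map_eq]; exact hGm.aestronglyMeasurable), hS.map_eq]
  have e2 : ∫ p, G p = ∫ y, ∫ t, G (y, t) := integral_prod G hGi
  rw [e2]
  unfold s4b_T
  refine integral_congr_ae (Filter.Eventually.of_forall fun y => ?_)
  simp only [hG]
  rw [integral_const_mul]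

theorem s4b_vn1 (I : Cell) (a β γ : ℝ) (R g b c : ℝ → ℂ) (ha : 1 ≤ |a|) (hβ : 1 ≤ |β|) (hγ : 1 ≤ |γ|)
    (hab : 1 ≤ |a - β|) (hgb : 1 ≤ |γ - β|) (hag : 1 ≤ |a - γ|) (hR : Measurable R) (hR2 : MemLp R 2 volume) (hg : s4b_Bd I g) (hb : s4b_Bd I b) (hc : s4b_Bd I c) :
    ‖s4b_T a β γ R g b c‖ ^ 2 ≤ (∫ y, ‖R y‖ ^ 2) * ‖s4b_S1 a β γ g b c‖ := by
  set E1 : ℝ × ℝ → ℂ := fun p => g (p.1 + a * p.2) * b (p.1 + β * p.2) * c (p.1 + γ * p.2) with hE1
  have hE : s4b_Nice E1 := s4b_E1_nice I a β γ g b c hab hg hb hc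
  have hΦ : s4b_Nice (fun y => ∫ t, E1 (y, t)) := hE.integral_right
  have h1 := s4b_cs volume R (fun y => ∫ t, E1 (y, t)) hR2 hΦ.memLp_two
  have h2 : s4b_S1 a β γ g b c = ((∫ y, ‖∫ t, E1 (y, t)‖ ^ 2 : ℝ) : ℂ) := by
    rw [← s4b_integral_mul_conj, s4b_sq_expand E1 hE β]
    unfold s4b_S1
    refine integral_congr_ae (Filter.Eventually.of_forall fun s => ?_)
    refine integral_congr_ae (Filter.Eventually.of_forall fun y => ?_)
    dsimp only
    rw [← integral_const_mul]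
    refine integral_congr_ae (Filter.Eventually.of_forall fun t => ?_)
    have e1 : y - β * t + a * t = y + (a - β) * t := by ring
    have e2 : y - β * t + β * t = y := by ring
    have e3 : y - β * t + γ * t = y + (γ - β) * t := by ring
    have e4 : y - β * t + a * (t + s) = y + (a - β) * t + a * s := by ring
    have e5 : y - β * t + β * (t + s) = y + β * s := by ring
    have e6 : y - β * t + γ * (t + s) = y + (γ - β) * t + γ * s := by ring
    simp only [hE1, s4b_dl, map_mul, e1, e2, e3, e4, e5, e6]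
    ring
  rw [h2, Complex.norm_real, Real.norm_eq_abs, abs_of_nonneg (integral_nonneg fun _ => sq_nonneg _)]
  exact h1

theorem s4b_f2_nice (I : Cell) (β : ℝ) (b : ℝ → ℂ) (hβ : 1 ≤ |β|) (hb : s4b_Bd I b) :
    s4b_Nice (fun p : ℝ × ℝ => s4b_dl β p.1 b p.2) := by
  have := hb.meas
  refine ⟨by unfold s4b_dl; fun_prop, ⟨1, fun p => s4b_dl_norm_le hb.le_one _ _ _⟩,
    ⟨|I.left| + I.len, fun p hp => ?_⟩⟩
  obtain ⟨h1, h2⟩ := s4b_dl_ne hp
  have k1 := s4b_abs_le_of_mem I (hb.mem h1) (hb.mem h2) hβ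
  have k2 := s4b_cell_abs_le I (hb.mem h1)
  rw [Prod.norm_def]
  exact max_le (k1.trans (by linarith [abs_nonneg I.left])) k2

theorem s4b_E2_nice (I : Cell) (a β γ : ℝ) (g c : ℝ → ℂ) (ha : 1 ≤ |a|) (hag : 1 ≤ |a - γ|)
    (hg : s4b_Bd I g) (hc : s4b_Bd I c) :
    s4b_Nice (fun p : (ℝ × ℝ) × ℝ =>
      s4b_dl a p.1.1 g (p.1.2 + (a - β) * p.2) * s4b_dl γ p.1.1 c (p.1.2 + (γ - β) * p.2)) := by
  have := hg.meas
  have := hc.meas
  refine ⟨by unfold s4b_dl; fun_prop, ⟨1, fun p => ?_⟩, ⟨|I.left| + I.len + |a - β| * I.len, fun p hp => ?_⟩⟩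
  · rw [norm_mul]
    exact mul_le_one₀ (s4b_dl_norm_le hg.le_one _ _ _) (norm_nonneg _) (s4b_dl_norm_le hc.le_one _ _ _)
  · have h1 : s4b_dl a p.1.1 g (p.1.2 + (a - β) * p.2) ≠ 0 := fun h0 => hp (by simp [h0])
    have h2 : s4b_dl γ p.1.1 c (p.1.2 + (γ - β) * p.2) ≠ 0 := fun h0 => hp (by simp [h0])
    obtain ⟨h3, h4⟩ := s4b_dl_ne h1
    obtain ⟨h5, -⟩ := s4b_dl_ne h2
    have k1 := s4b_abs_le_of_mem I (hg.mem h3) (hg.mem h4) ha
    have k2 := s4b_abs_le_of_mem2 I (hg.mem h3) (hc.mem h5) (by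
      have : a - β - (γ - β) = a - γ := by ring
      rw [this]; exact hag)
    have k3 := s4b_abs_le_of_mem3 I (hg.mem h3) k2
    have hl := s4b_cell_len_pos I
    have hx : I.len ≤ |I.left| + I.len + |a - β| * I.len := by
      nlinarith [abs_nonneg I.left, abs_nonneg (a - β)]
    rw [Prod.norm_def, Prod.norm_def]
    exact max_le (max_le (k1.trans hx) k3) (k2.trans hx)

theorem s4b_vn2 (I : Cell) (a β γ : ℝ) (g b c : ℝ → ℂ) (ha : 1 ≤ |a|) (hβ : 1 ≤ |β|) (hγ : 1 ≤ |γ|)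
    (hab : 1 ≤ |a - β|) (hgb : 1 ≤ |γ - β|) (hag : 1 ≤ |a - γ|) (hg : s4b_Bd I g) (hb : s4b_Bd I b) (hc : s4b_Bd I c) :
    ‖s4b_S1 a β γ g b c‖ ^ 2 ≤ I.len ^ 2 * ‖s4b_S2 a β γ g c‖ := by
  set f2 : ℝ × ℝ → ℂ := fun p => s4b_dl β p.1 b p.2 with hf2
  set E2 : (ℝ × ℝ) × ℝ → ℂ := fun p =>
    s4b_dl a p.1.1 g (p.1.2 + (a - β) * p.2) * s4b_dl γ p.1.1 c (p.1.2 + (γ - β) * p.2) with hE2
  have hf : s4b_Nice f2 := s4b_f2_nice I β b hβ hb
  have hE : s4b_Nice E2 := s4b_E2_nice I a β γ g c ha hag hg hc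
  have hh : s4b_Nice (fun p => ∫ t, E2 (p, t)) := hE.integral_right
  have h1 := s4b_cs volume f2 (fun p => ∫ t, E2 (p, t)) hf.memLp_two hh.memLp_two
  have h0 : s4b_S1 a β γ g b c = ∫ p, f2 p * ∫ t, E2 (p, t) := by
    rw [(hf.mul hh).integral_prod2]
    rfl
  have h2 : s4b_S2 a β γ g c = ((∫ p, ‖∫ t, E2 (p, t)‖ ^ 2 : ℝ) : ℂ) := by
    rw [← s4b_integral_mul_conj, (hh.mul hh.conj).integral_prod2]
    unfold s4b_S2
    refine integral_congr_ae (Filter.Eventually.of_forall fun s => ?_)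
    dsimp only
    have hEs : s4b_Nice (fun q : ℝ × ℝ => E2 ((s, q.1), q.2)) :=
      hE.comp (φ := fun q : ℝ × ℝ => ((s, q.1), q.2)) (by fun_prop) fun r => ⟨r, fun q hq => by
        rw [Prod.norm_def] at hq ⊢
        have k1 := (le_max_left _ _).trans hq
        have k2 := (le_max_right _ _).trans hq
        exact max_le ((norm_snd_le (s, q.1)).trans k1) k2⟩
    rw [s4b_sq_expand (fun q : ℝ × ℝ => E2 ((s, q.1), q.2)) hEs (γ - β)]
    refine integral_congr_ae (Filter.Eventually.of_forall fun s' => ?_)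
    refine integral_congr_ae (Filter.Eventually.of_forall fun y => ?_)
    dsimp only
    rw [← integral_const_mul]
    refine integral_congr_ae (Filter.Eventually.of_forall fun t => ?_)
    have e1 : y - (γ - β) * t + (a - β) * t = y + (a - γ) * t := by ring
    have e2 : y - (γ - β) * t + (γ - β) * t = y := by ring
    have e3 : y - (γ - β) * t + (a - β) * (t + s') = y + (a - γ) * t + (a - β) * s' := by ring
    have e4 : y - (γ - β) * t + (γ - β) * (t + s') = y + (γ - β) * s' := by ring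
    simp only [hE2, e1, e2, e3, e4]
    simp only [s4b_dl, map_mul]
    ring
  have h3 : ∫ p, ‖f2 p‖ ^ 2 ≤ I.len ^ 2 := by
    obtain ⟨k1, k2⟩ := s4b_integral_pair (fun y => ‖b y‖ ^ 2) (fun y => ‖b y‖ ^ 2) hb.nice.norm_sq hb.nice.norm_sq β hβ
    have e : ∫ p, ‖f2 p‖ ^ 2 = ∫ p : ℝ × ℝ, ‖b p.2‖ ^ 2 * ‖b (p.2 + β * p.1)‖ ^ 2 := by
      refine integral_congr_ae (Filter.Eventually.of_forall fun p => ?_)
      simp only [hf2, s4b_dl, norm_mul, RCLike.norm_conj, mul_pow]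
    rw [e, k1.integral_prod2, k2]
    have l1 := hb.integral_normsq_le
    have l0 : 0 ≤ ∫ y, ‖b y‖ ^ 2 := integral_nonneg fun _ => sq_nonneg _
    have l2 : |β⁻¹| ≤ 1 := by rw [abs_inv]; exact inv_le_one_of_one_le₀ hβ
    have l3 : (∫ y, ‖b y‖ ^ 2) * (∫ y, ‖b y‖ ^ 2) ≤ I.len ^ 2 := by nlinarith
    calc |β⁻¹| * ((∫ y, ‖b y‖ ^ 2) * ∫ y, ‖b y‖ ^ 2) ≤ 1 * ((∫ y, ‖b y‖ ^ 2) * ∫ y, ‖b y‖ ^ 2) :=
          mul_le_mul_of_nonneg_right l2 (mul_nonneg l0 l0)
      _ ≤ I.len ^ 2 := by rw [one_mul]; exact l3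
  rw [h2, Complex.norm_real, Real.norm_eq_abs, abs_of_nonneg (integral_nonneg fun _ => sq_nonneg _), h0]
  exact h1.trans (mul_le_mul_of_nonneg_right h3 (integral_nonneg fun _ => sq_nonneg _))

theorem s4b_one_ne {I : Cell} {y : ℝ} (h : s4b_one I y ≠ 0) : y ∈ I.set := by
  by_contra hn; exact h (Set.indicator_of_notMem hn _)

theorem s4b_one_nonneg (I : Cell) (y : ℝ) : 0 ≤ s4b_one I y :=
  Set.indicator_nonneg (fun _ _ => zero_le_one) y

theorem s4b_one_le (I : Cell) (y : ℝ) : s4b_one I y ≤ 1 := by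
  unfold s4b_one
  by_cases h : y ∈ I.set
  · rw [Set.indicator_of_mem h]
  · rw [Set.indicator_of_notMem h]; exact zero_le_one

theorem s4b_one_norm_le (I : Cell) (y : ℝ) : ‖s4b_one I y‖ ≤ 1 := by
  rw [Real.norm_eq_abs, abs_of_nonneg (s4b_one_nonneg I y)]; exact s4b_one_le I y

theorem s4b_f3_nice (I : Cell) (β γ : ℝ) (c : ℝ → ℂ) (hγ : 1 ≤ |γ|) (hgb : 1 ≤ |γ - β|) (hc : s4b_Bd I c) :
    s4b_Nice (fun p : ℝ × (ℝ × ℝ) => s4b_dl (γ - β) p.2.1 (s4b_dl γ p.1 c) p.2.2) := by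
  have := hc.meas
  refine ⟨by unfold s4b_dl; fun_prop,
    ⟨1, fun p => s4b_dl_norm_le (fun y => s4b_dl_norm_le hc.le_one _ _ y) _ _ _⟩,
    ⟨|I.left| + I.len, fun p hp => ?_⟩⟩
  obtain ⟨h1, h2⟩ := s4b_dl_ne hp
  obtain ⟨h3, h4⟩ := s4b_dl_ne h1
  obtain ⟨h5, -⟩ := s4b_dl_ne h2
  have k1 := s4b_abs_le_of_mem I (hc.mem h3) (hc.mem h4) hγ
  have k2 := s4b_abs_le_of_mem I (hc.mem h3) (hc.mem h5) hgb
  have k3 := s4b_cell_abs_le I (hc.mem h3)
  have hx : I.len ≤ |I.left| + I.len := by linarith [abs_nonneg I.left]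
  rw [Prod.norm_def, Prod.norm_def]
  exact max_le (k1.trans hx) (max_le (k2.trans hx) k3)

theorem s4b_E3_nice (I : Cell) (a β γ : ℝ) (g : ℝ → ℂ) (ha : 1 ≤ |a|) (hab : 1 ≤ |a - β|) (hag : 1 ≤ |a - γ|)
    (hg : s4b_Bd I g) :
    s4b_Nice (fun p : (ℝ × (ℝ × ℝ)) × ℝ => ((s4b_one I p.1.2.2 : ℝ) : ℂ) *
      s4b_dl (a - β) p.1.2.1 (s4b_dl a p.1.1 g) (p.1.2.2 + (a - γ) * p.2)) := by
  have := hg.meas
  have := (s4b_one_nice I).meas
  refine ⟨by unfold s4b_dl; fun_prop, ⟨1, fun p => ?_⟩, ⟨|I.left| + I.len, fun p hp => ?_⟩⟩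
  · rw [norm_mul, Complex.norm_real]
    exact mul_le_one₀ (s4b_one_norm_le I _) (norm_nonneg _)
      (s4b_dl_norm_le (fun y => s4b_dl_norm_le hg.le_one _ _ y) _ _ _)
  · have h1 : s4b_one I p.1.2.2 ≠ 0 := fun h0 => hp (by simp [h0])
    have h2 : s4b_dl (a - β) p.1.2.1 (s4b_dl a p.1.1 g) (p.1.2.2 + (a - γ) * p.2) ≠ 0 :=
      fun h0 => hp (by simp [h0])
    obtain ⟨h3, h4⟩ := s4b_dl_ne h2
    obtain ⟨h5, h6⟩ := s4b_dl_ne h3
    obtain ⟨h7, -⟩ := s4b_dl_ne h4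
    have k0 := s4b_cell_abs_le I (s4b_one_ne h1)
    have k1 := s4b_abs_le_of_mem I (s4b_one_ne h1) (hg.mem h5) hag
    have k2 := s4b_abs_le_of_mem I (hg.mem h5) (hg.mem h6) ha
    have k3 := s4b_abs_le_of_mem I (hg.mem h5) (hg.mem h7) hab
    have hx : I.len ≤ |I.left| + I.len := by linarith [abs_nonneg I.left]
    rw [Prod.norm_def, Prod.norm_def, Prod.norm_def]
    exact max_le (max_le (k2.trans hx) (max_le (k3.trans hx) k0)) (k1.trans hx)

theorem s4b_dl_def (a s : ℝ) (g : ℝ → ℂ) (u : ℝ) : s4b_dl a s g u = g u * conj (g (u + a * s)) := rfl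

theorem s4b_dl3_eq (g : ℝ → ℂ) (c1 s1 c2 s2 c3 s3 u : ℝ) :
    s4b_dl c3 s3 (s4b_dl c2 s2 (s4b_dl c1 s1 g)) u = s4b_cubeProd g u (c1 * s1) (c2 * s2) (c3 * s3) := by
  have e1 : u + c2 * s2 + c1 * s1 = u + c1 * s1 + c2 * s2 := by ring
  have e2 : u + c3 * s3 + c1 * s1 = u + c1 * s1 + c3 * s3 := by ring
  have e3 : u + c3 * s3 + c2 * s2 = u + c2 * s2 + c3 * s3 := by ring
  have e4 : u + c2 * s2 + c3 * s3 + c1 * s1 = u + c1 * s1 + c2 * s2 + c3 * s3 := by ring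
  simp only [s4b_dl, s4b_cubeProd, map_mul, Complex.conj_conj, e1, e2, e3, e4]
  ring

theorem s4b_cube_nice (I : Cell) (g : ℝ → ℂ) (hg : s4b_Bd I g) :
    s4b_Nice (fun p : ((ℝ × ℝ) × ℝ) × ℝ => s4b_cubeProd g p.1.1.1 p.1.1.2 p.1.2 p.2) := by
  have := hg.meas
  refine ⟨by unfold s4b_cubeProd; fun_prop, ⟨1, fun p => ?_⟩, ⟨|I.left| + I.len, fun p hp => ?_⟩⟩
  · have e := s4b_dl3_eq g 1 p.1.1.2 1 p.1.2 1 p.2 p.1.1.1
    simp only [one_mul] at e
    rw [← e]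
    exact s4b_dl_norm_le (fun y => s4b_dl_norm_le (fun y => s4b_dl_norm_le hg.le_one _ _ y) _ _ y) _ _ _
  · have h1 : g p.1.1.1 ≠ 0 := fun h0 => hp (by simp [s4b_cubeProd, h0])
    have h2 : g (p.1.1.1 + p.1.1.2) ≠ 0 := fun h0 => hp (by simp [s4b_cubeProd, h0])
    have h3 : g (p.1.1.1 + p.1.2) ≠ 0 := fun h0 => hp (by simp [s4b_cubeProd, h0])
    have h4 : g (p.1.1.1 + p.2) ≠ 0 := fun h0 => hp (by simp [s4b_cubeProd, h0])
    have k0 := s4b_cell_abs_le I (hg.mem h1)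
    have k1 := s4b_abs_le_of_mem I (c := 1) (s := p.1.1.2) (hg.mem h1) (by rw [one_mul]; exact hg.mem h2) (by simp)
    have k2 := s4b_abs_le_of_mem I (c := 1) (s := p.1.2) (hg.mem h1) (by rw [one_mul]; exact hg.mem h3) (by simp)
    have k3 := s4b_abs_le_of_mem I (c := 1) (s := p.2) (hg.mem h1) (by rw [one_mul]; exact hg.mem h4) (by simp)
    have hx : I.len ≤ |I.left| + I.len := by linarith [abs_nonneg I.left]
    rw [Prod.norm_def, Prod.norm_def, Prod.norm_def]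
    exact max_le (max_le (max_le k0 (k1.trans hx)) (k2.trans hx)) (k3.trans hx)

theorem s4b_cube_reorder (I : Cell) (g : ℝ → ℂ) (hg : s4b_Bd I g) :
    ∫ h1, ∫ h2, ∫ h3, ∫ u, s4b_cubeProd g u h1 h2 h3 = s4b_cubeInt g := by
  set c4 : ((ℝ × ℝ) × ℝ) × ℝ → ℂ := fun p => s4b_cubeProd g p.1.1.1 p.1.1.2 p.1.2 p.2 with hc4
  have hc : s4b_Nice c4 := s4b_cube_nice I g hg
  have hA3 : s4b_Nice (fun p : (ℝ × ℝ) × ℝ => ∫ h3, c4 (p, h3)) := hc.integral_right
  have hA2 : s4b_Nice (fun p : ℝ × ℝ => ∫ h2, ∫ h3, c4 ((p, h2), h3)) := hA3.integral_right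
  have e0 : s4b_cubeInt g = ∫ u, ∫ h1, ∫ h2, ∫ h3, c4 (((u, h1), h2), h3) := rfl
  rw [e0, hA2.integral_swap2]
  refine integral_congr_ae (Filter.Eventually.of_forall fun h1 => ?_)
  dsimp only
  have n1 : s4b_Nice (fun q : ℝ × ℝ => ∫ h3, c4 (((q.1, h1), q.2), h3)) :=
    hA3.comp (φ := fun q : ℝ × ℝ => ((q.1, h1), q.2)) (by fun_prop) fun r => ⟨r, fun q hq => by
      rw [Prod.norm_def] at hq ⊢
      have k1 := (le_max_left _ _).trans hq
      have k2 := (le_max_right _ _).trans hq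
      exact max_le ((norm_fst_le (q.1, h1)).trans k1) k2⟩
  rw [n1.integral_swap2]
  refine integral_congr_ae (Filter.Eventually.of_forall fun h2 => ?_)
  dsimp only
  have n2 : s4b_Nice (fun q : ℝ × ℝ => c4 (((q.1, h1), h2), q.2)) :=
    hc.comp (φ := fun q : ℝ × ℝ => (((q.1, h1), h2), q.2)) (by fun_prop) fun r => ⟨r, fun q hq => by
      rw [Prod.norm_def] at hq ⊢
      have k1 := (le_max_left _ _).trans hq
      have k2 := (le_max_right _ _).trans hq
      exact max_le ((norm_fst_le (q.1, h1)).trans ((norm_fst_le ((q.1, h1), h2)).trans k1)) k2⟩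
  exact n2.integral_swap2.symm

theorem s4b_rescale3 (Θ : ℝ → ℝ → ℝ → ℂ) (c1 c2 c3 : ℝ) :
    ∫ s, ∫ s', ∫ s'', Θ (c1 * s) (c2 * s') (c3 * s'')
      = (|c1⁻¹| * |c2⁻¹| * |c3⁻¹| : ℝ) • ∫ h1, ∫ h2, ∫ h3, Θ h1 h2 h3 := by
  have e3 : ∀ h1 h2, ∫ s'', Θ h1 h2 (c3 * s'') = |c3⁻¹| • ∫ h3, Θ h1 h2 h3 :=
    fun h1 h2 => Measure.integral_comp_mul_left (Θ h1 h2) c3
  have e2 : ∀ h1, ∫ s', (∫ h3, Θ h1 (c2 * s') h3) = |c2⁻¹| • ∫ h2, ∫ h3, Θ h1 h2 h3 :=
    fun h1 => Measure.integral_comp_mul_left (fun h2 => ∫ h3, Θ h1 h2 h3) c2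
  have e1 : ∫ s, (∫ h2, ∫ h3, Θ (c1 * s) h2 h3) = |c1⁻¹| • ∫ h1, ∫ h2, ∫ h3, Θ h1 h2 h3 :=
    Measure.integral_comp_mul_left (fun h1 => ∫ h2, ∫ h3, Θ h1 h2 h3) c1
  simp only [e3, integral_smul, e2, e1, smul_smul]
  congr 1
  ring

theorem s4b_f3_vol (I : Cell) (β γ : ℝ) (c : ℝ → ℂ) (hγ : 1 ≤ |γ|) (hgb : 1 ≤ |γ - β|) (hc : s4b_Bd I c) :
    ∫ p : ℝ × (ℝ × ℝ), ‖s4b_dl (γ - β) p.2.1 (s4b_dl γ p.1 c) p.2.2‖ ^ 2 ≤ I.len ^ 3 := by
  have hl := s4b_cell_len_pos I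
  have hm := (s4b_one_nice I).meas
  set maj : ℝ × (ℝ × ℝ) → ℝ := fun p =>
    (s4b_one I p.2.2 * s4b_one I (p.2.2 + γ * p.1)) * s4b_one I (p.2.2 + (γ - β) * p.2.1) with hmaj
  have hn : s4b_Nice maj := by
    refine ⟨by fun_prop, ⟨1, fun p => ?_⟩, ⟨|I.left| + I.len, fun p hp => ?_⟩⟩
    · rw [norm_mul, norm_mul]
      exact mul_le_one₀ (mul_le_one₀ (s4b_one_norm_le I _) (norm_nonneg _) (s4b_one_norm_le I _)) (norm_nonneg _)
        (s4b_one_norm_le I _)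
    · have h1 : s4b_one I p.2.2 ≠ 0 := fun h0 => hp (by simp [hmaj, h0])
      have h2 : s4b_one I (p.2.2 + γ * p.1) ≠ 0 := fun h0 => hp (by simp [hmaj, h0])
      have h3 : s4b_one I (p.2.2 + (γ - β) * p.2.1) ≠ 0 := fun h0 => hp (by simp [hmaj, h0])
      have k0 := s4b_cell_abs_le I (s4b_one_ne h1)
      have k1 := s4b_abs_le_of_mem I (s4b_one_ne h1) (s4b_one_ne h2) hγ
      have k2 := s4b_abs_le_of_mem I (s4b_one_ne h1) (s4b_one_ne h3) hgb
      have hx : I.len ≤ |I.left| + I.len := by linarith [abs_nonneg I.left]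
      rw [Prod.norm_def, Prod.norm_def]
      exact max_le (k1.trans hx) (max_le (k2.trans hx) k0)
  have h1 : ∫ p : ℝ × (ℝ × ℝ), ‖s4b_dl (γ - β) p.2.1 (s4b_dl γ p.1 c) p.2.2‖ ^ 2 ≤ ∫ p, maj p := by
    refine integral_mono (s4b_f3_nice I β γ c hγ hgb hc).norm_sq.integrable hn.integrable fun p => ?_
    simp only [hmaj, s4b_dl, norm_mul, RCLike.norm_conj, mul_pow]
    have a1 := hc.normsq_le_one p.2.2
    have a2 := hc.normsq_le_one (p.2.2 + γ * p.1)
    have a3 := hc.normsq_le_one (p.2.2 + (γ - β) * p.2.1)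
    have a4 : ‖c (p.2.2 + (γ - β) * p.2.1 + γ * p.1)‖ ^ 2 ≤ 1 := pow_le_one₀ (norm_nonneg _) (hc.le_one _)
    have b1 : ‖c p.2.2‖ ^ 2 * ‖c (p.2.2 + γ * p.1)‖ ^ 2 ≤ s4b_one I p.2.2 * s4b_one I (p.2.2 + γ * p.1) :=
      mul_le_mul a1 a2 (sq_nonneg _) (s4b_one_nonneg I _)
    have b2 : ‖c (p.2.2 + (γ - β) * p.2.1)‖ ^ 2 * ‖c (p.2.2 + (γ - β) * p.2.1 + γ * p.1)‖ ^ 2
        ≤ s4b_one I (p.2.2 + (γ - β) * p.2.1) := by
      calc _ ≤ s4b_one I (p.2.2 + (γ - β) * p.2.1) * 1 := mul_le_mul a3 a4 (sq_nonneg _) (s4b_one_nonneg I _)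
        _ = _ := mul_one _
    exact mul_le_mul b1 b2 (by positivity) (mul_nonneg (s4b_one_nonneg I _) (s4b_one_nonneg I _))
  refine h1.trans ?_
  rw [hn.integral_prod3]
  have e1 : ∀ s, ∫ s', ∫ y, maj (s, (s', y))
      = |(γ - β)⁻¹| * ((∫ y, s4b_one I y * s4b_one I (y + γ * s)) * I.len) := by
    intro s
    have hφ : s4b_Nice (fun y => s4b_one I y * s4b_one I (y + γ * s)) :=
      (s4b_one_nice I).mul_bdd (by fun_prop) ⟨1, fun y => s4b_one_norm_le I _⟩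
    have := (s4b_integral_pair _ _ hφ (s4b_one_nice I) (γ - β) hgb).2
    rw [s4b_integral_one] at this
    exact this
  simp only [e1]
  rw [integral_const_mul, integral_mul_const, (s4b_integral_pair _ _ (s4b_one_nice I) (s4b_one_nice I) γ hγ).2,
    s4b_integral_one]
  have l1 : |γ⁻¹| ≤ 1 := by rw [abs_inv]; exact inv_le_one_of_one_le₀ hγ
  have l2 : |(γ - β)⁻¹| ≤ 1 := by rw [abs_inv]; exact inv_le_one_of_one_le₀ hgb
  have m1 : |(γ - β)⁻¹| * |γ⁻¹| ≤ 1 := mul_le_one₀ l2 (abs_nonneg _) l1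
  calc |(γ - β)⁻¹| * (|γ⁻¹| * (I.len * I.len) * I.len) = (|(γ - β)⁻¹| * |γ⁻¹|) * I.len ^ 3 := by ring
    _ ≤ 1 * I.len ^ 3 := mul_le_mul_of_nonneg_right m1 (by positivity)
    _ = _ := one_mul _

theorem s4b_vn3 (I : Cell) (a β γ : ℝ) (g c : ℝ → ℂ) (ha : 1 ≤ |a|) (hγ : 1 ≤ |γ|)
    (hab : 1 ≤ |a - β|) (hgb : 1 ≤ |γ - β|) (hag : 1 ≤ |a - γ|) (hg : s4b_Bd I g) (hc : s4b_Bd I c) :
    ‖s4b_S2 a β γ g c‖ ^ 2 ≤ I.len ^ 4 * (s4b_cubeInt g).re := by
  set f3 : ℝ × (ℝ × ℝ) → ℂ := fun p => s4b_dl (γ - β) p.2.1 (s4b_dl γ p.1 c) p.2.2 with hf3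
  set E3 : (ℝ × (ℝ × ℝ)) × ℝ → ℂ := fun p => ((s4b_one I p.1.2.2 : ℝ) : ℂ) *
    s4b_dl (a - β) p.1.2.1 (s4b_dl a p.1.1 g) (p.1.2.2 + (a - γ) * p.2) with hE3
  have hf : s4b_Nice f3 := s4b_f3_nice I β γ c hγ hgb hc
  have hE : s4b_Nice E3 := s4b_E3_nice I a β γ g ha hab hag hg
  have hh : s4b_Nice (fun p => ∫ t, E3 (p, t)) := hE.integral_right
  have hl := s4b_cell_len_pos I
  have h1 := s4b_cs volume f3 (fun p => ∫ t, E3 (p, t)) hf.memLp_two hh.memLp_two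
  have h0 : s4b_S2 a β γ g c = ∫ p, f3 p * ∫ t, E3 (p, t) := by
    rw [(hf.mul hh).integral_prod3]
    unfold s4b_S2
    refine integral_congr_ae (Filter.Eventually.of_forall fun s => ?_)
    refine integral_congr_ae (Filter.Eventually.of_forall fun s' => ?_)
    refine integral_congr_ae (Filter.Eventually.of_forall fun y => ?_)
    simp only [hf3, hE3]
    rw [integral_const_mul]
    by_cases hy : y ∈ I.set
    · have : s4b_one I y = 1 := Set.indicator_of_mem hy _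
      rw [this]; simp
    · have : s4b_dl (γ - β) s' (s4b_dl γ s c) y = 0 := by
        simp only [s4b_dl, hc.supp y hy]; simp
      rw [this]; simp
  set κ : ℝ := |a⁻¹| * |(a - β)⁻¹| * |(a - γ)⁻¹| * (I.len * |(a - γ)⁻¹|) with hκ
  have h2 : ((∫ p, ‖∫ t, E3 (p, t)‖ ^ 2 : ℝ) : ℂ) = (κ : ℂ) * s4b_cubeInt g := by
    rw [← s4b_integral_mul_conj, (hh.mul hh.conj).integral_prod3]
    have e1 : ∀ s s', ∫ y, (∫ t, E3 ((s, (s', y)), t)) * conj (∫ t, E3 ((s, (s', y)), t))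
        = ∫ s'', ((I.len * |(a - γ)⁻¹| : ℝ) : ℂ) * ∫ u, s4b_cubeProd g u (a * s) ((a - β) * s') ((a - γ) * s'') := by
      intro s s'
      have hEs : s4b_Nice (fun q : ℝ × ℝ => E3 ((s, (s', q.1)), q.2)) :=
        hE.comp (φ := fun q : ℝ × ℝ => ((s, (s', q.1)), q.2)) (by fun_prop) fun r => ⟨r, fun q hq => by
          rw [Prod.norm_def] at hq ⊢
          have k1 := (le_max_left _ _).trans hq
          have k2 := (le_max_right _ _).trans hq
          exact max_le ((norm_snd_le (s', q.1)).trans ((norm_snd_le (s, (s', q.1))).trans k1)) k2⟩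
      rw [s4b_sq_expand (fun q : ℝ × ℝ => E3 ((s, (s', q.1)), q.2)) hEs 0]
      refine integral_congr_ae (Filter.Eventually.of_forall fun s'' => ?_)
      dsimp only
      have e2 : ∀ y t, E3 ((s, (s', y - 0 * t)), t) * conj (E3 ((s, (s', y - 0 * t)), t + s''))
          = ((s4b_one I y : ℝ) : ℂ) * s4b_cubeProd g (y + (a - γ) * t) (a * s) ((a - β) * s') ((a - γ) * s'') := by
        intro y t
        rw [← s4b_dl3_eq]
        have e3 : y - 0 * t = y := by ring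
        have e4 : y + (a - γ) * (t + s'') = y + (a - γ) * t + (a - γ) * s'' := by ring
        have e5 : ((s4b_one I y : ℝ) : ℂ) * ((s4b_one I y : ℝ) : ℂ) = ((s4b_one I y : ℝ) : ℂ) := by
          by_cases hy : y ∈ I.set
          · have : s4b_one I y = 1 := Set.indicator_of_mem hy _
            rw [this]; simp
          · have : s4b_one I y = 0 := Set.indicator_of_notMem hy _
            rw [this]; simp
        simp only [hE3, e3, e4, map_mul, Complex.conj_ofReal]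
        rw [s4b_dl_def (a - γ)]
        calc _ = (((s4b_one I y : ℝ) : ℂ) * ((s4b_one I y : ℝ) : ℂ)) *
              (s4b_dl (a - β) s' (s4b_dl a s g) (y + (a - γ) * t) *
                conj (s4b_dl (a - β) s' (s4b_dl a s g) (y + (a - γ) * t + (a - γ) * s''))) := by ring
          _ = _ := by rw [e5]
      simp only [e2]
      have e6 : ∀ y, ∫ t, ((s4b_one I y : ℝ) : ℂ) *
            s4b_cubeProd g (y + (a - γ) * t) (a * s) ((a - β) * s') ((a - γ) * s'')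
          = ((s4b_one I y : ℝ) : ℂ) * ((|(a - γ)⁻¹| : ℝ) : ℂ) *
              ∫ u, s4b_cubeProd g u (a * s) ((a - β) * s') ((a - γ) * s'') := by
        intro y
        rw [integral_const_mul,
          s4b_integral_affine (fun u => s4b_cubeProd g u (a * s) ((a - β) * s') ((a - γ) * s'')) y (a - γ),
          Complex.real_smul, mul_assoc]
      simp only [e6]
      simp only [mul_assoc]
      rw [integral_mul_const, integral_complex_ofReal, s4b_integral_one]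
      push_cast
      ring
    simp only [e1]
    rw [s4b_rescale3 (fun h1 h2 h3 => ((I.len * |(a - γ)⁻¹| : ℝ) : ℂ) * ∫ u, s4b_cubeProd g u h1 h2 h3) a (a - β) (a - γ)]
    simp only [integral_const_mul]
    rw [s4b_cube_reorder I g hg, Complex.real_smul, hκ]
    push_cast
    ring
  have h3 : ∫ p, ‖f3 p‖ ^ 2 ≤ I.len ^ 3 := s4b_f3_vol I β γ c hγ hgb hc
  have hκ0 : 0 < κ := by
    have k1 : a ≠ 0 := fun h => by rw [h] at ha; simp at ha; linarith
    have k2 : a - β ≠ 0 := fun h => by rw [h] at hab; simp at hab; linarith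
    have k3 : a - γ ≠ 0 := fun h => by rw [h] at hag; simp at hag; linarith
    rw [hκ]; positivity
  have hκ1 : κ ≤ I.len := by
    have l1 : |a⁻¹| ≤ 1 := by rw [abs_inv]; exact inv_le_one_of_one_le₀ ha
    have l2 : |(a - β)⁻¹| ≤ 1 := by rw [abs_inv]; exact inv_le_one_of_one_le₀ hab
    have l3 : |(a - γ)⁻¹| ≤ 1 := by rw [abs_inv]; exact inv_le_one_of_one_le₀ hag
    have m1 : |a⁻¹| * |(a - β)⁻¹| ≤ 1 := mul_le_one₀ l1 (abs_nonneg _) l2
    have m2 : |a⁻¹| * |(a - β)⁻¹| * |(a - γ)⁻¹| ≤ 1 := mul_le_one₀ m1 (abs_nonneg _) l3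
    have m3 : I.len * |(a - γ)⁻¹| ≤ I.len := by nlinarith [abs_nonneg (a - γ)⁻¹]
    rw [hκ]
    calc _ ≤ 1 * (I.len * |(a - γ)⁻¹|) := mul_le_mul_of_nonneg_right m2 (by positivity)
      _ ≤ I.len := by rw [one_mul]; exact m3
  have h4 : ∫ p, ‖∫ t, E3 (p, t)‖ ^ 2 = κ * (s4b_cubeInt g).re := by
    have := congrArg Complex.re h2
    simpa using this
  have h5 : 0 ≤ ∫ p, ‖∫ t, E3 (p, t)‖ ^ 2 := integral_nonneg fun _ => sq_nonneg _
  have h6 : 0 ≤ (s4b_cubeInt g).re := by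
    rw [h4] at h5
    exact nonneg_of_mul_nonneg_right h5 hκ0
  rw [h0]
  calc _ ≤ (∫ p, ‖f3 p‖ ^ 2) * ∫ p, ‖∫ t, E3 (p, t)‖ ^ 2 := h1
    _ ≤ I.len ^ 3 * (I.len * (s4b_cubeInt g).re) := by
        rw [h4]
        exact mul_le_mul h3 (mul_le_mul_of_nonneg_right hκ1 h6) (mul_nonneg hκ0.le h6) (by positivity)
    _ = _ := by ring

theorem s4b_exists_perm : ∀ i j : Fin 4, i ≠ j → ∃ σ : Equiv.Perm (Fin 4), σ 0 = j ∧ σ 1 = i := by
  decide

/-- the unweighted von Neumann inequality -/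
theorem s4b_vn_raw (I : Cell) (z : Fin 4 → ℝ → ℂ) (i j : Fin 4) (hij : i ≠ j)
    (hR : Measurable (z j)) (hR2 : MemLp (z j) 2 volume) (hRs : ∀ y, y ∉ I.set → z j y = 0)
    (hb : ∀ k, k ≠ j → s4b_Bd I (z k)) :
    ‖s4b_raw z‖ ^ 8 ≤ (∫ y, ‖z j y‖ ^ 2) ^ 4 * I.len ^ 8 * (s4b_cubeInt (z i)).re := by
  obtain ⟨σ, h0, h1⟩ := s4b_exists_perm i j hij
  subst h0 h1
  have hne : ∀ p q : Fin 4, p ≠ q → 1 ≤ |(((σ p : Fin 4) : ℕ) : ℝ) - (((σ q : Fin 4) : ℕ) : ℝ)| :=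
    fun p q hpq => s4b_slot_sep _ _ (fun h => hpq (σ.injective h))
  have hbd : ∀ p : Fin 4, p ≠ 0 → s4b_Bd I (z (σ p)) := fun p hp =>
    hb _ (fun h => hp (σ.injective h))
  set a : ℝ := (((σ 1 : Fin 4) : ℕ) : ℝ) - (((σ 0 : Fin 4) : ℕ) : ℝ) with ha
  set β : ℝ := (((σ 2 : Fin 4) : ℕ) : ℝ) - (((σ 0 : Fin 4) : ℕ) : ℝ) with hβ
  set γ : ℝ := (((σ 3 : Fin 4) : ℕ) : ℝ) - (((σ 0 : Fin 4) : ℕ) : ℝ) with hγ
  have e0 := s4b_raw_eq_T I z σ hR hR2 hRs hb
  have ha1 : 1 ≤ |a| := hne 1 0 (by decide)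
  have hβ1 : 1 ≤ |β| := hne 2 0 (by decide)
  have hγ1 : 1 ≤ |γ| := hne 3 0 (by decide)
  have hab : 1 ≤ |a - β| := by
    have := hne 1 2 (by decide)
    have e : a - β = (((σ 1 : Fin 4) : ℕ) : ℝ) - (((σ 2 : Fin 4) : ℕ) : ℝ) := by rw [ha, hβ]; ring
    rwa [e]
  have hgb : 1 ≤ |γ - β| := by
    have := hne 3 2 (by decide)
    have e : γ - β = (((σ 3 : Fin 4) : ℕ) : ℝ) - (((σ 2 : Fin 4) : ℕ) : ℝ) := by rw [hγ, hβ]; ring
    rwa [e]
  have hag : 1 ≤ |a - γ| := by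
    have := hne 1 3 (by decide)
    have e : a - γ = (((σ 1 : Fin 4) : ℕ) : ℝ) - (((σ 3 : Fin 4) : ℕ) : ℝ) := by rw [ha, hγ]; ring
    rwa [e]
  have k1 := s4b_vn1 I a β γ (z (σ 0)) (z (σ 1)) (z (σ 2)) (z (σ 3)) ha1 hβ1 hγ1 hab hgb hag hR hR2
    (hbd 1 (by decide)) (hbd 2 (by decide)) (hbd 3 (by decide))
  have k2 := s4b_vn2 I a β γ (z (σ 1)) (z (σ 2)) (z (σ 3)) ha1 hβ1 hγ1 hab hgb hag
    (hbd 1 (by decide)) (hbd 2 (by decide)) (hbd 3 (by decide))
  have k3 := s4b_vn3 I a β γ (z (σ 1)) (z (σ 3)) ha1 hγ1 hab hgb hag (hbd 1 (by decide)) (hbd 3 (by decide))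
  rw [e0]
  set T := ‖s4b_T a β γ (z (σ 0)) (z (σ 1)) (z (σ 2)) (z (σ 3))‖ with hT
  set S1 := ‖s4b_S1 a β γ (z (σ 1)) (z (σ 2)) (z (σ 3))‖ with hS1
  set S2 := ‖s4b_S2 a β γ (z (σ 1)) (z (σ 3))‖ with hS2
  set Q := (s4b_cubeInt (z (σ 1))).re with hQ
  set E := ∫ y, ‖z (σ 0) y‖ ^ 2 with hE
  have hE0 : 0 ≤ E := integral_nonneg (fun y => by positivity)
  have hl0 : 0 ≤ I.len := by unfold Cell.len; positivity
  have hT0 : 0 ≤ T := norm_nonneg _
  have hS10 : 0 ≤ S1 := norm_nonneg _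
  have hS20 : 0 ≤ S2 := norm_nonneg _
  calc T ^ 8 = (T ^ 2) ^ 4 := by ring
    _ ≤ (E * S1) ^ 4 := by gcongr
    _ = E ^ 4 * (S1 ^ 2) ^ 2 := by ring
    _ ≤ E ^ 4 * (I.len ^ 2 * S2) ^ 2 := by gcongr
    _ = E ^ 4 * I.len ^ 4 * S2 ^ 2 := by ring
    _ ≤ E ^ 4 * I.len ^ 4 * (I.len ^ 4 * Q) := by gcongr
    _ = E ^ 4 * I.len ^ 8 * Q := by ring

/-- the `A`-th of `N` equal subintervals of the cell -/
def s4b_sub (I : Cell) (N : ℕ) (A : Fin N) : Set ℝ :=
  Set.Ico (I.left + (A : ℝ) * I.len / N) (I.left + ((A : ℝ) + 1) * I.len / N)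

theorem s4b_sub_exists (I : Cell) (N : ℕ) (hN : 1 ≤ N) {y : ℝ} (hy : y ∈ I.set) : ∃ A : Fin N, y ∈ s4b_sub I N A := by
  have hl := s4b_cell_len_pos I
  have hN0 : (0 : ℝ) < N := by exact_mod_cast hN
  obtain ⟨h1, h2⟩ := hy
  rw [s4b_cell_right] at h2
  set u : ℝ := (y - I.left) * N / I.len with hu
  have hu0 : 0 ≤ u := by
    have : 0 ≤ y - I.left := by linarith
    positivity
  have huN : u < N := by
    rw [hu, div_lt_iff₀ hl]
    nlinarith
  have hfl : ⌊u⌋₊ < N := by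
    have := Nat.floor_le hu0
    have : ((⌊u⌋₊ : ℕ) : ℝ) < N := lt_of_le_of_lt this huN
    exact_mod_cast this
  have hy' : y = I.left + u * I.len / N := by
    rw [hu]; field_simp; ring
  refine ⟨⟨⌊u⌋₊, hfl⟩, ?_, ?_⟩
  · show I.left + ((⌊u⌋₊ : ℕ) : ℝ) * I.len / N ≤ y
    rw [hy']
    have := Nat.floor_le hu0
    gcongr
  · show y < I.left + (((⌊u⌋₊ : ℕ) : ℝ) + 1) * I.len / N
    rw [hy']
    have := Nat.lt_floor_add_one u
    gcongr

theorem s4b_sub_unique (I : Cell) (N : ℕ) {y : ℝ} {A B : Fin N} (hA : y ∈ s4b_sub I N A) (hB : y ∈ s4b_sub I N B) :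
    A = B := by
  have hl := s4b_cell_len_pos I
  have hN0 : (0 : ℝ) < N := by
    have : 0 < N := lt_of_le_of_lt (Nat.zero_le _) A.2
    exact_mod_cast this
  have key : ∀ {A B : Fin N}, y ∈ s4b_sub I N A → y ∈ s4b_sub I N B → (A : ℕ) ≤ B := by
    intro A B hA hB
    have h1 := hA.1
    have h2 := hB.2
    have h3 : (A : ℝ) * I.len / N < ((B : ℝ) + 1) * I.len / N := by linarith
    rw [div_lt_div_iff_of_pos_right hN0, mul_lt_mul_iff_left₀ hl] at h3
    have : ((A : ℕ) : ℝ) < ((B + 1 : ℕ) : ℝ) := by push_cast; exact h3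
    have : (A : ℕ) < B + 1 := by exact_mod_cast this
    omega
  exact Fin.ext (le_antisymm (key hA hB) (key hB hA))

theorem s4b_step_eval (I : Cell) (N : ℕ) (κ : Fin N → Fin N → ℂ) {y y' : ℝ} {A0 A0' : Fin N}
    (h : y ∈ s4b_sub I N A0) (h' : y' ∈ s4b_sub I N A0') :
    ∑ A, ∑ A', κ A A' * (s4b_sub I N A).indicator (fun _ => (1 : ℂ)) y *
      (s4b_sub I N A').indicator (fun _ => (1 : ℂ)) y' = κ A0 A0' := by
  rw [Finset.sum_eq_single A0, Finset.sum_eq_single A0']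
  · rw [Set.indicator_of_mem h, Set.indicator_of_mem h']; ring
  · intro A' _ hne
    have : y' ∉ s4b_sub I N A' := fun hm => hne (s4b_sub_unique I N hm h')
    rw [Set.indicator_of_notMem this]; ring
  · intro hn; exact (hn (Finset.mem_univ _)).elim
  · intro A _ hne
    have : y ∉ s4b_sub I N A := fun hm => hne (s4b_sub_unique I N hm h)
    refine Finset.sum_eq_zero fun A' _ => ?_
    rw [Set.indicator_of_notMem this]; ring
  · intro hn; exact (hn (Finset.mem_univ _)).elim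

open Classical in
theorem s4b_kernel_step (c0 C0 : ℝ) (hc0 : 0 < c0) (hC0 : 1 ≤ C0) :
    ∃ K : ℝ, 1 ≤ K ∧ ∀ (I : Cell) (w : ℝ × ℝ → ℂ) (j k : Fin 4) (N : ℕ), Admissible c0 C0 I w → j ≠ k → 1 ≤ N →
      ∃ κ : Fin N → Fin N → ℂ, (∀ A A', ‖κ A A'‖ ≤ K) ∧
        ∀ p : ℝ × ℝ, p.1 + (j : ℝ) * p.2 ∈ I.set → p.1 + (k : ℝ) * p.2 ∈ I.set →
          ‖w p - ∑ A, ∑ A', κ A A' * (s4b_sub I N A).indicator (fun _ => (1 : ℂ)) (p.1 + (j : ℝ) * p.2) *
              (s4b_sub I N A').indicator (fun _ => (1 : ℂ)) (p.1 + (k : ℝ) * p.2)‖ ≤ K / N := by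
  set X2 : ℝ := (C0 * 2) ^ (C0 * 2) with hX2
  set X3 : ℝ := (C0 * 3) ^ (C0 * 3) with hX3
  have hX20 : 0 ≤ X2 := Real.rpow_nonneg (by linarith) _
  have hX30 : 0 ≤ X3 := Real.rpow_nonneg (by linarith) _
  refine ⟨X2 + 4 * X3 + 1, by linarith, fun I w j k N hw hjk hN => ?_⟩
  have hl := s4b_cell_len_pos I
  have hN0 : (0 : ℝ) < N := by exact_mod_cast hN
  have hsup : ∀ p, ‖w p‖ ≤ X2 := by
    intro p
    have := hw.deriv 0 p
    rw [norm_iteratedFDeriv_zero] at this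
    simpa [hX2] using this
  have hder : ∀ p, ‖fderiv ℝ w p‖ ≤ I.len⁻¹ * X3 := by
    intro p
    have := hw.deriv 1 p
    rw [norm_iteratedFDeriv_one] at this
    have e : ((1 : ℕ) : ℝ) + 2 = 3 := by norm_num
    rw [e, pow_one] at this
    exact this
  have hlip : ∀ p p', ‖w p - w p'‖ ≤ I.len⁻¹ * X3 * ‖p - p'‖ := by
    intro p p'
    exact Convex.norm_image_sub_le_of_norm_fderiv_le (𝕜 := ℝ) (s := Set.univ)
      (fun x _ => (hw.smooth.differentiable (by simp)).differentiableAt) (fun x _ => hder x) convex_univ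
      (Set.mem_univ _) (Set.mem_univ _)
  set d : ℝ := (k : ℝ) - (j : ℝ) with hd
  have hd1 : 1 ≤ |d| := s4b_slot_sep k j (Ne.symm hjk)
  have hd0 : d ≠ 0 := fun h => by rw [h] at hd1; simp at hd1; linarith
  set lft : Fin N → ℝ := fun A => I.left + (A : ℝ) * I.len / N with hlft
  set pt : Fin N → Fin N → ℝ × ℝ := fun A A' =>
    (lft A - (j : ℝ) * ((lft A' - lft A) / d), (lft A' - lft A) / d) with hpt
  refine ⟨fun A A' => w (pt A A'), fun A A' => (hsup _).trans (by linarith), fun p hpj hpk => ?_⟩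
  obtain ⟨A0, hA0⟩ := s4b_sub_exists I N hN hpj
  obtain ⟨A0', hA0'⟩ := s4b_sub_exists I N hN hpk
  rw [s4b_step_eval I N (fun A A' => w (pt A A')) hA0 hA0']
  refine (hlip p (pt A0 A0')).trans ?_
  set h : ℝ := I.len / N with hh
  have hh0 : 0 < h := by positivity
  have b1 : 0 ≤ p.1 + (j : ℝ) * p.2 - lft A0 ∧ p.1 + (j : ℝ) * p.2 - lft A0 ≤ h := by
    obtain ⟨u1, u2⟩ := hA0
    have e : I.left + ((A0 : ℝ) + 1) * I.len / N = lft A0 + h := by simp only [hlft, hh]; ring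
    rw [e] at u2
    exact ⟨by simp only [hlft]; linarith, by linarith⟩
  have b2 : 0 ≤ p.1 + (k : ℝ) * p.2 - lft A0' ∧ p.1 + (k : ℝ) * p.2 - lft A0' ≤ h := by
    obtain ⟨u1, u2⟩ := hA0'
    have e : I.left + ((A0' : ℝ) + 1) * I.len / N = lft A0' + h := by simp only [hlft, hh]; ring
    rw [e] at u2
    exact ⟨by simp only [hlft]; linarith, by linarith⟩
  set δ : ℝ := p.1 + (j : ℝ) * p.2 - lft A0 with hδ
  set δ' : ℝ := p.1 + (k : ℝ) * p.2 - lft A0' with hδ'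
  have c2 : p.2 - (lft A0' - lft A0) / d = (δ' - δ) / d := by
    have e : δ' - δ = d * p.2 - (lft A0' - lft A0) := by rw [hδ, hδ', hd]; ring
    rw [e]; field_simp
  have c1 : p.1 - (lft A0 - (j : ℝ) * ((lft A0' - lft A0) / d)) = δ - (j : ℝ) * ((δ' - δ) / d) := by
    rw [← c2, hδ]; ring
  have n2 : |(δ' - δ) / d| ≤ h := by
    rw [abs_div, div_le_iff₀ (by linarith)]
    have : |δ' - δ| ≤ h := by rw [abs_le]; constructor <;> linarith [b1.1, b1.2, b2.1, b2.2]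
    nlinarith
  have hj3 : |(j : ℝ)| ≤ 3 := by
    have : ((j : ℕ) : ℝ) ≤ 3 := by exact_mod_cast (by omega : (j : ℕ) ≤ 3)
    rw [abs_of_nonneg (by positivity)]; exact this
  have n1 : |δ - (j : ℝ) * ((δ' - δ) / d)| ≤ 4 * h := by
    refine (abs_sub _ _).trans ?_
    rw [abs_mul, abs_of_nonneg b1.1]
    nlinarith [abs_nonneg ((δ' - δ) / d), abs_nonneg (j : ℝ), b1.2]
  have n3 : ‖p - pt A0 A0'‖ ≤ 4 * h := by
    rw [Prod.norm_def]
    refine max_le ?_ ?_
    · show ‖p.1 - (lft A0 - (j : ℝ) * ((lft A0' - lft A0) / d))‖ ≤ _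
      rw [c1]; exact n1
    · show ‖p.2 - (lft A0' - lft A0) / d‖ ≤ _
      rw [c2]; exact n2.trans (by linarith)
  calc I.len⁻¹ * X3 * ‖p - pt A0 A0'‖ ≤ I.len⁻¹ * X3 * (4 * h) :=
        mul_le_mul_of_nonneg_left n3 (by positivity)
    _ = 4 * X3 / N := by rw [hh]; field_simp
    _ ≤ (X2 + 4 * X3 + 1) / N := by gcongr; linarith

theorem s4b_exists_third : ∀ i j : Fin 4, ∃ k : Fin 4, k ≠ i ∧ k ≠ j := by decide

theorem s4b_prod_mult {𝕂 : Type*} [CommMonoid 𝕂] (j k : Fin 4) (f g : Fin 4 → 𝕂) :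
    ∏ l, ((if l = j then f l else 1) * (if l = k then g l else 1)) = f j * g k := by
  rw [Finset.prod_mul_distrib, Finset.prod_ite_eq', Finset.prod_ite_eq']
  simp

/-- **von Neumann bound** (Lemma 4.11, with a polynomial loss) -/
theorem s4b_vn (c0 C0 : ℝ) (hc0 : 0 < c0) (hC0 : 1 ≤ C0) :
    ∃ K : ℝ, 1 ≤ K ∧ ∀ (I : Cell) (w : ℝ × ℝ → ℂ) (z : Fin 4 → ℝ → ℂ) (i j : Fin 4) (N : ℕ),
      Admissible c0 C0 I w → i ≠ j → 1 ≤ N → (∀ k, Measurable (z k)) → s4b_L2 I (z j) →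
      (∀ k, k ≠ j → SupLe I (z k) 1) →
      ∀ U : ℝ, 0 ≤ U → s4b_U8 I (z i) ≤ U ^ 8 →
      ‖form I w z‖ ≤ K * nnorm 2 I (z j) * ((N : ℝ) ^ 2 * U + 1 / N) := by
  obtain ⟨K, hK1, hK⟩ := s4b_kernel_step c0 C0 hc0 hC0
  refine ⟨K, hK1, fun I w z i j N hw hij hN hm hL2 hsup U hU hU8 => ?_⟩
  classical
  have hl := s4b_cell_len_pos I
  have hN0 : (0 : ℝ) < N := by exact_mod_cast hN
  have hK0 : 0 ≤ K := by linarith
  obtain ⟨k, hki, hkj⟩ : ∃ k : Fin 4, k ≠ i ∧ k ≠ j := s4b_exists_third i j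
  obtain ⟨κ, hκ, hstep⟩ := hK I w j k N hw (Ne.symm hkj) hN
  have hIm := s4b_cell_measurableSet I
  set z' : Fin 4 → ℝ → ℂ := fun l => I.set.indicator (z l) with hz'
  have hz'm : ∀ l, Measurable (z' l) := fun l => (hm l).indicator hIm
  have hz's : ∀ l y, y ∉ I.set → z' l y = 0 := fun l y hy => Set.indicator_of_notMem hy _
  have hz'1 : ∀ l, l ≠ j → ∀ y, ‖z' l y‖ ≤ 1 := by
    intro l hlj y
    by_cases hy : y ∈ I.set
    · simp only [hz', Set.indicator_of_mem hy]; exact hsup l hlj y hy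
    · rw [hz's l y hy, norm_zero]; exact zero_le_one
  obtain ⟨hint1, hnn⟩ := s4b_nnorm_one_le_two I (z j) (hm j) hL2
  set nn1 := nnorm 1 I (z j) with hnn1
  set nn2 := nnorm 2 I (z j) with hnn2
  have hnn10 : 0 ≤ nn1 := nnorm_nonneg _ _ _
  have hnn20 : 0 ≤ nn2 := nnorm_nonneg _ _ _
  set Y : Fin 4 → ℝ × ℝ → ℝ := fun l p => p.1 + (l : ℝ) * p.2 with hY
  have hYm : ∀ l, Measurable (Y l) := by intro l; simp only [hY]; fun_prop
  set P : ℝ × ℝ → ℂ := fun p => ∏ l, z' l (Y l p) with hP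
  have hPm : Measurable P := Finset.measurable_prod _ fun l _ => (hz'm l).comp (hYm l)
  -- the dominating function
  set F : ℝ → ℝ := fun y => ‖z' j y‖ with hF
  have hFe : F = I.set.indicator (fun y => ‖z j y‖) := by
    funext y; simp only [hF, hz']; exact norm_indicator_eq_indicator_norm _ _
  have hFi : Integrable F := by rw [hFe, integrable_indicator_iff hIm]; exact hint1.norm
  have hFint : ∫ y, F y = nn1 * I.len := by
    rw [hFe, integral_indicator hIm]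
    have := nnorm_rpow_mul_len (p := 1) one_pos I (z j)
    simp only [Real.rpow_one] at this
    exact this.symm
  obtain ⟨hDi, hDint⟩ := s4b_pair_integral j k (Ne.symm hkj) F (s4b_one I) hFi (s4b_one_nice I).integrable
  set Dm : ℝ × ℝ → ℝ := fun p => F (Y j p) * s4b_one I (Y k p) with hDm
  have hDm0 : ∀ p, 0 ≤ Dm p := fun p => mul_nonneg (norm_nonneg _) (s4b_one_nonneg I _)
  have hDmi : Integrable Dm := hDi
  have hDmint : ∫ p, Dm p ≤ nn2 * I.len ^ 2 := by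
    have e : ∫ p, Dm p = |(k : ℝ) - (j : ℝ)|⁻¹ * ((∫ y, F y) * ∫ y, s4b_one I y) := hDint
    rw [e, hFint, s4b_integral_one]
    have h1 : |(k : ℝ) - (j : ℝ)|⁻¹ ≤ 1 := inv_le_one_of_one_le₀ (s4b_slot_sep k j hkj)
    have h2 : 0 ≤ nn1 * I.len * I.len := by positivity
    calc |(k : ℝ) - (j : ℝ)|⁻¹ * (nn1 * I.len * I.len) ≤ 1 * (nn1 * I.len * I.len) :=
          mul_le_mul_of_nonneg_right h1 h2
      _ = nn1 * I.len ^ 2 := by ring
      _ ≤ nn2 * I.len ^ 2 := by gcongr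
  have hPle : ∀ p, ‖P p‖ ≤ Dm p := by
    intro p
    simp only [hP, norm_prod]
    calc ∏ l, ‖z' l (Y l p)‖
        ≤ ∏ l, ((if l = j then F (Y l p) else 1) * (if l = k then s4b_one I (Y l p) else 1)) := by
          refine Finset.prod_le_prod (fun _ _ => norm_nonneg _) fun l _ => ?_
          by_cases h1 : l = j
          · subst h1
            rw [if_pos rfl, if_neg (Ne.symm hkj), mul_one]
          · rw [if_neg h1, one_mul]
            by_cases h2 : l = k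
            · subst h2
              rw [if_pos rfl]
              by_cases hy : Y l p ∈ I.set
              · have : s4b_one I (Y l p) = 1 := Set.indicator_of_mem hy _
                rw [this]; exact hz'1 l h1 _
              · rw [hz's l _ hy, norm_zero]; exact s4b_one_nonneg I _
            · rw [if_neg h2]; exact hz'1 l h1 _
      _ = Dm p := s4b_prod_mult j k _ _
  -- the step kernel
  set ind : Fin N → ℝ → ℂ := fun A => (s4b_sub I N A).indicator (fun _ => (1 : ℂ)) with hind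
  have hindm : ∀ A, Measurable (ind A) := fun A => measurable_const.indicator measurableSet_Ico
  have hind1 : ∀ A y, ‖ind A y‖ ≤ 1 := by
    intro A y
    by_cases hy : y ∈ s4b_sub I N A
    · simp only [hind, Set.indicator_of_mem hy]; simp
    · simp only [hind, Set.indicator_of_notMem hy]; simp
  set stp : ℝ × ℝ → ℂ := fun p => ∑ A, ∑ A', κ A A' * ind A (Y j p) * ind A' (Y k p) with hstp
  have hstpm : Measurable stp :=
    Finset.measurable_sum _ fun A _ => Finset.measurable_sum _ fun A' _ =>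
      (measurable_const.mul ((hindm A).comp (hYm j))).mul ((hindm A').comp (hYm k))
  have hwm : Measurable w := hw.smooth.continuous.measurable
  have herr : ∀ p, ‖(w p - stp p) * P p‖ ≤ K / N * Dm p := by
    intro p
    by_cases hP0 : P p = 0
    · rw [hP0, mul_zero, norm_zero]
      exact mul_nonneg (by positivity) (hDm0 p)
    · have hmem : ∀ l, Y l p ∈ I.set := by
        intro l
        by_contra hn
        exact hP0 (Finset.prod_eq_zero (Finset.mem_univ l) (hz's l _ hn))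
      rw [norm_mul]
      exact mul_le_mul (hstep p (hmem j) (hmem k)) (hPle p) (norm_nonneg _) (by positivity)
  have herri : Integrable (fun p => (w p - stp p) * P p) :=
    (hDmi.const_mul (K / N)).mono' ((hwm.sub hstpm).mul hPm).aestronglyMeasurable
      (Filter.Eventually.of_forall herr)
  have herrint : ‖∫ p, (w p - stp p) * P p‖ ≤ K / N * (nn2 * I.len ^ 2) := by
    refine (norm_integral_le_of_norm_le (hDmi.const_mul (K / N)) (Filter.Eventually.of_forall herr)).trans ?_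
    rw [integral_const_mul]
    exact mul_le_mul_of_nonneg_left hDmint (by positivity)
  -- the main terms
  set mult : Fin N → Fin N → Fin 4 → ℝ → ℂ := fun A A' l y =>
    (if l = j then ind A y else 1) * (if l = k then ind A' y else 1) with hmult
  have hmultm : ∀ A A' l, Measurable (mult A A' l) := by
    intro A A' l
    refine Measurable.mul ?_ ?_
    · by_cases h : l = j
      · simp only [h, if_true]; exact hindm A
      · simp only [h, if_false]; exact measurable_const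
    · by_cases h : l = k
      · simp only [h, if_true]; exact hindm A'
      · simp only [h, if_false]; exact measurable_const
  have hmult1 : ∀ A A' l y, ‖mult A A' l y‖ ≤ 1 := by
    intro A A' l y
    simp only [hmult, norm_mul]
    refine mul_le_one₀ ?_ (norm_nonneg _) ?_
    · split_ifs
      · exact hind1 A y
      · simp
    · split_ifs
      · exact hind1 A' y
      · simp
  set z'' : Fin N → Fin N → Fin 4 → ℝ → ℂ := fun A A' l y => mult A A' l y * z' l y with hz''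
  have hprod : ∀ A A' p, ∏ l, z'' A A' l (Y l p) = ind A (Y j p) * ind A' (Y k p) * P p := by
    intro A A' p
    simp only [hz'', hP, Finset.prod_mul_distrib]
    congr 1
    exact s4b_prod_mult j k _ _
  have hz''le : ∀ A A' l y, ‖z'' A A' l y‖ ≤ ‖z' l y‖ := by
    intro A A' l y
    simp only [hz'', norm_mul]
    calc ‖mult A A' l y‖ * ‖z' l y‖ ≤ 1 * ‖z' l y‖ := mul_le_mul_of_nonneg_right (hmult1 A A' l y) (norm_nonneg _)
      _ = _ := one_mul _
  have hz'L2 : MemLp (z' j) 2 volume := (memLp_indicator_iff_restrict hIm).mpr hL2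
  have hz'sq : ∫ y, ‖z' j y‖ ^ 2 = nn2 ^ 2 * I.len := by
    have e1 : (fun y => ‖z' j y‖ ^ 2) = I.set.indicator (fun y => ‖z j y‖ ^ 2) := by
      funext y
      by_cases hy : y ∈ I.set
      · simp only [hz', Set.indicator_of_mem hy]
      · simp only [hz', Set.indicator_of_notMem hy]; simp
    rw [e1, integral_indicator hIm]
    have := nnorm_rpow_mul_len (p := 2) two_pos I (z j)
    simp only [Real.rpow_two] at this
    exact this.symm
  have hraw : ∀ A A', ‖s4b_raw (z'' A A')‖ ≤ I.len ^ 2 * nn2 * U := by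
    intro A A'
    have hzm : ∀ l, Measurable (z'' A A' l) := fun l => (hmultm A A' l).mul (hz'm l)
    have hzL2 : MemLp (z'' A A' j) 2 volume :=
      hz'L2.mono (hzm j).aestronglyMeasurable (Filter.Eventually.of_forall fun y => hz''le A A' j y)
    have h1 := s4b_vn_raw I (z'' A A') i j hij (hzm j) hzL2
      (fun y hy => by simp only [hz'', hz's j y hy, mul_zero])
      (fun l hlj => ⟨hzm l, fun y => (hz''le A A' l y).trans (hz'1 l hlj y),
        fun y hy => by simp only [hz'', hz's l y hy, mul_zero]⟩)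
    have e1 : z'' A A' i = z' i := by
      funext y
      simp only [hz'', hmult, if_neg hij, if_neg (Ne.symm hki), one_mul]
    have h2 : (s4b_cubeInt (z'' A A' i)).re ≤ I.len ^ 4 * U ^ 8 := by
      rw [e1]
      have : s4b_U8 I (z i) = (I.len ^ 4)⁻¹ * (s4b_cubeInt (z' i)).re := rfl
      rw [this, inv_mul_le_iff₀ (by positivity)] at hU8
      exact hU8
    have h3 : ∫ y, ‖z'' A A' j y‖ ^ 2 ≤ nn2 ^ 2 * I.len := by
      rw [← hz'sq]
      refine integral_mono ((memLp_two_iff_integrable_sq_norm (hzm j).aestronglyMeasurable).1 hzL2)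
        ((memLp_two_iff_integrable_sq_norm (hz'm j).aestronglyMeasurable).1 hz'L2) fun y => ?_
      exact pow_le_pow_left₀ (norm_nonneg _) (hz''le A A' j y) 2
    have h30 : 0 ≤ ∫ y, ‖z'' A A' j y‖ ^ 2 := integral_nonneg fun _ => sq_nonneg _
    have h4 : ‖s4b_raw (z'' A A')‖ ^ 8 ≤ (I.len ^ 2 * nn2 * U) ^ 8 := by
      calc ‖s4b_raw (z'' A A')‖ ^ 8 ≤ (∫ y, ‖z'' A A' j y‖ ^ 2) ^ 4 * I.len ^ 8 * (s4b_cubeInt (z'' A A' i)).re := h1
        _ ≤ (∫ y, ‖z'' A A' j y‖ ^ 2) ^ 4 * I.len ^ 8 * (I.len ^ 4 * U ^ 8) :=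
            mul_le_mul_of_nonneg_left h2 (by positivity)
        _ ≤ (nn2 ^ 2 * I.len) ^ 4 * I.len ^ 8 * (I.len ^ 4 * U ^ 8) := by gcongr
        _ = _ := by ring
    exact le_of_pow_le_pow_left₀ (by norm_num) (by positivity) h4
  set T : Fin N → Fin N → ℝ × ℝ → ℂ := fun A A' p => κ A A' * (ind A (Y j p) * ind A' (Y k p) * P p) with hT
  have hTi : ∀ A A', Integrable (T A A') := by
    intro A A'
    refine (hDmi.const_mul K).mono'
      (measurable_const.mul ((((hindm A).comp (hYm j)).mul ((hindm A').comp (hYm k))).mul hPm)).aestronglyMeasurable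
      (Filter.Eventually.of_forall fun p => ?_)
    simp only [hT, norm_mul]
    have a1 := hκ A A'
    have a2 := hind1 A (Y j p)
    have a3 := hind1 A' (Y k p)
    have a4 := hPle p
    have a5 : ‖ind A (Y j p)‖ * ‖ind A' (Y k p)‖ ≤ 1 := mul_le_one₀ a2 (norm_nonneg _) a3
    have a6 : ‖ind A (Y j p)‖ * ‖ind A' (Y k p)‖ * ‖P p‖ ≤ Dm p := by
      calc _ ≤ 1 * ‖P p‖ := mul_le_mul_of_nonneg_right a5 (norm_nonneg _)
        _ ≤ Dm p := by rw [one_mul]; exact a4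
    exact mul_le_mul a1 a6 (by positivity) hK0
  have hTint : ∀ A A', ∫ p, T A A' p = κ A A' * s4b_raw (z'' A A') := by
    intro A A'
    simp only [hT]
    rw [integral_const_mul]
    congr 1
    unfold s4b_raw
    refine integral_congr_ae (Filter.Eventually.of_forall fun p => ?_)
    exact (hprod A A' p).symm
  have hdecomp : ∀ p, s4b_igd w z' p = (w p - stp p) * P p + ∑ A, ∑ A', T A A' p := by
    intro p
    have e1 : ∑ A, ∑ A', T A A' p = stp p * P p := by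
      simp only [hT, hstp, Finset.sum_mul]
      refine Finset.sum_congr rfl fun A _ => Finset.sum_congr rfl fun A' _ => ?_
      ring
    rw [e1]
    show w p * P p = _
    ring
  have hform : form I w z = ((I.len ^ 2)⁻¹ : ℝ) * ∫ p, s4b_igd w z' p := by
    rw [s4b_form_eq, s4b_form_congr hc0 hw (z := z) (z' := z')
      (fun l y hy => by simp only [hz', Set.indicator_of_mem hy])]
  have hsplit : ∫ p, s4b_igd w z' p = (∫ p, (w p - stp p) * P p) + ∑ A, ∑ A', κ A A' * s4b_raw (z'' A A') := by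
    simp only [hdecomp]
    rw [integral_add herri (integrable_finsetSum _ fun A _ => integrable_finsetSum _ fun A' _ => hTi A A'),
      integral_finsetSum _ fun A _ => integrable_finsetSum _ fun A' _ => hTi A A']
    congr 1
    refine Finset.sum_congr rfl fun A _ => ?_
    rw [integral_finsetSum _ fun A' _ => hTi A A']
    exact Finset.sum_congr rfl fun A' _ => hTint A A'
  have hmain : ‖∑ A, ∑ A', κ A A' * s4b_raw (z'' A A')‖ ≤ (N : ℝ) ^ 2 * (K * (I.len ^ 2 * nn2 * U)) := by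
    calc ‖∑ A, ∑ A', κ A A' * s4b_raw (z'' A A')‖
        ≤ ∑ A : Fin N, ∑ A' : Fin N, K * (I.len ^ 2 * nn2 * U) := by
          refine (norm_sum_le _ _).trans (Finset.sum_le_sum fun A _ => ?_)
          refine (norm_sum_le _ _).trans (Finset.sum_le_sum fun A' _ => ?_)
          rw [norm_mul]
          exact mul_le_mul (hκ A A') (hraw A A') (norm_nonneg _) hK0
      _ = _ := by simp; ring
  rw [hform, hsplit, norm_mul, Complex.norm_real, Real.norm_eq_abs, abs_of_nonneg (by positivity)]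
  calc (I.len ^ 2)⁻¹ * ‖(∫ p, (w p - stp p) * P p) + ∑ A, ∑ A', κ A A' * s4b_raw (z'' A A')‖
      ≤ (I.len ^ 2)⁻¹ * (K / N * (nn2 * I.len ^ 2) + (N : ℝ) ^ 2 * (K * (I.len ^ 2 * nn2 * U))) := by
        refine mul_le_mul_of_nonneg_left ?_ (by positivity)
        exact (norm_add_le _ _).trans (add_le_add herrint hmain)
    _ = _ := by field_simp; ring

end Claimed.Agent.R258
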