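/-
Row 258, block [S4b] (architect helper99).  FILE Dec: the bounded-input decomposition (Lemma 4.10 `lem:bounded-decomposition`), with the uniform part
measured by the dual seminorm `s4b_StarLe I w · τ` of the form (instead of the `U³` norm: no seminorm property / `L²` closure of `U³` is needed).

`s4b_hb` (LEAF, pure functional analysis).  `E = Lp ℂ 2 (volume.restrict I.set)`.
   `S₁ = {∑ c_ν [φ_ν] : ι finite, φ_ν ∈ 𝒜, ∑ ‖c_ν‖ ≤ M}` (convex: index type `ι ⊕ ι'`; `0 ∈ S₁`: `ι = Empty`), `S₂ = {[u] : u ∈ 𝒰}`, `S₃ = {V : ∫ ‖V‖ ≤ σ |I|}`.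
   If `[f] ∉ closure (S₁ + S₂ + S₃)`: `RCLike.geometric_hahn_banach_closed_point` + Riesz (`InnerProductSpace.toDual`) give `h₀ ∈ E`, after normalisation
   `Re ⟪h₀, z⟫ ≤ 1` on the three sets and `Re ⟪h₀,[f]⟫ > 1`.  `h = |I| h₀` satisfies `s4b_mom I z h = ⟪h₀,[z]⟫`.
   From `S₃` (test `V = (σ|I|/μ(E)) 1_E h₀/‖h₀‖`, `E = {‖h₀‖ > 1/(σ|I|)}`): `‖h‖ ≤ 1/σ` a.e.; replace `h` by `0` on the exceptional null set.
   From `S₁` (`c = M · conj(unit)`): `‖mom I h φ‖ ≤ 1/M`.  Then `key` contradicts `Re ⟪h₀,[f]⟫ > 1`.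
   Finally choose `z₁ + [u] + V` within `ε √|I|` of `[f]` and put `v = f - ∑ c_ν φ_ν - u` (pointwise): `[v] = V + e`, `‖e‖_{1,I} ≤ ‖e‖_{2,I} ≤ ε`.
`s4b_dec` (ASSEMBLY): `σ = τ/2`, `𝒜` = bounded atoms of complexity `≤ D₀`, `𝒰 = {u : measurable, L²(I), StarLe u σ}`.  `key`: if `Re mom I f h > 1` then `⨍_I |h|² > 1`, so `h ∉ 𝒰`
   (test `u = h`), i.e. some form with `h` in a slot exceeds `σ ‖z_j‖₂`; `s4b_vn` with `N = ⌈2K/σ²⌉` gives `s4b_U8 I (σ h) > δ'^8`, `δ' = σ⁶/(18K³)`; `s4b_cont_inverse` gives an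
   atom with `‖mom I h φ‖ ≥ 1/(σ D₀) > 1/M`, `M = D₀`.
-/
import Claimed.Agent.R258.S4b.Inv
import Claimed.Agent.R258.S4b.HB
import Claimed.Agent.R258.S4b.VN
import Claimed.Agent.R258.Pack005

set_option autoImplicit false
open MeasureTheory Filter Topology
open scoped ENNReal ContDiff ComplexConjugate

namespace Claimed.Agent.R258

-- `s4b_hb` (Hahn-Banach decomposition) is proved in `S4b/HB.lean`.

/-- the conclusion of the decomposition lemma for `f` on `I`, at tolerance `τ` with budget `D` -/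
def s4b_DecAt (I : Cell) (w : ℝ × ℝ → ℂ) (τ D : ℝ) (f : ℝ → ℂ) : Prop :=
  ∃ (ι : Type) (_ : Fintype ι) (c : ι → ℂ) (φ : ι → Chart) (u v : ℝ → ℂ),
    (∀ ν, (φ ν).Bdd ∧ (φ ν).Cplx D) ∧ ∑ ν, ‖c ν‖ ≤ D ∧ Measurable u ∧ Measurable v ∧ s4b_L2 I u ∧ s4b_L2 I v ∧
    s4b_StarLe I w u τ ∧ nnorm 1 I v ≤ τ ∧ ∀ y ∈ I.set, f y = ∑ ν, c ν * (φ ν).eval y + u y + v y

/-- the dual unit ball is convex -/
theorem s4b_starLe_convex (c0 C0 : ℝ) (hc0 : 0 < c0) (hC0 : 1 ≤ C0) (I : Cell) (w : ℝ × ℝ → ℂ) (hw : Admissible c0 C0 I w)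
    (σ : ℝ) (u u' : ℝ → ℂ) (hu : Measurable u) (hu' : Measurable u') (hu2 : s4b_L2 I u) (hu2' : s4b_L2 I u')
    (h : s4b_StarLe I w u σ) (h' : s4b_StarLe I w u' σ) (a b : ℝ) (ha : 0 ≤ a) (hb : 0 ≤ b) (hab : a + b = 1) :
    s4b_StarLe I w (fun y => (a : ℂ) * u y + (b : ℂ) * u' y) σ := by
  intro i j z hij hzi hz hzj hsup
  obtain ⟨K, -, hK⟩ := s4b_abs11 c0 C0 hc0 hC0
  -- the two tuples
  have key : ∀ U : ℝ → ℂ, Measurable U → s4b_L2 I U → s4b_StarLe I w U σ →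
      Integrable (s4b_igd w (Function.update z i U)) ∧
        ‖form I w (Function.update z i U)‖ ≤ σ * nnorm 2 I (z j) := by
    intro U hU hU2 hS
    have hm : ∀ k, Measurable (Function.update z i U k) := by
      intro k
      by_cases hk : k = i
      · subst hk; rw [Function.update_self]; exact hU
      · rw [Function.update_of_ne hk]; exact hz k
    have hj : Function.update z i U j = z j := Function.update_of_ne hij.symm _ _
    have hs : ∀ k, k ≠ i → k ≠ j → SupLe I (Function.update z i U k) 1 := by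
      intro k hki hkj
      rw [Function.update_of_ne hki]
      exact hsup k hki hkj
    refine ⟨(hK I w _ i j 1 hw hij zero_le_one hm ?_ ?_ hs).1, ?_⟩
    · rw [Function.update_self]; exact (s4b_nnorm_one_le_two I U hU hU2).1
    · rw [hj]; exact (s4b_nnorm_one_le_two I (z j) (hz j) hzj).1
    · have := hS i j (Function.update z i U) hij (Function.update_self _ _ _) hm (by rw [hj]; exact hzj) hs
      rwa [hj] at this
  obtain ⟨i1, b1⟩ := key u hu hu2 h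
  obtain ⟨i2, b2⟩ := key u' hu' hu2' h'
  have e : z = Function.update z i ((fun y => (a : ℂ) * u y) + fun y => (b : ℂ) * u' y) := by
    rw [← Function.update_eq_self i z, hzi]
    simp only [Function.update_idem]
    rfl
  rw [e, (s4b_form_add I w z i _ _ (s4b_igd_smul_integrable w z i a u i1)
    (s4b_igd_smul_integrable w z i b u' i2)).2, s4b_form_smul, s4b_form_smul, Function.update_of_ne hij.symm]
  calc ‖(a : ℂ) * form I w (Function.update z i u) + (b : ℂ) * form I w (Function.update z i u')‖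
      ≤ a * ‖form I w (Function.update z i u)‖ + b * ‖form I w (Function.update z i u')‖ := by
        refine (norm_add_le _ _).trans ?_
        rw [norm_mul, norm_mul, Complex.norm_real, Complex.norm_real, Real.norm_of_nonneg ha,
          Real.norm_of_nonneg hb]
    _ ≤ a * (σ * nnorm 2 I (z j)) + b * (σ * nnorm 2 I (z j)) := by gcongr
    _ = σ * nnorm 2 I (z j) := by rw [← add_mul, hab, one_mul]

/-- the form vanishes if one slot vanishes -/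
theorem s4b_form_zero (I : Cell) (w : ℝ × ℝ → ℂ) (z : Fin 4 → ℝ → ℂ) (i : Fin 4) (h : z i = fun _ => 0) :
    form I w z = 0 := by
  unfold form
  have : ∀ p : ℝ × ℝ, w p * ∏ j : Fin 4, z j (p.1 + (j : ℝ) * p.2) = 0 := by
    intro p
    rw [Finset.prod_eq_zero (Finset.mem_univ i) (by rw [h]), mul_zero]
  simp [this]

theorem s4b_mom_smul (I : Cell) (c : ℂ) (h φ : ℝ → ℂ) : s4b_mom I (fun y => c * h y) φ = c * s4b_mom I h φ := by
  unfold s4b_mom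
  have : ∀ y, c * h y * conj (φ y) = c * (h y * conj (φ y)) := fun y => by ring
  simp only [this]
  rw [integral_const_mul]
  ring

theorem s4b_dec_cell_measurableSet (I : Cell) : MeasurableSet I.set := measurableSet_Ico

theorem s4b_mom_norm_le (I : Cell) (f h : ℝ → ℂ) (hf : SupLe I f 1) (hh : IntegrableOn h I.set) :
    ‖s4b_mom I f h‖ ≤ nnorm 1 I h := by
  have hl := s4b_len_pos I
  unfold s4b_mom nnorm
  simp only [Real.rpow_one, div_one]
  rw [norm_mul, Complex.norm_real, Real.norm_of_nonneg (inv_nonneg.mpr hl.le)]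
  gcongr
  refine le_trans (norm_integral_le_integral_norm _) ?_
  refine integral_mono_of_nonneg (Filter.Eventually.of_forall (fun y => norm_nonneg _)) hh.norm ?_
  refine (ae_restrict_iff' (s4b_dec_cell_measurableSet I)).mpr (Filter.Eventually.of_forall (fun y hy => ?_))
  simp only [norm_mul, RCLike.norm_conj]
  calc ‖f y‖ * ‖h y‖ ≤ 1 * ‖h y‖ := by gcongr; exact hf y hy
    _ = ‖h y‖ := one_mul _

theorem s4b_mom_self (I : Cell) (h : ℝ → ℂ) : s4b_mom I h h = (((nnorm 2 I h) ^ 2 : ℝ) : ℂ) := by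
  have hl := s4b_len_pos I
  unfold s4b_mom nnorm
  have e : ∀ y, h y * conj (h y) = ((‖h y‖ ^ (2 : ℝ) : ℝ) : ℂ) := by
    intro y
    rw [Complex.mul_conj, Complex.normSq_eq_norm_sq]
    norm_cast
  simp only [e]
  have e2 : ∫ y in I.set, ((‖h y‖ ^ (2 : ℝ) : ℝ) : ℂ) = ((∫ y in I.set, ‖h y‖ ^ (2 : ℝ) : ℝ) : ℂ) :=
    integral_ofReal
  rw [e2]
  have hnn : 0 ≤ I.len⁻¹ * ∫ y in I.set, ‖h y‖ ^ (2 : ℝ) := by
    apply mul_nonneg (inv_nonneg.mpr hl.le)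
    exact integral_nonneg (fun y => by positivity)
  rw [← Real.rpow_natCast, ← Real.rpow_mul hnn]
  norm_num

theorem s4b_starLe_mono {I : Cell} {w : ℝ × ℝ → ℂ} {u : ℝ → ℂ} {σ τ : ℝ} (h : s4b_StarLe I w u σ) (hστ : σ ≤ τ) :
    s4b_StarLe I w u τ := by
  intro i j z hij hz hm h2 hs
  refine le_trans (h i j z hij hz hm h2 hs) ?_
  have := nnorm_nonneg 2 I (z j)
  gcongr

/-- the key step: a bounded function which is not small in the dual seminorm correlates with an atom -/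
theorem s4b_dec_key (c0 C0 : ℝ) (hc0 : 0 < c0) (hC0 : 1 ≤ C0) (hU3 : s4b_U3Target) :
    ∃ (C : ℕ), ∀ (σ : ℝ) (I : Cell) (w : ℝ × ℝ → ℂ) (h : ℝ → ℂ), 0 < σ → σ < 1 / 4 → Admissible c0 C0 I w →
      Measurable h → SupLe I h σ⁻¹ → ¬ s4b_StarLe I w h σ →
      ∃ a : Chart, a.Bdd ∧ a.Cplx (s4b_qp C (Real.log (1 / σ))) ∧
        (s4b_qp C (Real.log (1 / σ)))⁻¹ ≤ σ * ‖s4b_mom I h a.eval‖ := by
  obtain ⟨K, hK1, hvn⟩ := s4b_vn c0 C0 hc0 hC0
  obtain ⟨Ci, hinv⟩ := s4b_cont_inverse hU3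
  obtain ⟨C, hC⟩ := s4b_qp_poly Ci (Real.log (18 * K ^ 3) + 6) 1
  refine ⟨C, fun σ I w h hσ0 hσ4 hw hm hb hns => ?_⟩
  have hK0 : 0 < K := by linarith
  set δ' : ℝ := σ ^ 6 / (18 * K ^ 3) with hδ'
  have hK3 : 1 ≤ K ^ 3 := one_le_pow₀ hK1
  have hδ'0 : 0 < δ' := by positivity
  have hσ6 : σ ^ 6 < 1 / 4 := by
    calc σ ^ 6 = σ * σ ^ 5 := by ring
      _ ≤ σ * 1 := by
        gcongr
        exact pow_le_one₀ hσ0.le (by linarith)
      _ < 1 / 4 := by linarith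
  have hδ'2 : δ' < 1 / 2 := by
    rw [hδ', div_lt_iff₀ (by positivity)]
    nlinarith
  -- unfold the failure of the dual bound
  unfold s4b_StarLe at hns
  push Not at hns
  obtain ⟨i, j, z, hij, hzi, hzm, hz2, hzs, hbig⟩ := hns
  set z' : Fin 4 → ℝ → ℂ := Function.update z i (fun y => (σ : ℂ) * h y) with hz'
  have hz'i : z' i = fun y => (σ : ℂ) * h y := by rw [hz']; simp
  have hz'k : ∀ k, k ≠ i → z' k = z k := fun k hk => by rw [hz']; simp [hk]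
  have hform : form I w z' = (σ : ℂ) * form I w z := by
    rw [hz', s4b_form_smul, ← hzi, Function.update_eq_self]
  have hmeas : ∀ k, Measurable (z' k) := by
    intro k
    by_cases hk : k = i
    · rw [hk, hz'i]; exact hm.const_mul _
    · rw [hz'k k hk]; exact hzm k
  have hsup : ∀ k, k ≠ j → SupLe I (z' k) 1 := by
    intro k hkj
    by_cases hk : k = i
    · rw [hk, hz'i]
      intro y hy
      rw [norm_mul, Complex.norm_real, Real.norm_of_nonneg hσ0.le]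
      calc σ * ‖h y‖ ≤ σ * σ⁻¹ := by gcongr; exact hb y hy
        _ = 1 := mul_inv_cancel₀ hσ0.ne'
    · rw [hz'k k hk]; exact hzs k hk hkj
  have hnn := nnorm_nonneg 2 I (z j)
  have hU : δ' ^ 8 ≤ s4b_U8 I (fun y => (σ : ℂ) * h y) := by
    by_contra hcon
    push Not at hcon
    set N : ℕ := ⌈2 * K / σ ^ 2⌉₊ with hN
    have hNge : 2 * K / σ ^ 2 ≤ N := Nat.le_ceil _
    have hNle : (N : ℝ) ≤ 3 * K / σ ^ 2 := by
      have h1 : (N : ℝ) < 2 * K / σ ^ 2 + 1 := Nat.ceil_lt_add_one (by positivity)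
      have h2 : 1 ≤ K / σ ^ 2 := by
        rw [le_div_iff₀ (by positivity)]
        nlinarith
      have h3 : 3 * K / σ ^ 2 = 2 * K / σ ^ 2 + K / σ ^ 2 := by ring
      linarith
    have hNpos : (0 : ℝ) < N := lt_of_lt_of_le (by positivity) hNge
    have hN1 : 1 ≤ N := by exact_mod_cast hNpos
    have hb1 := hvn I w z' i j N hw hij hN1 hmeas (by rw [hz'k j hij.symm]; exact hz2) hsup δ' hδ'0.le
      (by rw [hz'i]; exact hcon.le)
    rw [hz'k j hij.symm, hform, norm_mul, Complex.norm_real, Real.norm_of_nonneg hσ0.le] at hb1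
    have e1 : K * ((N : ℝ) ^ 2 * δ') ≤ σ ^ 2 / 2 := by
      have : (N : ℝ) ^ 2 ≤ (3 * K / σ ^ 2) ^ 2 := by gcongr
      calc K * ((N : ℝ) ^ 2 * δ') ≤ K * ((3 * K / σ ^ 2) ^ 2 * δ') := by gcongr
        _ = σ ^ 2 / 2 := by rw [hδ']; field_simp; ring
    have e2 : K * (1 / (N : ℝ)) ≤ σ ^ 2 / 2 := by
      rw [mul_one_div, div_le_iff₀ hNpos]
      have := mul_le_mul_of_nonneg_left hNge (by positivity : (0 : ℝ) ≤ σ ^ 2 / 2)
      calc K = σ ^ 2 / 2 * (2 * K / σ ^ 2) := by field_simp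
        _ ≤ σ ^ 2 / 2 * N := this
    have e3 : K * nnorm 2 I (z j) * ((N : ℝ) ^ 2 * δ' + 1 / N) ≤ σ ^ 2 * nnorm 2 I (z j) := by
      calc K * nnorm 2 I (z j) * ((N : ℝ) ^ 2 * δ' + 1 / N)
          = nnorm 2 I (z j) * (K * ((N : ℝ) ^ 2 * δ') + K * (1 / (N : ℝ))) := by ring
        _ ≤ nnorm 2 I (z j) * (σ ^ 2 / 2 + σ ^ 2 / 2) := by gcongr
        _ = σ ^ 2 * nnorm 2 I (z j) := by ring
    have e4 : σ * (σ * nnorm 2 I (z j)) < σ * ‖form I w z‖ := by gcongr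
    nlinarith
  obtain ⟨a, hab, hac, ham⟩ := hinv δ' I (fun y => (σ : ℂ) * h y) hδ'0 hδ'2 (hm.const_mul _)
    (by have := hsup i hij; rwa [hz'i] at this) hU
  have hx0 : 0 ≤ Real.log (1 / σ) := Real.log_nonneg (by rw [le_div_iff₀ hσ0]; linarith)
  have hy0 : 0 ≤ Real.log (1 / δ') := Real.log_nonneg (by rw [le_div_iff₀ hδ'0]; linarith)
  have hyle : Real.log (1 / δ') ≤ (Real.log (18 * K ^ 3) + 6) * (1 + Real.log (1 / σ)) ^ 1 := by
    have e : 1 / δ' = (18 * K ^ 3) * (1 / σ) ^ 6 := by rw [hδ']; field_simp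
    rw [e, Real.log_mul (by positivity) (by positivity), Real.log_pow, pow_one]
    have hl : 0 ≤ Real.log (18 * K ^ 3) := Real.log_nonneg (by linarith)
    push_cast
    nlinarith
  have hle := hC _ _ hx0 hy0 hyle
  refine ⟨a, hab, s4b_cplx_mono hac hle, ?_⟩
  rw [s4b_mom_smul, norm_mul, Complex.norm_real, Real.norm_of_nonneg hσ0.le] at ham
  exact le_trans (inv_anti₀ (s4b_qp_pos _ _) hle) ham

/-- **Bounded-input decomposition** (Lemma 4.10) -/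
theorem s4b_dec (c0 C0 : ℝ) (hc0 : 0 < c0) (hC0 : 1 ≤ C0) (hU3 : s4b_U3Target) :
    ∃ C : ℕ, ∀ (τ : ℝ) (I : Cell) (w : ℝ × ℝ → ℂ) (f : ℝ → ℂ), 0 < τ → τ < 1 / 2 → Admissible c0 C0 I w →
      Measurable f → SupLe I f 1 → s4b_DecAt I w τ (s4b_qp C (Real.log (1 / τ))) f := by
  obtain ⟨C₁, hkey⟩ := s4b_dec_key c0 C0 hc0 hC0 hU3
  obtain ⟨C, hC⟩ := s4b_qp_poly C₁ 1 1
  refine ⟨C, fun τ I w f hτ0 hτ2 hw hfm hfb => ?_⟩
  set σ : ℝ := τ / 2 with hσ
  have hσ0 : 0 < σ := by rw [hσ]; linarith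
  have hσ4 : σ < 1 / 4 := by rw [hσ]; linarith
  set D₀ : ℝ := s4b_qp C₁ (Real.log (1 / σ)) with hD₀
  have hD₀pos : 0 < D₀ := s4b_qp_pos _ _
  have hx0 : 0 ≤ Real.log (1 / τ) := Real.log_nonneg (by rw [le_div_iff₀ hτ0]; linarith)
  have hy0 : 0 ≤ Real.log (1 / σ) := Real.log_nonneg (by rw [le_div_iff₀ hσ0]; linarith)
  have hD₀le : D₀ ≤ s4b_qp C (Real.log (1 / τ)) := by
    apply hC _ _ hx0 hy0
    have e : 1 / σ = 2 * (1 / τ) := by rw [hσ]; field_simp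
    rw [e, Real.log_mul (by norm_num) (by positivity), pow_one]
    have := Real.log_two_lt_d9
    linarith
  set 𝒜 : Set (ℝ → ℂ) := {φ | ∃ a : Chart, a.Bdd ∧ a.Cplx D₀ ∧ φ = a.eval} with h𝒜
  set 𝒰 : Set (ℝ → ℂ) := {u | Measurable u ∧ s4b_L2 I u ∧ s4b_StarLe I w u σ} with h𝒰
  have hA : ∀ φ ∈ 𝒜, Measurable φ ∧ s4b_L2 I φ := by
    rintro φ ⟨a, hab, hac, rfl⟩
    have hm : Measurable a.eval := (s4b_eval_continuous hac).measurable
    exact ⟨hm, (s4b_L2_of_supLe I a.eval 1 zero_le_one hm (fun y _ => hab y)).1⟩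
  have hU : ∀ u ∈ 𝒰, Measurable u ∧ s4b_L2 I u := fun u hu => ⟨hu.1, hu.2.1⟩
  have hU0 : (fun _ => (0 : ℂ)) ∈ 𝒰 := by
    refine ⟨measurable_const, MemLp.zero', ?_⟩
    intro i j z _ hz _ _ _
    rw [s4b_form_zero I w z i hz, norm_zero]
    have := nnorm_nonneg 2 I (z j)
    positivity
  have hUc : ∀ u ∈ 𝒰, ∀ u' ∈ 𝒰, ∀ a b : ℝ, 0 ≤ a → 0 ≤ b → a + b = 1 →
      (fun y => (a : ℂ) * u y + (b : ℂ) * u' y) ∈ 𝒰 := by
    intro u hu u' hu' a b ha hb hab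
    refine ⟨(hu.1.const_mul _).add (hu'.1.const_mul _), ?_,
      s4b_starLe_convex c0 C0 hc0 hC0 I w hw σ u u' hu.1 hu'.1 hu.2.1 hu'.2.1 hu.2.2 hu'.2.2 a b ha hb hab⟩
    exact (hu.2.1.const_mul (a : ℂ)).add (hu'.2.1.const_mul (b : ℂ))
  have hf2 : s4b_L2 I f := (s4b_L2_of_supLe I f 1 zero_le_one hfm hfb).1
  have key : ∀ h : ℝ → ℂ, Measurable h → SupLe I h σ⁻¹ → (∀ φ ∈ 𝒜, ‖s4b_mom I h φ‖ ≤ D₀⁻¹) →
      (∀ u ∈ 𝒰, (s4b_mom I u h).re ≤ 1) → (s4b_mom I f h).re ≤ 1 := by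
    intro h hm hb hA' hU'
    by_contra hcon
    push Not at hcon
    have hh2 := s4b_L2_of_supLe I h σ⁻¹ (by positivity) hm hb
    have h12 := s4b_nnorm_one_le_two I h hm hh2.1
    have h1 : 1 < nnorm 2 I h :=
      calc 1 < (s4b_mom I f h).re := hcon
        _ ≤ ‖s4b_mom I f h‖ := Complex.re_le_norm _
        _ ≤ nnorm 1 I h := s4b_mom_norm_le I f h hfb h12.1
        _ ≤ nnorm 2 I h := h12.2
    have hnot : ¬ s4b_StarLe I w h σ := by
      intro hs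
      have := hU' h ⟨hm, hh2.1, hs⟩
      rw [s4b_mom_self, Complex.ofReal_re] at this
      nlinarith
    obtain ⟨a, hab, hac, ham⟩ := hkey σ I w h hσ0 hσ4 hw hm hb hnot
    have h2 := hA' a.eval ⟨a, hab, hac, rfl⟩
    have h3 : 0 < D₀⁻¹ := inv_pos.mpr hD₀pos
    have h4 : σ * ‖s4b_mom I h a.eval‖ ≤ σ * D₀⁻¹ := by gcongr
    nlinarith
  obtain ⟨ι, inst, c, φ, u, v, hφ, hc, hu, hvm, hv2, hv1, hdec⟩ :=
    s4b_hb I 𝒜 𝒰 D₀ σ σ f hD₀pos hσ0 hσ0 hA hU hU0 hUc hfm hf2 key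
  choose a ha using hφ
  refine ⟨ι, inst, c, a, u, v, fun ν => ⟨(ha ν).1, s4b_cplx_mono (ha ν).2.1 hD₀le⟩, hc.trans hD₀le, hu.1, hvm, hu.2.1, hv2,
    s4b_starLe_mono hu.2.2 (by rw [hσ]; linarith), by rw [hσ] at hv1; linarith, ?_⟩
  intro y hy
  rw [hdec y hy]
  congr 2
  exact Finset.sum_congr rfl (fun ν _ => by rw [(ha ν).2.2])

end Claimed.Agent.R258
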