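/-
Row 258, block [S4b] (architect helper99).  FILE Det: LOCAL DETECTION (Lemma 4.12 `lem:detection`), the only export of the block.

CHAIN.   `s4b_clip` (clipping at height `B`)  →  `s4b_replace` twice (a bounded input is replaced by ONE bounded atom, using `s4b_DecAt`)  →  `s4b_PairDetect` (block [S4a]).

PLAN for `s4b_clip`.  `R = z (σ 0)`, `h = z (σ 1)`, `u = z (σ 2)`, `v = z (σ 3)`, `f_B = s4b_clipF B f`, `q' = q/(q-1)`.  Replace successively (`s4b_form_add`, `s4b_form_smul` with `c = -1`):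
   `H(R,h-h_B,u,v)`:   `s4b_abs2222`,  `‖h - h_B‖_{2,I}² = ⨍ |h|² 1_{|h|>B} ≤ B^{2-q} ⨍ |h|^q ≤ B^{2-q}`, so `‖h-h_B‖_{2,I} ≤ B^{-(q-2)/2} ≤ B^{-(q-2)/q}`;
   `H(R,h_B,u-u_B,v)`: `s4b_abs2qq2` (arrangement `σ`),  `‖u-u_B‖_{q',I}^{q'} ≤ B^{q'-2} ⨍ |u|² ≤ B^{q'-2}`, so `‖u-u_B‖_{q',I} ≤ B^{-(q-2)/q}`;  `‖h_B‖_{q,I} ≤ 1`;
   `H(R,h_B,u_B,v-v_B)`: `s4b_abs2qq2` (arrangement `σ * swap 2 3`).
PLAN for `s4b_replace`.  On `I`: `z i = B (∑ c_ν φ_ν + u + v)`.  `s4b_form_congr`, `s4b_form_sum`: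
   `form z = B (∑ c_ν form(z[i := φ_ν]) + form(z[i := u]) + form(z[i := v]))`;
   `|form(z[i := u])| ≤ B² τ ‖z_j‖_{2,I}` (`s4b_StarLe` applied to the tuple with the two remaining slots divided by `B`; `s4b_form_smul`),
   `|form(z[i := v])| ≤ K ‖z_j‖_{1,I} ‖v‖_{1,I} B²` (`s4b_abs11`, `s4b_nnorm_one_le_two`).  Pigeonhole over `ν` (`∑ ‖c_ν‖ ≤ D`).
ASSEMBLY of `s4b_detection`: `B = (100 K C1/δ)^{q/(q-2)}`, `τ₁ = δ/(100 K C1 B³)`, `δ₂ = δ/(2 B D₁)`, `τ₂ = δ₂/(100 K C1 B³)`, `δ₃ = δ₂/(2 B D₂)`, `D_i = qp C_d (log (1/τ_i))`; with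
   `X = 1 + log C1 + log (1/δ)` all logarithms are `≤ c_q X^k` with `k` independent of `q`.
-/
import Claimed.Agent.R258.S4b.Dec

set_option autoImplicit false
open MeasureTheory Filter Topology
open scoped ENNReal ContDiff ComplexConjugate

namespace Claimed.Agent.R258

/-- clipping: the tail `{‖f‖ > B}` is set to zero -/
noncomputable def s4b_clipF (B : ℝ) (f : ℝ → ℂ) (y : ℝ) : ℂ := if ‖f y‖ ≤ B then f y else 0

theorem s4b_clipF_measurable (B : ℝ) (f : ℝ → ℂ) (hf : Measurable f) : Measurable (s4b_clipF B f) :=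
  Measurable.ite (measurableSet_le hf.norm measurable_const) hf measurable_const

theorem s4b_clipF_norm_le (B : ℝ) (hB : 0 ≤ B) (f : ℝ → ℂ) (y : ℝ) :
    ‖s4b_clipF B f y‖ ≤ B ∧ ‖s4b_clipF B f y‖ ≤ ‖f y‖ := by
  unfold s4b_clipF
  split_ifs with h
  · exact ⟨h, le_rfl⟩
  · rw [norm_zero]; exact ⟨hB, norm_nonneg _⟩

/-- Chebyshev-type tail bound for normalized norms -/
theorem s4b_tail (I : Cell) (f : ℝ → ℂ) {s r B : ℝ} (hs : 0 < s) (hsr : s ≤ r) (hB : 0 < B)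
    (hr : IntegrableOn (fun y => ‖f y‖ ^ r) I.set) (hn : nnorm r I f ≤ 1) :
    nnorm s I (fun y => f y - s4b_clipF B f y) ≤ B ^ ((s - r) / s) := by
  have hr0 : 0 < r := hs.trans_le hsr
  have hpt : ∀ y, ‖f y - s4b_clipF B f y‖ ^ s ≤ B ^ (s - r) * ‖f y‖ ^ r := by
    intro y
    unfold s4b_clipF
    split_ifs with h
    · rw [sub_self, norm_zero, Real.zero_rpow hs.ne']
      positivity
    · rw [sub_zero]
      push Not at h
      have hpos : 0 < ‖f y‖ := hB.trans h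
      have e : ‖f y‖ ^ s = ‖f y‖ ^ (s - r) * ‖f y‖ ^ r := by
        rw [← Real.rpow_add hpos]
        congr 1
        ring
      rw [e]
      exact mul_le_mul_of_nonneg_right (Real.rpow_le_rpow_of_nonpos hB h.le (sub_nonpos.2 hsr))
        (Real.rpow_nonneg (norm_nonneg _) _)
  have h1 : ∫ y in I.set, ‖f y - s4b_clipF B f y‖ ^ s ≤ ∫ y in I.set, B ^ (s - r) * ‖f y‖ ^ r :=
    integral_mono_of_nonneg (Filter.Eventually.of_forall fun _ => Real.rpow_nonneg (norm_nonneg _) _)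
      (hr.const_mul _) (Filter.Eventually.of_forall hpt)
  rw [integral_const_mul] at h1
  have h2 : nnorm r I f ^ r ≤ 1 := Real.rpow_le_one (nnorm_nonneg _ _ _) hn hr0.le
  rw [nnorm_rpow hr0] at h2
  have hlen := cell_len_pos I
  unfold nnorm
  calc (I.len⁻¹ * ∫ y in I.set, ‖f y - s4b_clipF B f y‖ ^ s) ^ (1 / s)
      ≤ (B ^ (s - r) * 1) ^ (1 / s) := by
        refine Real.rpow_le_rpow (nnorm_base_nonneg s I _) ?_ (by positivity)
        calc I.len⁻¹ * ∫ y in I.set, ‖f y - s4b_clipF B f y‖ ^ s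
            ≤ I.len⁻¹ * (B ^ (s - r) * ∫ y in I.set, ‖f y‖ ^ r) := by gcongr
          _ = B ^ (s - r) * (I.len⁻¹ * ∫ y in I.set, ‖f y‖ ^ r) := by ring
          _ ≤ B ^ (s - r) * 1 := by gcongr
    _ = B ^ ((s - r) / s) := by
        rw [mul_one, ← Real.rpow_mul hB.le]
        congr 1
        ring

theorem s4b_clipF_memLp (I : Cell) (B : ℝ) (hB : 0 ≤ B) (f : ℝ → ℂ) (hf : Measurable f) (p : ℝ≥0∞) :
    MemLp (s4b_clipF B f) p (volume.restrict I.set) := by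
  have := s4b_cell_finite I
  exact MemLp.of_bound (s4b_clipF_measurable B f hf).aestronglyMeasurable B
    (Filter.Eventually.of_forall fun y => (s4b_clipF_norm_le B hB f y).1)

theorem s4b_tail_memLp (I : Cell) (B : ℝ) (hB : 0 ≤ B) (f : ℝ → ℂ) (hf : Measurable f) (p : ℝ≥0∞)
    (h : MemLp f p (volume.restrict I.set)) :
    MemLp (fun y => f y - s4b_clipF B f y) p (volume.restrict I.set) :=
  h.sub (s4b_clipF_memLp I B hB f hf p)

theorem s4b_clipF_nnorm_le (I : Cell) (B : ℝ) (hB : 0 ≤ B) (f : ℝ → ℂ) {p : ℝ} (hp : 0 < p)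
    (h : IntegrableOn (fun y => ‖f y‖ ^ p) I.set) : nnorm p I (s4b_clipF B f) ≤ nnorm p I f :=
  nnorm_mono hp h fun y _ => (s4b_clipF_norm_le B hB f y).2

/-- one slot is changed: the difference of the forms -/
theorem s4b_form_sub (c0 C0 : ℝ) (hc0 : 0 < c0) (hC0 : 1 ≤ C0) (I : Cell) (w : ℝ × ℝ → ℂ)
    (hw : Admissible c0 C0 I w) (z : Fin 4 → ℝ → ℂ) (hz : ∀ k, Measurable (z k)) (hz2 : ∀ k, s4b_L2 I (z k))
    (i : Fin 4) (g : ℝ → ℂ) (hg : Measurable g) (hg2 : s4b_L2 I g) :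
    form I w z - form I w (Function.update z i g) = form I w (Function.update z i (fun y => z i y - g y)) := by
  obtain ⟨K, -, hK⟩ := s4b_abs2222 c0 C0 hc0 hC0
  have key : ∀ U : ℝ → ℂ, Measurable U → s4b_L2 I U → Integrable (s4b_igd w (Function.update z i U)) := by
    intro U hU hU2
    refine (hK I w _ hw ?_ ?_).1 <;> intro k <;> by_cases hk : k = i
    · subst hk; rw [Function.update_self]; exact hU
    · rw [Function.update_of_ne hk]; exact hz k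
    · subst hk; rw [Function.update_self]; exact hU2
    · rw [Function.update_of_ne hk]; exact hz2 k
  have h := (s4b_form_add I w z i (fun y => z i y - g y) g (key _ ((hz i).sub hg) ((hz2 i).sub hg2))
    (key g hg hg2)).2
  have e : (fun y => z i y - g y) + g = z i := by
    funext y
    simp
  rw [e, Function.update_eq_self] at h
  rw [h]
  ring

theorem s4b_forall_perm (σ : Equiv.Perm (Fin 4)) {P : Fin 4 → Prop} (h0 : P (σ 0)) (h1 : P (σ 1)) (h2 : P (σ 2))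
    (h3 : P (σ 3)) (k : Fin 4) : P k := by
  have : ∀ i : Fin 4, P (σ i) := by
    intro i
    fin_cases i
    exacts [h0, h1, h2, h3]
  simpa using this (σ.symm k)

theorem s4b_Lq_L2 {I : Cell} {f : ℝ → ℂ} {q : ℝ} (hq : 2 ≤ q)
    (h : MemLp f (ENNReal.ofReal q) (volume.restrict I.set)) : s4b_L2 I f := by
  have := s4b_cell_finite I
  refine MemLp.mono_exponent h ?_
  rw [← ENNReal.ofReal_ofNat]
  exact ENNReal.ofReal_le_ofReal hq

theorem s4b_L2_Lq {I : Cell} {f : ℝ → ℂ} {q : ℝ} (hq : q ≤ 2) (h : s4b_L2 I f) :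
    MemLp f (ENNReal.ofReal q) (volume.restrict I.set) := by
  have := s4b_cell_finite I
  refine MemLp.mono_exponent h ?_
  rw [← ENNReal.ofReal_ofNat]
  exact ENNReal.ofReal_le_ofReal hq

/-- clipping in the `L^q` slot -/
theorem s4b_clip_q (c0 C0 : ℝ) (hc0 : 0 < c0) (hC0 : 1 ≤ C0) :
    ∃ K : ℝ, 1 ≤ K ∧ ∀ (q C1 B : ℝ) (I : Cell) (w : ℝ × ℝ → ℂ) (σ : Equiv.Perm (Fin 4)) (z : Fin 4 → ℝ → ℂ),
      2 < q → 1 ≤ C1 → 1 ≤ B → Admissible c0 C0 I w → (∀ k, Measurable (z k)) → s4b_L2 I (z (σ 0)) →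
      MemLp (z (σ 1)) (ENNReal.ofReal q) (volume.restrict I.set) → s4b_L2 I (z (σ 2)) → s4b_L2 I (z (σ 3)) →
      nnorm 2 I (z (σ 0)) ≤ C1 → nnorm q I (z (σ 1)) ≤ 1 → nnorm 2 I (z (σ 2)) ≤ 1 → nnorm 2 I (z (σ 3)) ≤ 1 →
      ‖form I w z - form I w (Function.update z (σ 1) (s4b_clipF B (z (σ 1))))‖ ≤ K * C1 * B ^ (-((q - 2) / q)) := by
  obtain ⟨K, hK1, hK⟩ := s4b_abs2222 c0 C0 hc0 hC0
  refine ⟨K, hK1, ?_⟩
  intro q C1 B I w σ z hq hC1 hB hw hz h0 h1 h2 h3 n0 n1 n2 n3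
  have hB0 : 0 < B := by linarith
  have hq0 : 0 < q := by linarith
  have h1' : s4b_L2 I (z (σ 1)) := s4b_Lq_L2 hq.le h1
  have hz2 : ∀ k, s4b_L2 I (z k) := s4b_forall_perm σ (P := fun k => s4b_L2 I (z k)) h0 h1' h2 h3
  rw [s4b_form_sub c0 C0 hc0 hC0 I w hw z hz hz2 (σ 1) _ (s4b_clipF_measurable B _ (hz _))
    (s4b_clipF_memLp I B hB0.le _ (hz _) 2)]
  set t : ℝ → ℂ := fun y => z (σ 1) y - s4b_clipF B (z (σ 1)) y with ht
  have htm : Measurable t := (hz _).sub (s4b_clipF_measurable B _ (hz _))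
  have ht2 : s4b_L2 I t := s4b_tail_memLp I B hB0.le _ (hz _) 2 h1'
  have e0 : Function.update z (σ 1) t (σ 0) = z (σ 0) := Function.update_of_ne (σ.injective.ne (by decide)) _ _
  have e1 : Function.update z (σ 1) t (σ 1) = t := Function.update_self _ _ _
  have e2 : Function.update z (σ 1) t (σ 2) = z (σ 2) := Function.update_of_ne (σ.injective.ne (by decide)) _ _
  have e3 : Function.update z (σ 1) t (σ 3) = z (σ 3) := Function.update_of_ne (σ.injective.ne (by decide)) _ _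
  have hb := (hK I w (Function.update z (σ 1) t) hw
    (s4b_forall_perm σ (P := fun k => Measurable (Function.update z (σ 1) t k))
      (by rw [e0]; exact hz _) (by rw [e1]; exact htm) (by rw [e2]; exact hz _) (by rw [e3]; exact hz _))
    (s4b_forall_perm σ (P := fun k => s4b_L2 I (Function.update z (σ 1) t k))
      (by rw [e0]; exact h0) (by rw [e1]; exact ht2) (by rw [e2]; exact h2) (by rw [e3]; exact h3))).2
  rw [← Equiv.prod_comp σ, Fin.prod_univ_four, e0, e1, e2, e3] at hb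
  have htail : nnorm 2 I t ≤ B ^ (-((q - 2) / q)) := by
    refine (s4b_tail I (z (σ 1)) (by norm_num : (0 : ℝ) < 2) hq.le hB0 (s4b_memLp_rpow hq0 h1) n1).trans ?_
    refine Real.rpow_le_rpow_of_exponent_le hB ?_
    rw [neg_div', div_le_div_iff₀ (by norm_num) hq0]
    nlinarith
  have hE : 0 ≤ B ^ (-((q - 2) / q)) := by positivity
  refine hb.trans ?_
  have m0 := nnorm_nonneg 2 I (z (σ 0))
  have m1 := nnorm_nonneg 2 I t
  have m2 := nnorm_nonneg 2 I (z (σ 2))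
  have m3 := nnorm_nonneg 2 I (z (σ 3))
  calc K * (nnorm 2 I (z (σ 0)) * nnorm 2 I t * nnorm 2 I (z (σ 2)) * nnorm 2 I (z (σ 3)))
      ≤ K * (C1 * B ^ (-((q - 2) / q)) * 1 * 1) := by gcongr
    _ = K * C1 * B ^ (-((q - 2) / q)) := by ring

/-- clipping in the third slot of the arrangement -/
theorem s4b_clip_2 (c0 C0 : ℝ) (hc0 : 0 < c0) (hC0 : 1 ≤ C0) :
    ∃ K : ℝ, 1 ≤ K ∧ ∀ (q C1 B : ℝ) (I : Cell) (w : ℝ × ℝ → ℂ) (σ : Equiv.Perm (Fin 4)) (z : Fin 4 → ℝ → ℂ),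
      2 < q → 1 ≤ C1 → 1 ≤ B → Admissible c0 C0 I w → (∀ k, Measurable (z k)) → s4b_L2 I (z (σ 0)) →
      MemLp (z (σ 1)) (ENNReal.ofReal q) (volume.restrict I.set) → s4b_L2 I (z (σ 2)) → s4b_L2 I (z (σ 3)) →
      nnorm 2 I (z (σ 0)) ≤ C1 → nnorm q I (z (σ 1)) ≤ 1 → nnorm 2 I (z (σ 2)) ≤ 1 → nnorm 2 I (z (σ 3)) ≤ 1 →
      ‖form I w z - form I w (Function.update z (σ 2) (s4b_clipF B (z (σ 2))))‖ ≤ K * C1 * B ^ (-((q - 2) / q)) := by
  obtain ⟨K, hK1, hK⟩ := s4b_abs2qq2 c0 C0 hc0 hC0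
  refine ⟨K, hK1, ?_⟩
  intro q C1 B I w σ z hq hC1 hB hw hz h0 h1 h2 h3 n0 n1 n2 n3
  have hB0 : 0 < B := by linarith
  have hq0 : 0 < q := by linarith
  have hq1 : 0 < q - 1 := by linarith
  have hq' : 0 < q / (q - 1) := by positivity
  have hq'2 : q / (q - 1) ≤ 2 := by rw [div_le_iff₀ hq1]; linarith
  have h1' : s4b_L2 I (z (σ 1)) := s4b_Lq_L2 hq.le h1
  have hz2 : ∀ k, s4b_L2 I (z k) := s4b_forall_perm σ (P := fun k => s4b_L2 I (z k)) h0 h1' h2 h3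
  rw [s4b_form_sub c0 C0 hc0 hC0 I w hw z hz hz2 (σ 2) _ (s4b_clipF_measurable B _ (hz _))
    (s4b_clipF_memLp I B hB0.le _ (hz _) 2)]
  set t : ℝ → ℂ := fun y => z (σ 2) y - s4b_clipF B (z (σ 2)) y with ht
  have htm : Measurable t := (hz _).sub (s4b_clipF_measurable B _ (hz _))
  have ht2 : MemLp t (ENNReal.ofReal (q / (q - 1))) (volume.restrict I.set) :=
    s4b_tail_memLp I B hB0.le _ (hz _) _ (s4b_L2_Lq hq'2 h2)
  have e0 : Function.update z (σ 2) t (σ 0) = z (σ 0) := Function.update_of_ne (σ.injective.ne (by decide)) _ _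
  have e1 : Function.update z (σ 2) t (σ 1) = z (σ 1) := Function.update_of_ne (σ.injective.ne (by decide)) _ _
  have e2 : Function.update z (σ 2) t (σ 2) = t := Function.update_self _ _ _
  have e3 : Function.update z (σ 2) t (σ 3) = z (σ 3) := Function.update_of_ne (σ.injective.ne (by decide)) _ _
  have hb := (hK q I w (Function.update z (σ 2) t) σ hq hw
    (s4b_forall_perm σ (P := fun k => Measurable (Function.update z (σ 2) t k))
      (by rw [e0]; exact hz _) (by rw [e1]; exact hz _) (by rw [e2]; exact htm) (by rw [e3]; exact hz _))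
    (by rw [e0]; exact h0) (by rw [e3]; exact h3) (by rw [e1]; exact h1) (by rw [e2]; exact ht2)).2
  rw [e0, e1, e2, e3] at hb
  have htail : nnorm (q / (q - 1)) I t ≤ B ^ (-((q - 2) / q)) := by
    refine (s4b_tail I (z (σ 2)) hq' hq'2 hB0 (s4b_L2_sq h2) n2).trans (le_of_eq ?_)
    congr 1
    field_simp
    ring
  have hE : 0 ≤ B ^ (-((q - 2) / q)) := by positivity
  refine hb.trans ?_
  have m0 := nnorm_nonneg 2 I (z (σ 0))
  have m1 := nnorm_nonneg q I (z (σ 1))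
  have m2 := nnorm_nonneg (q / (q - 1)) I t
  have m3 := nnorm_nonneg 2 I (z (σ 3))
  calc K * nnorm 2 I (z (σ 0)) * nnorm q I (z (σ 1)) * nnorm (q / (q - 1)) I t * nnorm 2 I (z (σ 3))
      ≤ K * C1 * 1 * B ^ (-((q - 2) / q)) * 1 := by gcongr
    _ = K * C1 * B ^ (-((q - 2) / q)) := by ring

/-- the total clipping error -/
theorem s4b_clip (c0 C0 : ℝ) (hc0 : 0 < c0) (hC0 : 1 ≤ C0) :
    ∃ K : ℝ, 1 ≤ K ∧ ∀ (q C1 B : ℝ) (I : Cell) (w : ℝ × ℝ → ℂ) (σ : Equiv.Perm (Fin 4)) (z : Fin 4 → ℝ → ℂ),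
      2 < q → 1 ≤ C1 → 1 ≤ B → Admissible c0 C0 I w → (∀ k, Measurable (z k)) → s4b_L2 I (z (σ 0)) →
      MemLp (z (σ 1)) (ENNReal.ofReal q) (volume.restrict I.set) → s4b_L2 I (z (σ 2)) → s4b_L2 I (z (σ 3)) →
      nnorm 2 I (z (σ 0)) ≤ C1 → nnorm q I (z (σ 1)) ≤ 1 → nnorm 2 I (z (σ 2)) ≤ 1 → nnorm 2 I (z (σ 3)) ≤ 1 →
      ‖form I w z - form I w (fun k => if k = σ 0 then z k else s4b_clipF B (z k))‖ ≤ K * C1 * B ^ (-((q - 2) / q)) := by
  obtain ⟨K1, hK1, hA⟩ := s4b_clip_q c0 C0 hc0 hC0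
  obtain ⟨K2, hK2, hBC⟩ := s4b_clip_2 c0 C0 hc0 hC0
  refine ⟨K1 + K2 + K2, by linarith, ?_⟩
  intro q C1 B I w σ z hq hC1 hB hw hz h0 h1 h2 h3 n0 n1 n2 n3
  have hB0 : 0 < B := by linarith
  have hq0 : 0 < q := by linarith
  set z1 : Fin 4 → ℝ → ℂ := Function.update z (σ 1) (s4b_clipF B (z (σ 1))) with hz1
  set z2 : Fin 4 → ℝ → ℂ := Function.update z1 (σ 2) (s4b_clipF B (z (σ 2))) with hz2
  set z3 : Fin 4 → ℝ → ℂ := Function.update z2 (σ 3) (s4b_clipF B (z (σ 3))) with hz3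
  have hne : ∀ {i j : Fin 4}, i ≠ j → σ i ≠ σ j := fun h => σ.injective.ne h
  have a0 : z1 (σ 0) = z (σ 0) := Function.update_of_ne (hne (by decide)) _ _
  have a1 : z1 (σ 1) = s4b_clipF B (z (σ 1)) := Function.update_self _ _ _
  have a2 : z1 (σ 2) = z (σ 2) := Function.update_of_ne (hne (by decide)) _ _
  have a3 : z1 (σ 3) = z (σ 3) := Function.update_of_ne (hne (by decide)) _ _
  have b0 : z2 (σ 0) = z (σ 0) := (Function.update_of_ne (hne (by decide)) _ _).trans a0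
  have b1 : z2 (σ 1) = s4b_clipF B (z (σ 1)) := (Function.update_of_ne (hne (by decide)) _ _).trans a1
  have b2 : z2 (σ 2) = s4b_clipF B (z (σ 2)) := Function.update_self _ _ _
  have b3 : z2 (σ 3) = z (σ 3) := (Function.update_of_ne (hne (by decide)) _ _).trans a3
  have d0 : z3 (σ 0) = z (σ 0) := (Function.update_of_ne (hne (by decide)) _ _).trans b0
  have d1 : z3 (σ 1) = s4b_clipF B (z (σ 1)) := (Function.update_of_ne (hne (by decide)) _ _).trans b1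
  have d2 : z3 (σ 2) = s4b_clipF B (z (σ 2)) := (Function.update_of_ne (hne (by decide)) _ _).trans b2
  have d3 : z3 (σ 3) = s4b_clipF B (z (σ 3)) := Function.update_self _ _ _
  have hfin : (fun k => if k = σ 0 then z k else s4b_clipF B (z k)) = z3 := by
    funext k
    refine s4b_forall_perm σ (P := fun k => (if k = σ 0 then z k else s4b_clipF B (z k)) = z3 k) ?_ ?_ ?_ ?_ k
    · rw [if_pos rfl, d0]
    · rw [if_neg (hne (by decide)), d1]
    · rw [if_neg (hne (by decide)), d2]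
    · rw [if_neg (hne (by decide)), d3]
  rw [hfin]
  have hcm : ∀ k, Measurable (s4b_clipF B (z k)) := fun k => s4b_clipF_measurable B _ (hz k)
  have hc2 : ∀ k p, MemLp (s4b_clipF B (z k)) p (volume.restrict I.set) := fun k p =>
    s4b_clipF_memLp I B hB0.le _ (hz k) p
  -- step one
  have s1 := hA q C1 B I w σ z hq hC1 hB hw hz h0 h1 h2 h3 n0 n1 n2 n3
  -- step two
  have hz1m : ∀ k, Measurable (z1 k) := s4b_forall_perm σ (P := fun k => Measurable (z1 k))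
    (by rw [a0]; exact hz _) (by rw [a1]; exact hcm _) (by rw [a2]; exact hz _) (by rw [a3]; exact hz _)
  have nq : nnorm q I (s4b_clipF B (z (σ 1))) ≤ 1 :=
    (s4b_clipF_nnorm_le I B hB0.le _ hq0 (s4b_memLp_rpow hq0 h1)).trans n1
  have s2 := hBC q C1 B I w σ z1 hq hC1 hB hw hz1m (by rw [a0]; exact h0) (by rw [a1]; exact hc2 _ _)
    (by rw [a2]; exact h2) (by rw [a3]; exact h3) (by rw [a0]; exact n0) (by rw [a1]; exact nq)
    (by rw [a2]; exact n2) (by rw [a3]; exact n3)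
  rw [a2, ← hz2] at s2
  -- step three
  have hz2m : ∀ k, Measurable (z2 k) := s4b_forall_perm σ (P := fun k => Measurable (z2 k))
    (by rw [b0]; exact hz _) (by rw [b1]; exact hcm _) (by rw [b2]; exact hcm _) (by rw [b3]; exact hz _)
  have nu : nnorm 2 I (s4b_clipF B (z (σ 2))) ≤ 1 :=
    (s4b_clipF_nnorm_le I B hB0.le _ (by norm_num) (s4b_L2_sq h2)).trans n2
  set σ' : Equiv.Perm (Fin 4) := σ * Equiv.swap 2 3 with hσ'
  have t0 : σ' 0 = σ 0 := by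
    rw [hσ', Equiv.Perm.mul_apply, Equiv.swap_apply_of_ne_of_ne (by decide) (by decide)]
  have t1 : σ' 1 = σ 1 := by
    rw [hσ', Equiv.Perm.mul_apply, Equiv.swap_apply_of_ne_of_ne (by decide) (by decide)]
  have t2 : σ' 2 = σ 3 := by rw [hσ', Equiv.Perm.mul_apply, Equiv.swap_apply_left]
  have t3 : σ' 3 = σ 2 := by rw [hσ', Equiv.Perm.mul_apply, Equiv.swap_apply_right]
  have s3 := hBC q C1 B I w σ' z2 hq hC1 hB hw hz2m (by rw [t0, b0]; exact h0)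
    (by rw [t1, b1]; exact hc2 _ _) (by rw [t2, b3]; exact h3) (by rw [t3, b2]; exact hc2 _ _)
    (by rw [t0, b0]; exact n0) (by rw [t1, b1]; exact nq) (by rw [t2, b3]; exact n3) (by rw [t3, b2]; exact nu)
  rw [t2, b3, ← hz3] at s3
  calc ‖form I w z - form I w z3‖
      = ‖(form I w z - form I w z1) + (form I w z1 - form I w z2) + (form I w z2 - form I w z3)‖ := by
        congr 1
        ring
    _ ≤ K1 * C1 * B ^ (-((q - 2) / q)) + K2 * C1 * B ^ (-((q - 2) / q)) + K2 * C1 * B ^ (-((q - 2) / q)) :=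
        (norm_add_le _ _).trans (add_le_add ((norm_add_le _ _).trans (add_le_add s1 s2)) s3)
    _ = (K1 + K2 + K2) * C1 * B ^ (-((q - 2) / q)) := by ring

/-- linearity of the form in one slot, finite sums -/
theorem s4b_form_sum (I : Cell) (w : ℝ × ℝ → ℂ) (z : Fin 4 → ℝ → ℂ) (i : Fin 4) {ι : Type} [Fintype ι] (c : ι → ℂ)
    (f : ι → ℝ → ℂ) (hf : ∀ ν, Integrable (s4b_igd w (Function.update z i (f ν)))) :
    Integrable (s4b_igd w (Function.update z i (fun y => ∑ ν, c ν * f ν y))) ∧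
    form I w (Function.update z i (fun y => ∑ ν, c ν * f ν y)) = ∑ ν, c ν * form I w (Function.update z i (f ν)) := by
  have e : s4b_igd w (Function.update z i (fun y => ∑ ν, c ν * f ν y)) =
      fun p => ∑ ν, c ν * s4b_igd w (Function.update z i (f ν)) p := by
    funext p
    rw [s4b_igd_update, Finset.sum_mul]
    refine Finset.sum_congr rfl fun ν _ => ?_
    rw [s4b_igd_update]
    ring
  constructor
  · rw [e]
    exact integrable_finsetSum _ fun ν _ => (hf ν).const_mul _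
  · rw [s4b_form_eq, e, integral_finsetSum _ fun ν _ => (hf ν).const_mul _, Finset.mul_sum]
    refine Finset.sum_congr rfl fun ν _ => ?_
    rw [integral_const_mul, s4b_form_eq]
    ring

theorem s4b_card_others : ∀ i j : Fin 4, i ≠ j →
    (Finset.univ.filter fun k : Fin 4 => ¬ (k = i ∨ k = j)).card = 2 := by decide

/-- the two slots different from `i`, `j` are divided by `B` -/
theorem s4b_scale_others (I : Cell) (w : ℝ × ℝ → ℂ) (z : Fin 4 → ℝ → ℂ) (i j : Fin 4) (hij : i ≠ j) (B : ℂ) :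
    form I w (fun k y => (if k = i ∨ k = j then 1 else B) * z k y) = B ^ 2 * form I w z := by
  rw [s2_form_smul I w (fun k => if k = i ∨ k = j then 1 else B) z, Finset.prod_ite, Finset.prod_const_one,
    Finset.prod_const, s4b_card_others i j hij, one_mul]

/-- a bounded input is replaced by one bounded atom -/
theorem s4b_replace (c0 C0 : ℝ) (hc0 : 0 < c0) (hC0 : 1 ≤ C0) :
    ∃ K : ℝ, 1 ≤ K ∧ ∀ (I : Cell) (w : ℝ × ℝ → ℂ) (z : Fin 4 → ℝ → ℂ) (i j : Fin 4) (C1 B τ D X : ℝ),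
      Admissible c0 C0 I w → i ≠ j → (∀ k, Measurable (z k)) → s4b_L2 I (z j) → nnorm 2 I (z j) ≤ C1 → 1 ≤ B →
      (∀ k, k ≠ j → SupLe I (z k) B) → 0 < τ → 0 < D → s4b_DecAt I w τ D (fun y => (B : ℂ)⁻¹ * z i y) → 0 ≤ X →
      X + K * C1 * B ^ 3 * τ < ‖form I w z‖ →
      ∃ φ : Chart, φ.Bdd ∧ φ.Cplx D ∧ X / (B * D) < ‖form I w (Function.update z i φ.eval)‖ := by
  obtain ⟨K, hK1, hK⟩ := s4b_abs11 c0 C0 hc0 hC0
  refine ⟨1 + K, by linarith, ?_⟩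
  intro I w z i j C1 B τ D X hw hij hz hzj hC1 hB hsup hτ hD hdec hX hlarge
  obtain ⟨ι, _, c, φ, u, v, hφ, hc, hum, hvm, hu2, hv2, hstar, hv1, hrep⟩ := hdec
  by_contra hcon
  push Not at hcon
  have hB0 : 0 < B := by linarith
  have hC10 : 0 ≤ C1 := (nnorm_nonneg _ _ _).trans hC1
  have hj1 := s4b_nnorm_one_le_two I (z j) (hz j) hzj
  -- general facts on the tuples `z[i := U]`
  have hm : ∀ U : ℝ → ℂ, Measurable U → ∀ k, Measurable (Function.update z i U k) := by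
    intro U hU k
    by_cases hk : k = i
    · subst hk; rw [Function.update_self]; exact hU
    · rw [Function.update_of_ne hk]; exact hz k
  have hj : ∀ U : ℝ → ℂ, Function.update z i U j = z j := fun U => Function.update_of_ne hij.symm _ _
  have key : ∀ U : ℝ → ℂ, Measurable U → s4b_L2 I U →
      Integrable (s4b_igd w (Function.update z i U)) ∧
        ‖form I w (Function.update z i U)‖ ≤ K * nnorm 1 I U * nnorm 1 I (z j) * B ^ 2 := by
    intro U hU hU2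
    have := hK I w (Function.update z i U) i j B hw hij hB0.le (hm U hU)
      (by rw [Function.update_self]; exact (s4b_nnorm_one_le_two I U hU hU2).1)
      (by rw [hj]; exact hj1.1)
      (by
        intro k hki hkj
        rw [Function.update_of_ne hki]
        exact hsup k hkj)
    rwa [Function.update_self, hj] at this
  have hφm : ∀ ν, Measurable (φ ν).eval := fun ν => (s4b_eval_continuous (hφ ν).2).measurable
  have hφ2 : ∀ ν, s4b_L2 I (φ ν).eval := fun ν =>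
    (s4b_L2_of_supLe I _ 1 zero_le_one (hφm ν) fun y _ => (hφ ν).1 y).1
  have hsum := s4b_form_sum I w z i c (fun ν => (φ ν).eval) fun ν => (key _ (hφm ν) (hφ2 ν)).1
  set G : ℝ → ℂ := fun y => ∑ ν, c ν * (φ ν).eval y with hG
  have hu' := key u hum hu2
  have hv' := key v hvm hv2
  have hGu := s4b_form_add I w z i G u hsum.1 hu'.1
  have hGuv := s4b_form_add I w z i (G + u) v hGu.1 hv'.1
  -- the form of `z`
  have e1 : form I w z = (B : ℂ) * form I w (Function.update z i (G + u + v)) := by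
    rw [← s4b_form_smul, s4b_form_eq, s4b_form_eq]
    congr 2
    refine s4b_form_congr hc0 hw fun k y hy => ?_
    by_cases hk : k = i
    · subst hk
      rw [Function.update_self]
      have := hrep y hy
      simp only [Pi.add_apply, hG]
      rw [← this, ← mul_assoc, mul_inv_cancel₀ (by exact_mod_cast hB0.ne'), one_mul]
    · rw [Function.update_of_ne hk]
  -- the structured part
  have b1 : ‖form I w (Function.update z i G)‖ ≤ X / B := by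
    rw [hsum.2]
    calc ‖∑ ν, c ν * form I w (Function.update z i (φ ν).eval)‖
        ≤ ∑ ν, ‖c ν‖ * (X / (B * D)) := by
          refine (norm_sum_le _ _).trans (Finset.sum_le_sum fun ν _ => ?_)
          rw [norm_mul]
          exact mul_le_mul_of_nonneg_left (hcon (φ ν) (hφ ν).1 (hφ ν).2) (norm_nonneg _)
      _ = (∑ ν, ‖c ν‖) * (X / (B * D)) := by rw [Finset.sum_mul]
      _ ≤ D * (X / (B * D)) := by gcongr
      _ = X / B := by field_simp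
  -- the uniform part
  have b2 : ‖form I w (Function.update z i u)‖ ≤ B ^ 2 * (τ * C1) := by
    have hs := s4b_scale_others I w (Function.update z i u) i j hij ((B : ℂ)⁻¹)
    set z'' : Fin 4 → ℝ → ℂ := fun k y => (if k = i ∨ k = j then 1 else (B : ℂ)⁻¹) * Function.update z i u k y
      with hz''
    have hi'' : z'' i = u := by
      funext y
      simp [hz'']
    have hj'' : z'' j = z j := by
      funext y
      simp [hz'', hj]
    have := hstar i j z'' hij hi'' (fun k => measurable_const.mul (hm u hum k)) (by rw [hj'']; exact hzj)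
      (by
        intro k hki hkj y hy
        simp only [hz'', hki, hkj, or_self, if_false]
        rw [Function.update_of_ne hki, norm_mul, norm_inv, Complex.norm_real, Real.norm_of_nonneg hB0.le,
          inv_mul_le_iff₀ hB0, mul_one]
        exact hsup k hkj y hy)
    rw [hs, hj'', norm_mul, norm_pow, norm_inv, Complex.norm_real, Real.norm_of_nonneg hB0.le] at this
    have h3 : ‖form I w (Function.update z i u)‖ ≤ B ^ 2 * (τ * nnorm 2 I (z j)) := by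
      rw [inv_pow, inv_mul_le_iff₀ (by positivity)] at this
      exact this
    exact h3.trans (by gcongr)
  -- the small part
  have b3 : ‖form I w (Function.update z i v)‖ ≤ K * τ * C1 * B ^ 2 := by
    refine hv'.2.trans ?_
    have := nnorm_nonneg 1 I v
    have := nnorm_nonneg 1 I (z j)
    have : nnorm 1 I (z j) ≤ C1 := hj1.2.trans hC1
    gcongr
  have : ‖form I w z‖ ≤ X + (1 + K) * C1 * B ^ 3 * τ := by
    rw [e1, hGuv.2, hGu.2, norm_mul, Complex.norm_real, Real.norm_of_nonneg hB0.le]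
    calc B * ‖form I w (Function.update z i G) + form I w (Function.update z i u) +
          form I w (Function.update z i v)‖
        ≤ B * (X / B + B ^ 2 * (τ * C1) + K * τ * C1 * B ^ 2) := by
          gcongr
          exact (norm_add_le _ _).trans (add_le_add ((norm_add_le _ _).trans (add_le_add b1 b2)) b3)
      _ = X + (1 + K) * C1 * B ^ 3 * τ := by
          field_simp
          ring
  linarith

/-- clipping height -/
noncomputable def s4b_dB (K q C1 δ : ℝ) : ℝ := (100 * K * C1 / δ) ^ (q / (q - 2))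
/-- tolerance of a decomposition step -/
noncomputable def s4b_dTau (K C1 B δ : ℝ) : ℝ := δ / (100 * K * C1 * B ^ 3)
/-- threshold after a decomposition step -/
noncomputable def s4b_dNext (B D δ : ℝ) : ℝ := δ / 2 / (B * D)

/-- one decomposition step with explicit budgets -/
theorem s4b_det_step (c0 C0 : ℝ) (hc0 : 0 < c0) (hC0 : 1 ≤ C0) (hU3 : s4b_U3Target) :
    ∃ (K : ℝ) (Cd : ℕ), 1 ≤ K ∧ ∀ (K' : ℝ) (I : Cell) (w : ℝ × ℝ → ℂ) (z : Fin 4 → ℝ → ℂ) (i j : Fin 4) (C1 B δ : ℝ),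
      K ≤ K' → Admissible c0 C0 I w → i ≠ j → (∀ k, Measurable (z k)) → s4b_L2 I (z j) → nnorm 2 I (z j) ≤ C1 → 1 ≤ C1 →
      1 ≤ B → (∀ k, k ≠ j → SupLe I (z k) B) → 0 < δ → δ < 1 / 2 → 99 / 100 * δ < ‖form I w z‖ →
      ∃ φ : Chart, φ.Bdd ∧ φ.Cplx (s4b_qp Cd (Real.log (1 / s4b_dTau K' C1 B δ))) ∧
        s4b_dNext B (s4b_qp Cd (Real.log (1 / s4b_dTau K' C1 B δ))) δ < ‖form I w (Function.update z i φ.eval)‖ := by
  obtain ⟨K, hK, hrep⟩ := s4b_replace c0 C0 hc0 hC0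
  obtain ⟨Cd, hdec⟩ := s4b_dec c0 C0 hc0 hC0 hU3
  refine ⟨K, Cd, hK, fun K' I w z i j C1 B δ hKK hw hij hm h2 hn hC1 hB hs hδ0 hδ2 hbig => ?_⟩
  have hK'0 : 0 < K' := by linarith
  have hB0 : 0 < B := by linarith
  have hC10 : 0 < C1 := by linarith
  set τ : ℝ := s4b_dTau K' C1 B δ with hτ
  have hden : 1 ≤ 100 * K' * C1 * B ^ 3 := by
    have h1 : 1 ≤ B ^ 3 := one_le_pow₀ hB
    have h2 : 1 ≤ K' := hK.trans hKK
    have h3 : 1 ≤ K' * C1 := by nlinarith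
    have h4 : 1 ≤ K' * C1 * B ^ 3 := by nlinarith
    nlinarith
  have hτ0 : 0 < τ := by rw [hτ]; unfold s4b_dTau; positivity
  have hτle : τ ≤ δ := by
    rw [hτ]; unfold s4b_dTau
    exact div_le_self hδ0.le hden
  have hD := hdec τ I w (fun y => (B : ℂ)⁻¹ * z i y) hτ0 (by linarith) hw ((hm i).const_mul _) (by
    intro y hy
    rw [norm_mul, norm_inv, Complex.norm_real, Real.norm_of_nonneg hB0.le]
    calc B⁻¹ * ‖z i y‖ ≤ B⁻¹ * B := by gcongr; exact hs i hij y hy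
      _ = 1 := inv_mul_cancel₀ hB0.ne')
  have herr : K * C1 * B ^ 3 * τ ≤ δ / 100 := by
    have e : K' * C1 * B ^ 3 * τ = δ / 100 := by
      rw [hτ]; unfold s4b_dTau; field_simp
    calc K * C1 * B ^ 3 * τ ≤ K' * C1 * B ^ 3 * τ := by gcongr
      _ = δ / 100 := e
  obtain ⟨φ, hb, hc, hf⟩ := hrep I w z i j C1 B τ _ (δ / 2) hw hij hm h2 hn hB hs hτ0 (s4b_qp_pos _ _) hD (by linarith)
    (by linarith)
  exact ⟨φ, hb, hc, hf⟩

theorem s4b_dTau_den {K C1 B : ℝ} (hK : 1 ≤ K) (hC1 : 1 ≤ C1) (hB : 1 ≤ B) : 1 ≤ 100 * K * C1 * B ^ 3 := by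
  have h1 : 1 ≤ B ^ 3 := one_le_pow₀ hB
  have h3 : 1 ≤ K * C1 := by nlinarith
  have h4 : 1 ≤ K * C1 * B ^ 3 := by nlinarith
  nlinarith

theorem s4b_dTau_pos {K C1 B δ : ℝ} (hK : 1 ≤ K) (hC1 : 1 ≤ C1) (hB : 1 ≤ B) (hδ : 0 < δ) : 0 < s4b_dTau K C1 B δ := by
  unfold s4b_dTau
  have := s4b_dTau_den hK hC1 hB
  positivity

theorem s4b_dTau_le {K C1 B δ : ℝ} (hK : 1 ≤ K) (hC1 : 1 ≤ C1) (hB : 1 ≤ B) (hδ : 0 < δ) : s4b_dTau K C1 B δ ≤ δ := by
  unfold s4b_dTau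
  exact div_le_self hδ.le (s4b_dTau_den hK hC1 hB)

theorem s4b_dTau_mono {K C1 B δ δ' : ℝ} (hK : 1 ≤ K) (hC1 : 1 ≤ C1) (hB : 1 ≤ B) (h : δ ≤ δ') :
    s4b_dTau K C1 B δ ≤ s4b_dTau K C1 B δ' := by
  unfold s4b_dTau
  have := s4b_dTau_den hK hC1 hB
  gcongr

theorem s4b_log_inv_nonneg {t : ℝ} (h0 : 0 < t) (h1 : t ≤ 1) : 0 ≤ Real.log (1 / t) :=
  Real.log_nonneg (by rw [le_div_iff₀ h0]; linarith)

theorem s4b_dNext_pos {B D δ : ℝ} (hB : 1 ≤ B) (hD : 1 ≤ D) (hδ : 0 < δ) : 0 < s4b_dNext B D δ := by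
  unfold s4b_dNext
  have : 0 < B * D := by nlinarith
  positivity

theorem s4b_dNext_le {B D δ : ℝ} (hB : 1 ≤ B) (hD : 1 ≤ D) (hδ : 0 < δ) : s4b_dNext B D δ ≤ δ / 2 := by
  unfold s4b_dNext
  exact div_le_self (by linarith) (by nlinarith)

/-- the chain of the proof of Lemma 4.12 with explicit budgets -/
theorem s4b_det_chain (c0 C0 : ℝ) (hc0 : 0 < c0) (hC0 : 1 ≤ C0) (hU3 : s4b_U3Target) (hPD : s4b_PairDetect c0 C0) :
    ∃ (K : ℝ) (Cd Cp : ℕ), 1 ≤ K ∧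
      ∀ (q C1 δ : ℝ) (I : Cell) (w : ℝ × ℝ → ℂ) (σ : Equiv.Perm (Fin 4)) (z : Fin 4 → ℝ → ℂ),
      2 < q → 1 ≤ C1 → 0 < δ → δ < 1 / 2 → Admissible c0 C0 I w → (∀ k, Measurable (z k)) → s4b_L2 I (z (σ 0)) →
      MemLp (z (σ 1)) (ENNReal.ofReal q) (volume.restrict I.set) → s4b_L2 I (z (σ 2)) → s4b_L2 I (z (σ 3)) →
      nnorm 2 I (z (σ 0)) ≤ C1 → nnorm q I (z (σ 1)) ≤ 1 → nnorm 2 I (z (σ 2)) ≤ 1 → nnorm 2 I (z (σ 3)) ≤ 1 →
      δ < ‖form I w z‖ →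
      ∀ (B D₁ δ₂ D₂ δ₃ : ℝ), B = s4b_dB K q C1 δ → D₁ = s4b_qp Cd (Real.log (1 / s4b_dTau K C1 B δ)) →
        δ₂ = s4b_dNext B D₁ δ → D₂ = s4b_qp Cd (Real.log (1 / s4b_dTau K C1 B δ₂)) → δ₃ = s4b_dNext B D₂ δ₂ →
      ∃ φ : Chart, φ.Bdd ∧ φ.Cplx (s4b_qp Cp (Real.log D₂ + Real.log C1 + Real.log (1 / δ₃))) ∧
        (s4b_qp Cp (Real.log D₂ + Real.log C1 + Real.log (1 / δ₃)))⁻¹ ≤ ‖s4b_mom I (z (σ 0)) φ.eval‖ := by
  obtain ⟨K₁, hK₁, hclip⟩ := s4b_clip c0 C0 hc0 hC0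
  obtain ⟨K₂, Cd, hK₂, hstep⟩ := s4b_det_step c0 C0 hc0 hC0 hU3
  obtain ⟨Cp, hpd⟩ := hPD
  refine ⟨max K₁ K₂, Cd, Cp, hK₁.trans (le_max_left _ _), ?_⟩
  intro q C1 δ I w σ z hq hC1 hδ0 hδ2 hw hm h20 hq1 h22 h23 n0 n1 n2 n3 hbig B D₁ δ₂ D₂ δ₃ hB hD₁ hδ₂ hD₂ hδ₃
  set K : ℝ := max K₁ K₂ with hK
  have hK1 : 1 ≤ K := hK₁.trans (le_max_left _ _)
  have hK0 : 0 < K := by linarith
  have hC10 : 0 < C1 := by linarith
  have hbase : 1 ≤ 100 * K * C1 / δ := by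
    rw [le_div_iff₀ hδ0]
    have : 1 ≤ K * C1 := by nlinarith
    nlinarith
  have hq2 : 0 < q - 2 := by linarith
  have hq0 : 0 < q := by linarith
  have hB1 : 1 ≤ B := by
    rw [hB]; unfold s4b_dB
    exact Real.one_le_rpow hbase (by positivity)
  have hBpow : B ^ (-((q - 2) / q)) = δ / (100 * K * C1) := by
    rw [hB]; unfold s4b_dB
    rw [← Real.rpow_mul (by linarith)]
    have e : q / (q - 2) * -((q - 2) / q) = -1 := by field_simp
    rw [e, Real.rpow_neg_one, inv_div]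
  set z₁ : Fin 4 → ℝ → ℂ := fun k => if k = σ 0 then z k else s4b_clipF B (z k) with hz₁
  have hc := hclip q C1 B I w σ z hq hC1 hB1 hw hm h20 hq1 h22 h23 n0 n1 n2 n3
  rw [hBpow] at hc
  have herr : K₁ * C1 * (δ / (100 * K * C1)) ≤ δ / 100 := by
    have e : K * C1 * (δ / (100 * K * C1)) = δ / 100 := by field_simp
    calc K₁ * C1 * (δ / (100 * K * C1)) ≤ K * C1 * (δ / (100 * K * C1)) := by
          gcongr; exact le_max_left _ _
      _ = δ / 100 := e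
  have hbig₁ : 99 / 100 * δ < ‖form I w z₁‖ := by
    have := norm_sub_norm_le (form I w z) (form I w z₁)
    linarith
  have hz₁0 : z₁ (σ 0) = z (σ 0) := by rw [hz₁]; simp
  have hz₁k : ∀ k, k ≠ σ 0 → z₁ k = s4b_clipF B (z k) := fun k hk => by rw [hz₁]; simp [hk]
  have hm₁ : ∀ k, Measurable (z₁ k) := by
    intro k
    by_cases hk : k = σ 0
    · rw [hk, hz₁0]; exact hm _
    · rw [hz₁k k hk]; exact s4b_clipF_measurable B _ (hm k)
  have hs₁ : ∀ k, k ≠ σ 0 → SupLe I (z₁ k) B := by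
    intro k hk y _
    rw [hz₁k k hk]
    exact (s4b_clipF_norm_le B (by linarith) (z k) y).1
  have hne : ∀ a b : Fin 4, a ≠ b → σ a ≠ σ b := fun a b h h' => h (σ.injective h')
  -- first decomposition step
  obtain ⟨φ₁, hb₁, hc₁, hf₁⟩ := hstep K I w z₁ (σ 1) (σ 0) C1 B δ (le_max_right _ _) hw (hne 1 0 (by decide)) hm₁
    (by rw [hz₁0]; exact h20) (by rw [hz₁0]; exact n0) hC1 hB1 hs₁ hδ0 hδ2 hbig₁
  rw [← hD₁] at hc₁ hf₁
  rw [← hδ₂] at hf₁
  have hτ₁0 := s4b_dTau_pos hK1 hC1 hB1 hδ0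
  have hτ₁le := s4b_dTau_le hK1 hC1 hB1 hδ0
  have hD₁1 : 1 ≤ D₁ := by rw [hD₁]; exact s4b_one_le_qp _ (s4b_log_inv_nonneg hτ₁0 (by linarith))
  have hδ₂0 : 0 < δ₂ := by rw [hδ₂]; exact s4b_dNext_pos hB1 hD₁1 hδ0
  have hδ₂le : δ₂ ≤ δ / 2 := by rw [hδ₂]; exact s4b_dNext_le hB1 hD₁1 hδ0
  set z₂ : Fin 4 → ℝ → ℂ := Function.update z₁ (σ 1) φ₁.eval with hz₂
  have hz₂1 : z₂ (σ 1) = φ₁.eval := by rw [hz₂]; simp
  have hz₂k : ∀ k, k ≠ σ 1 → z₂ k = z₁ k := fun k hk => by rw [hz₂]; simp [hk]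
  have hm₂ : ∀ k, Measurable (z₂ k) := by
    intro k
    by_cases hk : k = σ 1
    · rw [hk, hz₂1]; exact (s4b_eval_continuous hc₁).measurable
    · rw [hz₂k k hk]; exact hm₁ k
  have hs₂ : ∀ k, k ≠ σ 0 → SupLe I (z₂ k) B := by
    intro k hk
    by_cases hk1 : k = σ 1
    · rw [hk1, hz₂1]; intro y _; exact (hb₁ y).trans hB1
    · rw [hz₂k k hk1]; exact hs₁ k hk
  have hz₂0 : z₂ (σ 0) = z (σ 0) := by rw [hz₂k _ (hne 0 1 (by decide)), hz₁0]
  -- second decomposition step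
  obtain ⟨φ₂, hb₂, hc₂, hf₂⟩ := hstep K I w z₂ (σ 2) (σ 0) C1 B δ₂ (le_max_right _ _) hw (hne 2 0 (by decide)) hm₂
    (by rw [hz₂0]; exact h20) (by rw [hz₂0]; exact n0) hC1 hB1 hs₂ hδ₂0 (by linarith) (by linarith)
  rw [← hD₂] at hc₂ hf₂
  rw [← hδ₃] at hf₂
  have hτ₂0 := s4b_dTau_pos hK1 hC1 hB1 hδ₂0
  have hτ₂le := s4b_dTau_le hK1 hC1 hB1 hδ₂0
  have hτ₂₁ : s4b_dTau K C1 B δ₂ ≤ s4b_dTau K C1 B δ := s4b_dTau_mono hK1 hC1 hB1 (by linarith)
  have hD₂1 : 1 ≤ D₂ := by rw [hD₂]; exact s4b_one_le_qp _ (s4b_log_inv_nonneg hτ₂0 (by linarith))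
  have hD₁₂ : D₁ ≤ D₂ := by
    rw [hD₁, hD₂]
    apply s4b_qp_mono le_rfl (s4b_log_inv_nonneg hτ₁0 (by linarith))
    apply Real.log_le_log (by positivity)
    exact one_div_le_one_div_of_le hτ₂0 hτ₂₁
  have hδ₃0 : 0 < δ₃ := by rw [hδ₃]; exact s4b_dNext_pos hB1 hD₂1 hδ₂0
  have hδ₃le : δ₃ ≤ δ₂ / 2 := by rw [hδ₃]; exact s4b_dNext_le hB1 hD₂1 hδ₂0
  set z₃ : Fin 4 → ℝ → ℂ := Function.update z₂ (σ 2) φ₂.eval with hz₃
  have hz₃2 : z₃ (σ 2) = φ₂.eval := by rw [hz₃]; simp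
  have hz₃k : ∀ k, k ≠ σ 2 → z₃ k = z₂ k := fun k hk => by rw [hz₃]; simp [hk]
  have hz₃0 : z₃ (σ 0) = z (σ 0) := by rw [hz₃k _ (hne 0 2 (by decide)), hz₂0]
  have hz₃1 : z₃ (σ 1) = φ₁.eval := by rw [hz₃k _ (hne 1 2 (by decide)), hz₂1]
  have hz₃3 : z₃ (σ 3) = s4b_clipF B (z (σ 3)) := by
    rw [hz₃k _ (hne 3 2 (by decide)), hz₂k _ (hne 3 1 (by decide)), hz₁k _ (hne 3 0 (by decide))]
  have hm33 : Measurable (s4b_clipF B (z (σ 3))) := s4b_clipF_measurable B _ (hm _)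
  have hL33 := s4b_L2_of_supLe I (s4b_clipF B (z (σ 3))) B (by linarith) hm33
    (fun y _ => (s4b_clipF_norm_le B (by linarith) (z (σ 3)) y).1)
  have hn33 : nnorm 2 I (s4b_clipF B (z (σ 3))) ≤ 1 := by
    refine le_trans (nnorm_mono (by norm_num) ?_ (fun y _ => (s4b_clipF_norm_le B (by linarith) (z (σ 3)) y).2)) n3
    have := h23.integrable_norm_rpow (by norm_num) (by norm_num)
    simp only [ENNReal.toReal_ofNat] at this
    exact this
  obtain ⟨φ, hφb, hφc, hφm⟩ := hpd D₂ C1 δ₃ I w σ z₃ φ₁ φ₂ hC1 hδ₃0 (by linarith) hw hb₁ hb₂ (s4b_cplx_mono hc₁ hD₁₂) hc₂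
    hz₃1 hz₃2 (by rw [hz₃0]; exact hm _) (by rw [hz₃3]; exact hm33) (by rw [hz₃0]; exact h20) (by rw [hz₃3]; exact hL33.1)
    (by rw [hz₃0]; exact n0) (by rw [hz₃3]; exact hn33) hf₂
  rw [hz₃0] at hφm
  exact ⟨φ, hφb, hφc, hφm⟩

/-- `log (qp C y) ≤ C (1+c)^C X^(m C)` if `0 ≤ y ≤ c X^m`, `X ≥ 1` -/
theorem s4b_logqp_le (C₁ : ℕ) {c X y : ℝ} (m : ℕ) (_hc : 0 ≤ c) (hX : 1 ≤ X) (hy0 : 0 ≤ y) (hy : y ≤ c * X ^ m) :
    Real.log (s4b_qp C₁ y) ≤ ((C₁ : ℝ) * (1 + c) ^ C₁) * X ^ (m * C₁) := by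
  rw [s4b_log_qp]
  have hXm : 1 ≤ X ^ m := one_le_pow₀ hX
  have h1 : 1 + y ≤ (1 + c) * X ^ m := by nlinarith
  calc (C₁ : ℝ) * (1 + y) ^ C₁ ≤ (C₁ : ℝ) * ((1 + c) * X ^ m) ^ C₁ := by gcongr
    _ = ((C₁ : ℝ) * (1 + c) ^ C₁) * X ^ (m * C₁) := by rw [mul_pow, ← pow_mul]; ring

theorem s4b_budget_step (Cd : ℕ) (a b e : ℝ) (ha : 0 ≤ a) (hb : 0 ≤ b) (he : 0 ≤ e) :
    ∃ e' : ℝ, 0 ≤ e' ∧ ∀ (m : ℕ) (K C1 B δ X : ℝ), 1 ≤ m → 1 ≤ X → 1 ≤ K → Real.log (100 * K) ≤ a → 1 ≤ C1 →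
      Real.log C1 ≤ X → 1 ≤ B → Real.log B ≤ b * X → 0 < δ → δ ≤ 1 → Real.log (1 / δ) ≤ e * X ^ m →
      Real.log (s4b_qp Cd (Real.log (1 / s4b_dTau K C1 B δ))) ≤ e' * X ^ (m * max Cd 1) ∧
      Real.log (1 / s4b_dNext B (s4b_qp Cd (Real.log (1 / s4b_dTau K C1 B δ))) δ) ≤ e' * X ^ (m * max Cd 1) := by
  set c₂ : ℝ := e + a + 1 + 3 * b with hc₂
  set c₃ : ℝ := (Cd : ℝ) * (1 + c₂) ^ Cd with hc₃
  have hc₂0 : 0 ≤ c₂ := by rw [hc₂]; positivity
  have hc₃0 : 0 ≤ c₃ := by rw [hc₃]; positivity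
  refine ⟨e + 1 + b + c₃, by positivity, ?_⟩
  intro m K C1 B δ X hm hX hK hKa hC1 hC1X hB hBX hδ0 hδ1 hδX
  have hK0 : 0 < K := by linarith
  have hC10 : 0 < C1 := by linarith
  have hB0 : 0 < B := by linarith
  have hXm : X ≤ X ^ m := by
    calc X = X ^ 1 := (pow_one X).symm
      _ ≤ X ^ m := pow_le_pow_right₀ hX hm
  have h1Xm : 1 ≤ X ^ m := one_le_pow₀ hX
  have hmk : m ≤ m * max Cd 1 := Nat.le_mul_of_pos_right m (by positivity)
  have hXmk : X ^ m ≤ X ^ (m * max Cd 1) := pow_le_pow_right₀ hX hmk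
  have hτ0 := s4b_dTau_pos hK hC1 hB hδ0
  have hτle := s4b_dTau_le hK hC1 hB hδ0
  have ht0 : 0 ≤ Real.log (1 / s4b_dTau K C1 B δ) := s4b_log_inv_nonneg hτ0 (by linarith)
  have ht : Real.log (1 / s4b_dTau K C1 B δ) ≤ c₂ * X ^ m := by
    have e1 : 1 / s4b_dTau K C1 B δ = (100 * K) * C1 * B ^ 3 * (1 / δ) := by
      unfold s4b_dTau; field_simp
    rw [e1, Real.log_mul (by positivity) (by positivity), Real.log_mul (by positivity) (by positivity),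
      Real.log_mul (by positivity) (by positivity), Real.log_pow]
    push_cast
    rw [hc₂]
    have hbX : b * X ≤ b * X ^ m := by gcongr
    nlinarith
  have hD := s4b_logqp_le Cd m hc₂0 hX ht0 ht
  have hD' : Real.log (s4b_qp Cd (Real.log (1 / s4b_dTau K C1 B δ))) ≤ c₃ * X ^ (m * max Cd 1) := by
    refine le_trans hD ?_
    rw [← hc₃]
    gcongr
    exact le_max_left _ _
  have hpos : 0 ≤ X ^ (m * max Cd 1) := by positivity
  refine ⟨le_trans hD' (by nlinarith), ?_⟩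
  have hDpos : 0 < s4b_qp Cd (Real.log (1 / s4b_dTau K C1 B δ)) := s4b_qp_pos _ _
  have e2 : 1 / s4b_dNext B (s4b_qp Cd (Real.log (1 / s4b_dTau K C1 B δ))) δ =
      2 * B * s4b_qp Cd (Real.log (1 / s4b_dTau K C1 B δ)) * (1 / δ) := by
    unfold s4b_dNext; field_simp
  rw [e2, Real.log_mul (by positivity) (by positivity), Real.log_mul (by positivity) (by positivity),
    Real.log_mul (by positivity) (by positivity)]
  have hl2 : Real.log 2 ≤ 1 := by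
    have := Real.log_two_lt_d9
    linarith
  have hbX : b * X ≤ b * X ^ (m * max Cd 1) := by
    gcongr
    exact hXm.trans hXmk
  have heX : e * X ^ m ≤ e * X ^ (m * max Cd 1) := by gcongr
  have h1 : 1 ≤ X ^ (m * max Cd 1) := one_le_pow₀ hX
  nlinarith

theorem s4b_det_budget (K : ℝ) (hK : 1 ≤ K) (Cd Cp : ℕ) : ∃ C : ℕ, ∀ q : ℝ, 2 < q → ∃ Cq : ℝ, 0 < Cq ∧
    ∀ (C1 δ B D₁ δ₂ D₂ δ₃ : ℝ), 1 ≤ C1 → 0 < δ → δ < 1 / 2 → B = s4b_dB K q C1 δ →
      D₁ = s4b_qp Cd (Real.log (1 / s4b_dTau K C1 B δ)) → δ₂ = s4b_dNext B D₁ δ →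
      D₂ = s4b_qp Cd (Real.log (1 / s4b_dTau K C1 B δ₂)) → δ₃ = s4b_dNext B D₂ δ₂ →
      s4b_qp Cp (Real.log D₂ + Real.log C1 + Real.log (1 / δ₃)) ≤
        Real.exp (Cq * (1 + Real.log C1 + Real.log (1 / δ)) ^ C) := by
  refine ⟨1 * max Cd 1 * max Cd 1 * Cp, fun q hq => ?_⟩
  have hK0 : 0 < K := by linarith
  set a : ℝ := Real.log (100 * K) with ha
  have ha0 : 0 ≤ a := Real.log_nonneg (by linarith)
  have hq2 : 0 < q - 2 := by linarith
  set r : ℝ := q / (q - 2) with hr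
  have hr0 : 0 ≤ r := by rw [hr]; apply div_nonneg <;> linarith
  set b : ℝ := r * (a + 1) with hb
  have hb0 : 0 ≤ b := by rw [hb]; positivity
  obtain ⟨e₂, he₂0, hs₁⟩ := s4b_budget_step Cd a b 1 ha0 hb0 zero_le_one
  obtain ⟨e₃, he₃0, hs₂⟩ := s4b_budget_step Cd a b e₂ ha0 hb0 he₂0
  refine ⟨(Cp : ℝ) * (1 + (2 * e₃ + 1)) ^ Cp + 1, by positivity, ?_⟩
  intro C1 δ B D₁ δ₂ D₂ δ₃ hC1 hδ0 hδ2 hB hD₁ hδ₂ hD₂ hδ₃
  have hC10 : 0 < C1 := by linarith
  set X : ℝ := 1 + Real.log C1 + Real.log (1 / δ) with hX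
  have hlC : 0 ≤ Real.log C1 := Real.log_nonneg hC1
  have hlδ : 0 ≤ Real.log (1 / δ) := s4b_log_inv_nonneg hδ0 (by linarith)
  have hX1 : 1 ≤ X := by rw [hX]; linarith
  have hbase : 1 ≤ 100 * K * C1 / δ := by
    rw [le_div_iff₀ hδ0]
    have : 1 ≤ K * C1 := by nlinarith
    nlinarith
  have hB1 : 1 ≤ B := by
    rw [hB]; unfold s4b_dB
    exact Real.one_le_rpow hbase hr0
  have hBX : Real.log B ≤ b * X := by
    rw [hB]; unfold s4b_dB
    rw [Real.log_rpow (by linarith)]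
    have e1 : 100 * K * C1 / δ = (100 * K) * C1 * (1 / δ) := by field_simp
    rw [e1, Real.log_mul (by positivity) (by positivity), Real.log_mul (by positivity) (by positivity), ← ha, ← hr, hb]
    have : a + Real.log C1 + Real.log (1 / δ) ≤ (a + 1) * X := by
      rw [hX]; nlinarith
    calc r * (a + Real.log C1 + Real.log (1 / δ)) ≤ r * ((a + 1) * X) := by gcongr
      _ = r * (a + 1) * X := by ring
  have st1 := hs₁ 1 K C1 B δ X le_rfl hX1 hK le_rfl hC1 (by rw [hX]; linarith) hB1 hBX hδ0 (by linarith)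
    (by rw [pow_one, one_mul, hX]; linarith)
  rw [← hD₁] at st1
  rw [← hδ₂] at st1
  have hτ₁0 := s4b_dTau_pos hK hC1 hB1 hδ0
  have hτ₁le := s4b_dTau_le hK hC1 hB1 hδ0
  have hD₁1 : 1 ≤ D₁ := by rw [hD₁]; exact s4b_one_le_qp _ (s4b_log_inv_nonneg hτ₁0 (by linarith))
  have hδ₂0 : 0 < δ₂ := by rw [hδ₂]; exact s4b_dNext_pos hB1 hD₁1 hδ0
  have hδ₂le : δ₂ ≤ δ / 2 := by rw [hδ₂]; exact s4b_dNext_le hB1 hD₁1 hδ0
  have st2 := hs₂ (1 * max Cd 1) K C1 B δ₂ X (by simp) hX1 hK le_rfl hC1 (by rw [hX]; linarith) hB1 hBX hδ₂0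
    (by linarith) st1.2
  rw [← hD₂] at st2
  rw [← hδ₃] at st2
  have hτ₂0 := s4b_dTau_pos hK hC1 hB1 hδ₂0
  have hτ₂le := s4b_dTau_le hK hC1 hB1 hδ₂0
  have hD₂1 : 1 ≤ D₂ := by rw [hD₂]; exact s4b_one_le_qp _ (s4b_log_inv_nonneg hτ₂0 (by linarith))
  have hδ₃0 : 0 < δ₃ := by rw [hδ₃]; exact s4b_dNext_pos hB1 hD₂1 hδ₂0
  have hδ₃le : δ₃ ≤ δ₂ / 2 := by rw [hδ₃]; exact s4b_dNext_le hB1 hD₂1 hδ₂0
  obtain ⟨M, hM⟩ : ∃ M : ℕ, M = 1 * max Cd 1 * max Cd 1 := ⟨_, rfl⟩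
  rw [← hM] at st2 ⊢
  have hXM : 1 ≤ X ^ M := one_le_pow₀ hX1
  have hXleM : X ≤ X ^ M := by
    calc X = X ^ 1 := (pow_one X).symm
      _ ≤ X ^ M := pow_le_pow_right₀ hX1 (by
        rw [hM]
        have : 1 ≤ max Cd 1 := le_max_right _ _
        nlinarith)
  have hy0 : 0 ≤ Real.log D₂ + Real.log C1 + Real.log (1 / δ₃) := by
    have h1 := Real.log_nonneg hD₂1
    have h2 := s4b_log_inv_nonneg hδ₃0 (by linarith)
    linarith
  have hy : Real.log D₂ + Real.log C1 + Real.log (1 / δ₃) ≤ (2 * e₃ + 1) * X ^ M := by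
    have h1 : Real.log C1 ≤ X ^ M := le_trans (by rw [hX]; linarith) hXleM
    nlinarith [st2.1, st2.2]
  have hfin := s4b_logqp_le Cp M (by positivity : (0 : ℝ) ≤ 2 * e₃ + 1) hX1 hy0 hy
  have hpos := s4b_qp_pos Cp (Real.log D₂ + Real.log C1 + Real.log (1 / δ₃))
  rw [← Real.exp_log hpos]
  apply Real.exp_le_exp.mpr
  refine le_trans hfin ?_
  have h0 : 0 ≤ X ^ (M * Cp) := by positivity
  rw [add_mul, one_mul]
  exact le_add_of_nonneg_right h0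

/-- **Local detection** (Lemma 4.12).  `σ 0` = slot of `R`, `σ 1` = slot of the `L^q` input. -/
theorem s4b_detection (c0 C0 : ℝ) (hc0 : 0 < c0) (hC0 : 1 ≤ C0) (hU3 : s4b_U3Target) (hPD : s4b_PairDetect c0 C0) :
    ∃ C : ℕ, ∀ q : ℝ, 2 < q → ∃ Cq : ℝ, 0 < Cq ∧
      ∀ (C1 δ : ℝ) (I : Cell) (w : ℝ × ℝ → ℂ) (σ : Equiv.Perm (Fin 4)) (z : Fin 4 → ℝ → ℂ),
      1 ≤ C1 → 0 < δ → δ < 1 / 2 → Admissible c0 C0 I w → (∀ k, Measurable (z k)) → s4b_L2 I (z (σ 0)) →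
      MemLp (z (σ 1)) (ENNReal.ofReal q) (volume.restrict I.set) → s4b_L2 I (z (σ 2)) → s4b_L2 I (z (σ 3)) →
      nnorm 2 I (z (σ 0)) ≤ C1 → nnorm q I (z (σ 1)) ≤ 1 → nnorm 2 I (z (σ 2)) ≤ 1 → nnorm 2 I (z (σ 3)) ≤ 1 →
      δ < ‖form I w z‖ →
      ∃ φ : Chart, φ.Bdd ∧ φ.Cplx (Real.exp (Cq * (1 + Real.log C1 + Real.log (1 / δ)) ^ C)) ∧
        (Real.exp (Cq * (1 + Real.log C1 + Real.log (1 / δ)) ^ C))⁻¹ ≤ ‖s4b_mom I (z (σ 0)) φ.eval‖ := by
  obtain ⟨K, Cd, Cp, hK, hchain⟩ := s4b_det_chain c0 C0 hc0 hC0 hU3 hPD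
  obtain ⟨C, hbud⟩ := s4b_det_budget K hK Cd Cp
  refine ⟨C, fun q hq => ?_⟩
  obtain ⟨Cq, hCq, hb⟩ := hbud q hq
  refine ⟨Cq, hCq, ?_⟩
  intro C1 δ I w σ z hC1 hδ0 hδ2 hw hm h20 hq1 h22 h23 n0 n1 n2 n3 hbig
  obtain ⟨φ, hφb, hφc, hφm⟩ := hchain q C1 δ I w σ z hq hC1 hδ0 hδ2 hw hm h20 hq1 h22 h23 n0 n1 n2 n3 hbig
    _ _ _ _ _ rfl rfl rfl rfl rfl
  have hle := hb C1 δ _ _ _ _ _ hC1 hδ0 hδ2 rfl rfl rfl rfl rfl
  exact ⟨φ, hφb, s4b_cplx_mono hφc hle, le_trans (inv_anti₀ (s4b_qp_pos _ _) hle) hφm⟩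

theorem s4b_form_scale (I : Cell) (w : ℝ × ℝ → ℂ) (z : Fin 4 → ℝ → ℂ) (i : Fin 4) (c : ℂ) :
    form I w (Function.update z i (fun y => c * z i y)) = c * form I w z := by
  rw [s4b_form_smul, Function.update_eq_self]

theorem s4b_nnorm_scale {p : ℝ} (hp : 0 < p) (I : Cell) (a : ℝ) (ha : 0 < a) (f : ℝ → ℂ) :
    nnorm p I (fun y => ((a⁻¹ : ℝ) : ℂ) * f y) = a⁻¹ * nnorm p I f := by
  have := nnorm_const_smul hp I ((a⁻¹ : ℝ) : ℂ) f
  simp only [smul_eq_mul] at this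
  rw [this, Complex.norm_real, Real.norm_of_nonneg (inv_nonneg.mpr ha.le)]

instance s4b_finite_restrict (I : Cell) : IsFiniteMeasure (volume.restrict I.set) := by
  unfold Cell.set; infer_instance

/-- homogeneous form of local detection -/
theorem s4b_detection_hom (c0 C0 : ℝ) (hc0 : 0 < c0) (hC0 : 1 ≤ C0) (hU3 : s4b_U3Target) (hPD : s4b_PairDetect c0 C0) :
    ∃ C : ℕ, ∀ q : ℝ, 2 < q → ∃ Cq : ℝ, 0 < Cq ∧
      ∀ (C1 δ a₂ a₃ : ℝ) (I : Cell) (w : ℝ × ℝ → ℂ) (σ : Equiv.Perm (Fin 4)) (z : Fin 4 → ℝ → ℂ),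
      1 ≤ C1 → 0 < δ → δ < 1 / 2 → Admissible c0 C0 I w → (∀ k, Measurable (z k)) → s4b_L2 I (z (σ 0)) →
      MemLp (z (σ 1)) (ENNReal.ofReal q) (volume.restrict I.set) → s4b_L2 I (z (σ 2)) → s4b_L2 I (z (σ 3)) →
      nnorm 2 I (z (σ 0)) ≤ C1 → nnorm 2 I (z (σ 2)) ≤ a₂ → nnorm 2 I (z (σ 3)) ≤ a₃ →
      δ * nnorm q I (z (σ 1)) * a₂ * a₃ < ‖form I w z‖ →
      ∃ φ : Chart, φ.Bdd ∧ φ.Cplx (Real.exp (Cq * (1 + Real.log C1 + Real.log (1 / δ)) ^ C)) ∧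
        (Real.exp (Cq * (1 + Real.log C1 + Real.log (1 / δ)) ^ C))⁻¹ ≤ ‖s4b_mom I (z (σ 0)) φ.eval‖ := by
  obtain ⟨C, hdet⟩ := s4b_detection c0 C0 hc0 hC0 hU3 hPD
  obtain ⟨Ka, hKa, habs⟩ := s4b_abs2qq2 c0 C0 hc0 hC0
  refine ⟨C, fun q hq => ?_⟩
  obtain ⟨Cq, hCq, h⟩ := hdet q hq
  refine ⟨Cq, hCq, ?_⟩
  intro C1 δ a₂ a₃ I w σ z hC1 hδ0 hδ2 hw hm h20 hq1 h22 h23 n0 n2 n3 hbig
  set a₁ : ℝ := nnorm q I (z (σ 1)) with ha₁
  have hq0 : 0 < q := by linarith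
  have hq1' : 0 < q - 1 := by linarith
  have ha₁0 : 0 ≤ a₁ := nnorm_nonneg _ _ _
  have ha₂0 : 0 ≤ a₂ := le_trans (nnorm_nonneg _ _ _) n2
  have ha₃0 : 0 ≤ a₃ := le_trans (nnorm_nonneg _ _ _) n3
  have hq'2 : q / (q - 1) ≤ 2 := by rw [div_le_iff₀ hq1']; linarith
  have hq'0 : 0 < q / (q - 1) := by positivity
  have hint2 : IntegrableOn (fun y => ‖z (σ 2) y‖ ^ (2 : ℝ)) I.set := by
    have := h22.integrable_norm_rpow (by norm_num) (by norm_num)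
    simp only [ENNReal.toReal_ofNat] at this
    exact this
  have hmem : MemLp (z (σ 2)) (ENNReal.ofReal (q / (q - 1))) (volume.restrict I.set) := by
    refine h22.mono_exponent ?_
    calc ENNReal.ofReal (q / (q - 1)) ≤ ENNReal.ofReal 2 := ENNReal.ofReal_le_ofReal hq'2
      _ = 2 := by norm_num
  have hub := (habs q I w z σ hq hw hm h20 h23 hq1 hmem).2
  have hnq' : nnorm (q / (q - 1)) I (z (σ 2)) ≤ a₂ :=
    le_trans (nnorm_mono_exponent hq'0 hq'2 (hm _).aestronglyMeasurable hint2) n2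
  have hub' : ‖form I w z‖ ≤ Ka * C1 * a₁ * a₂ * a₃ := by
    refine le_trans hub ?_
    have := nnorm_nonneg 2 I (z (σ 0))
    have := nnorm_nonneg (q / (q - 1)) I (z (σ 2))
    have := nnorm_nonneg 2 I (z (σ 3))
    have hKa0 : 0 ≤ Ka := by linarith
    gcongr
  have hprod : 0 < a₁ * a₂ * a₃ := by
    have h1 : 0 ≤ δ * a₁ * a₂ * a₃ := by positivity
    have h2 : 0 < Ka * C1 * a₁ * a₂ * a₃ := by linarith
    by_contra hcon
    have h3 : a₁ * a₂ * a₃ = 0 := le_antisymm (not_lt.mp hcon) (by positivity)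
    have h4 : Ka * C1 * a₁ * a₂ * a₃ = Ka * C1 * (a₁ * a₂ * a₃) := by ring
    rw [h4, h3, mul_zero] at h2
    exact lt_irrefl _ h2
  have ha₁ : 0 < a₁ := by
    rcases ha₁0.lt_or_eq with h | h
    · exact h
    · rw [← h] at hprod; simp at hprod
  have ha₂ : 0 < a₂ := by
    rcases ha₂0.lt_or_eq with h | h
    · exact h
    · rw [← h] at hprod; simp at hprod
  have ha₃ : 0 < a₃ := by
    rcases ha₃0.lt_or_eq with h | h
    · exact h
    · rw [← h] at hprod; simp at hprod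
  have hne : ∀ a b : Fin 4, a ≠ b → σ a ≠ σ b := fun a b h h' => h (σ.injective h')
  set za : Fin 4 → ℝ → ℂ := Function.update z (σ 1) (fun y => ((a₁⁻¹ : ℝ) : ℂ) * z (σ 1) y) with hza
  set zb : Fin 4 → ℝ → ℂ := Function.update za (σ 2) (fun y => ((a₂⁻¹ : ℝ) : ℂ) * za (σ 2) y) with hzb
  set zc : Fin 4 → ℝ → ℂ := Function.update zb (σ 3) (fun y => ((a₃⁻¹ : ℝ) : ℂ) * zb (σ 3) y) with hzc
  have hform : form I w zc = ((a₃⁻¹ : ℝ) : ℂ) * (((a₂⁻¹ : ℝ) : ℂ) * (((a₁⁻¹ : ℝ) : ℂ) * form I w z)) := by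
    rw [hzc, s4b_form_scale, hzb, s4b_form_scale, hza, s4b_form_scale]
  have e0 : zc (σ 0) = z (σ 0) := by
    rw [hzc, Function.update_of_ne (hne 0 3 (by decide)), hzb, Function.update_of_ne (hne 0 2 (by decide)), hza,
      Function.update_of_ne (hne 0 1 (by decide))]
  have e1 : zc (σ 1) = fun y => ((a₁⁻¹ : ℝ) : ℂ) * z (σ 1) y := by
    rw [hzc, Function.update_of_ne (hne 1 3 (by decide)), hzb, Function.update_of_ne (hne 1 2 (by decide)), hza,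
      Function.update_self]
  have e2 : zc (σ 2) = fun y => ((a₂⁻¹ : ℝ) : ℂ) * z (σ 2) y := by
    rw [hzc, Function.update_of_ne (hne 2 3 (by decide)), hzb, Function.update_self, hza,
      Function.update_of_ne (hne 2 1 (by decide))]
  have e3 : zc (σ 3) = fun y => ((a₃⁻¹ : ℝ) : ℂ) * z (σ 3) y := by
    rw [hzc, Function.update_self, hzb, Function.update_of_ne (hne 3 2 (by decide)), hza,
      Function.update_of_ne (hne 3 1 (by decide))]
  have hmc : ∀ k, Measurable (zc k) := by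
    intro k
    obtain ⟨l, rfl⟩ := σ.surjective k
    fin_cases l
    · show Measurable (zc (σ 0)); rw [e0]; exact hm _
    · show Measurable (zc (σ 1)); rw [e1]; exact (hm _).const_mul _
    · show Measurable (zc (σ 2)); rw [e2]; exact (hm _).const_mul _
    · show Measurable (zc (σ 3)); rw [e3]; exact (hm _).const_mul _
  have hbigc : δ < ‖form I w zc‖ := by
    rw [hform]
    simp only [norm_mul, Complex.norm_real]
    rw [Real.norm_of_nonneg (inv_nonneg.mpr ha₁.le), Real.norm_of_nonneg (inv_nonneg.mpr ha₂.le),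
      Real.norm_of_nonneg (inv_nonneg.mpr ha₃.le)]
    have : δ = a₃⁻¹ * (a₂⁻¹ * (a₁⁻¹ * (δ * a₁ * a₂ * a₃))) := by field_simp
    rw [this]
    gcongr
  obtain ⟨φ, hφb, hφc, hφm⟩ := h C1 δ I w σ zc hC1 hδ0 hδ2 hw hmc (by rw [e0]; exact h20)
    (by rw [e1]; exact hq1.const_mul _) (by rw [e2]; exact h22.const_mul _) (by rw [e3]; exact h23.const_mul _)
    (by rw [e0]; exact n0)
    (by rw [e1, s4b_nnorm_scale hq0 I a₁ ha₁]; exact le_of_eq (inv_mul_cancel₀ ha₁.ne'))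
    (by
      rw [e2, s4b_nnorm_scale (by norm_num) I a₂ ha₂]
      calc a₂⁻¹ * nnorm 2 I (z (σ 2)) ≤ a₂⁻¹ * a₂ := by gcongr
        _ = 1 := inv_mul_cancel₀ ha₂.ne')
    (by
      rw [e3, s4b_nnorm_scale (by norm_num) I a₃ ha₃]
      calc a₃⁻¹ * nnorm 2 I (z (σ 3)) ≤ a₃⁻¹ * a₃ := by gcongr
        _ = 1 := inv_mul_cancel₀ ha₃.ne')
    hbigc
  rw [e0] at hφm
  exact ⟨φ, hφb, hφc, hφm⟩

end Claimed.Agent.R258
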