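/-
Row 258, block [S4b] (architect helper99).  FILE Adapt: local detection in the form consumed by Sec. 5 (`Detect` of `S5/Greedy.lean`, helper182).

PLAN.  `¬ DSmall q I w j r δ` gives `z : Fin 4 → XV`, `m ≠ j`, `z j = r`, `physFn (z m) ∈ L^q(I)` and
   `δ ‖physFn (z m)‖_{q,I} ∏_{l ≠ j,m} n2 I (z l) < ‖formV I w z‖ = ‖form I w (physFn ∘ z)‖`.
Choose `σ` with `σ 0 = j`, `σ 1 = m` (`s4b_exists_perm`); `(univ.erase j).erase m = {σ 2, σ 3}`; apply `s4b_detection_hom` with `C1 = 1`, `a₂ = n2 I (z (σ 2))`, `a₃ = n2 I (z (σ 3))`,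
using `s4b_physFn_measurable`, `s4b_physFn_L2`;  `mom I r φ = s4b_mom I (physFn r) φ` by definition.
-/
import Claimed.Agent.R258.S4b.Det
import Claimed.Agent.R258.Pack017
import Claimed.Agent.R258.S5.Form

set_option autoImplicit false
open MeasureTheory Filter Topology
open scoped ENNReal ContDiff ComplexConjugate

namespace Claimed.Agent.R258

theorem s4b_physFn_measurable (r : XV) : Measurable (physFn r) := s5f_phys_measurable r

/-- the norm of the restriction operator -/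
theorem s4b_restr_norm_sq (E : Set ℝ) (hE : MeasurableSet E) (r : XV) :
    ‖restr E r‖ ^ 2 = ∫ y in E, ‖(r : ℝ → HV) y‖ ^ 2 := xv_normsq_restr hE r

theorem s4b_physFn_L2 (I : Cell) (r : XV) : s4b_L2 I (physFn r) ∧ nnorm 2 I (physFn r) ≤ n2 I r := by
  refine ⟨?_, s5f_nnorm_phys_le I r⟩
  unfold s4b_L2
  rw [memLp_two_iff_integrable_sq_norm (s5f_phys_measurable r).aestronglyMeasurable]
  exact (s5f_phys_sq_integrable r).integrableOn

theorem s4b_erase_erase (σ : Equiv.Perm (Fin 4)) :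
    (Finset.univ.erase (σ 0)).erase (σ 1) = {σ 2, σ 3} := by
  ext x
  obtain ⟨y, rfl⟩ := σ.surjective x
  simp only [Finset.mem_erase, Finset.mem_univ, and_true, Finset.mem_insert, Finset.mem_singleton, ne_eq,
    EmbeddingLike.apply_eq_iff_eq]
  fin_cases y <;> simp

/-- **Local detection in the form of Sec. 5.** -/
theorem s4b_Detect (c0 C0 : ℝ) (hc0 : 0 < c0) (hC0 : 1 ≤ C0) (hU3 : s4b_U3Target) (hPD : s4b_PairDetect c0 C0) :
    ∃ C : ℕ, ∀ q : ℝ, 2 < q → ∃ Cq : ℝ, 0 < Cq ∧ ∀ δ : ℝ, 0 < δ → δ < 1 / 2 →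
      Detect c0 C0 q δ (Real.exp (Cq * (1 + Real.log (1 / δ)) ^ C))⁻¹ (Real.exp (Cq * (1 + Real.log (1 / δ)) ^ C)) := by
  obtain ⟨C, h⟩ := s4b_detection_hom c0 C0 hc0 hC0 hU3 hPD
  refine ⟨C, fun q hq => ?_⟩
  obtain ⟨Cq, hCq, hd⟩ := h q hq
  refine ⟨Cq, hCq, fun δ hδ0 hδ2 => ?_⟩
  intro I w hw j r hr hns
  unfold DSmall at hns
  push Not at hns
  obtain ⟨z, m, hzj, hmj, hLq, hbig⟩ := hns
  obtain ⟨σ, h0, h1⟩ := s4b_exists_perm m j hmj
  subst h0 h1
  rw [s4b_erase_erase σ, Finset.prod_pair (fun h => by simpa using σ.injective h)] at hbig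
  have key := hd 1 δ (n2 I (z (σ 2))) (n2 I (z (σ 3))) I w σ (fun k => physFn (z k)) le_rfl hδ0 hδ2 hw
    (fun k => s4b_physFn_measurable _) (s4b_physFn_L2 I _).1 hLq (s4b_physFn_L2 I _).1 (s4b_physFn_L2 I _).1
    (le_trans (s4b_physFn_L2 I _).2 (by rw [hzj]; exact hr)) (s4b_physFn_L2 I _).2 (s4b_physFn_L2 I _).2
    (by
      have e : δ * nnorm q I (physFn (z (σ 1))) * n2 I (z (σ 2)) * n2 I (z (σ 3)) =
          δ * nnorm q I (physFn (z (σ 1))) * (n2 I (z (σ 2)) * n2 I (z (σ 3))) := by ring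
      rw [e]
      exact hbig)
  obtain ⟨φ, hB, hC, hM⟩ := key
  simp only [Real.log_one, add_zero] at hC hM
  refine ⟨φ, hC, hB, ?_⟩
  rw [hzj] at hM
  exact hM

end Claimed.Agent.R258
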